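import Vale.Agent.P119.RB.Part
import Vale.Agent.P119.TL.Rebirth

/-!
# P119, feedback block, concrete part 1: direct contacts (`helper939`)

`direct_of_touch`: if the inserted source `l` touches not later than its first M-contact, then it
flies freely into the real or M-path of an exposed particle of the base world, or its first
M-contact makes somebody bad.
-/

open MeasureTheory Filter Topology Set

noncomputable section

namespace Vale.Agent.P119.FB

open M CTree KU RB

variable {Φ : E3 → ℝ} {ε : ℝ} {L : ℕ} {hΦ : IsPotential Φ} {hε : 0 < ε}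

variable {w : Finset Src} {l a b : Src} {s t : ℝ}

/-- Different labels are in one of the worlds. -/
theorem sta_eq_of_notMem {W₁ W₂ : Set Src} (h₁ : a ∉ W₁) (h₂ : a ∉ W₂) (s : ℝ) :
    sta Φ ε L W₁ a s = sta Φ ε L W₂ a s := by
  have e1 : stat Φ ε L W₁ a s = none := stat_not_mem h₁
  have e2 : stat Φ ε L W₂ a s = none := stat_not_mem h₂
  have e3 : badc Φ ε L W₁ a s = badc Φ ε L W₂ a s := by
    apply propext
    exact ⟨fun h => absurd h.mem h₁, fun h => absurd h.mem h₂⟩
  unfold sta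
  rw [e1, e2, e3]
  congr 1
  apply propext
  exact ⟨fun h => absurd h h₁, fun h => absurd h h₂⟩

/-- A label of only one of the worlds is different at all times. -/
theorem mem_D_of_mem {W₁ W₂ : Finset Src} (h : ¬(a ∈ W₁ ↔ a ∈ W₂)) (t : ℝ) :
    a ∈ (Y Φ ε L hΦ hε).D W₁ W₂ t := by
  refine ⟨t, le_rfl, ?_⟩
  refine sta_ne_of_mem (t := t) ?_
  simpa using h

/-- `Loc.new` with the M-contacts. -/
theorem new' (W₁ W₂ : Finset Src) (t : ℝ) (a : Src) (h₁ : a ∈ W₁) (h₂ : a ∈ W₂)
    (hD : a ∈ (Y Φ ε L hΦ hε).D W₁ W₂ t)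
    (hlt : a ∉ (Y Φ ε L hΦ hε).Dlt W₁ W₂ t) :
    ∃ b ∉ (Y Φ ε L hΦ hε).Dlt W₁ W₂ t, ∃ z ∈ (Y Φ ε L hΦ hε).Dlt W₁ W₂ t,
      ((b = a ∨ mcon Φ ε L (W₁ : Set Src) t a b) ∧ mcon Φ ε L (W₁ : Set Src) t b z) ∨
      ((b = a ∨ mcon Φ ε L (W₂ : Set Src) t a b) ∧ mcon Φ ε L (W₂ : Set Src) t b z) := by
  have hne : ∀ s < t, sta Φ ε L (W₁ : Set Src) a s = sta Φ ε L (W₂ : Set Src) a s := by
    intro s hs
    by_contra hcon
    exact hlt ⟨s, hs, s, le_rfl, hcon⟩
  obtain ⟨s, hs, hst⟩ := hD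
  have hs' : s = t := by
    rcases hs.lt_or_eq with h | h
    · exact absurd (hne s h) hst
    · exact h
  subst hs'
  obtain ⟨b, z, hb, ⟨r, hr, hz⟩, h⟩ := sta_new hΦ hε W₁.finite_toSet W₂.finite_toSet
    (Finset.mem_coe.2 h₁) (Finset.mem_coe.2 h₂) hst hne
  refine ⟨b, ?_, z, ⟨r, hr, r, le_rfl, hz⟩, h⟩
  rintro ⟨r', hr', q, hq, hbq⟩
  exact hbq (hb q (hq.trans_lt hr'))

/-- An inserted source before its first M-contact. -/
theorem live_leaf_of {W : Set Src} (hΦ : IsPotential Φ) (hε : 0 < ε) (hW : W.Finite) (hl : l ∈ W)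
    (h0 : 0 ≤ l.1) (hd : l.2.2 ≤ L) (hs : l.1 ≤ s)
    (hn : ∀ r < s, ∀ b, ¬mcon Φ ε L W r l b) : live Φ ε L W (leaf l) s := by
  refine ⟨?_, h0, hd, hs, fun T' r hr hh ha => ?_⟩
  · rintro x rfl
    exact hl
  · obtain ⟨T₂, u, hu, -, h2, h3, h4⟩ := TL.exists_first_hit hΦ hε hW (T := leaf l) h0 hh ha
    have hlive' : live Φ ε L W (leaf l) u :=
      ⟨by rintro x rfl; exact hl, h0, hd, h2.1, h4⟩
    rcases mcon_of_hit hΦ hε hW hlive' (Or.inr rfl) h2 h3 with h | ⟨x, y, h, -⟩
    · exact hn u (by linarith) _ h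
    · exact absurd h (by rintro ⟨⟩)

/-- The current tree of an inserted source up to its first M-contact. -/
theorem lives_leaf {W : Set Src} (hΦ : IsPotential Φ) (hε : 0 < ε) (hW : W.Finite) (hl : l ∈ W)
    (h0 : 0 ≤ l.1) (hd : l.2.2 ≤ L) (hs : l.1 ≤ s)
    (hn : ∀ r ≤ s, ∀ b, ¬mcon Φ ε L W r l b) : lives Φ ε L W (leaf l) s := by
  have h1 := live_leaf_of hΦ hε hW hl h0 hd hs fun r hr => hn r hr.le
  refine ⟨h1.sub, h1.ok, h1.depth, hs, fun T' r hr hh ha => ?_⟩
  rcases hr.lt_or_eq with hr | rfl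
  · exact h1.nohit T' r hr hh ha
  · rcases mcon_of_hit hΦ hε hW h1 (Or.inr rfl) hh ha with h | ⟨x, y, h, -⟩
    · exact hn r le_rfl _ h
    · exact absurd h (by rintro ⟨⟩)

/-- A source without M-contact moves on its line. -/
theorem st_eq_free {W : Set Src} (hΦ : IsPotential Φ) (hε : 0 < ε) (hW : W.Finite) {T : CTree}
    (h : live Φ ε L W T s) (hl : live Φ ε L W (leaf T.root) s) :
    st Φ ε T s = free s T.root.2.1 := by
  rcases live_sig hΦ hε hW h with ⟨h1, -⟩ | ⟨T₀, h1, h2, h3, h4⟩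
  · rw [h1]; rfl
  · have h5 : sig Φ ε (leaf T.root) < s := by
      have := root_birth_le_sig hΦ hε h2.ok
      rw [h1] at this
      exact this.trans_lt h3
    have h6 := live_unique hΦ hε hW h2 hl h1 h3 h5
    rw [← h4, h6]
    rfl

/-- Nothing happens before the time `0`. -/
theorem D_neg {W₁ W₂ : Finset Src} (hs : s < 0)
    (h : a ∈ (Y Φ ε L hΦ hε).D W₁ W₂ s) : ¬(a ∈ W₁ ↔ a ∈ W₂) := by
  intro hiff
  obtain ⟨r, hr, hne⟩ := h
  apply hne
  have hr0 : r < 0 := hr.trans_lt hs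
  have hstat : ∀ W : Set Src, stat Φ ε L W a r = none := by
    intro W
    rw [stat_eq_none_iff]
    intro T hT hl
    have h1 := (root_birth_nonneg hl.ok).trans (live.birth_le hΦ hε hl.live)
    linarith
  have hbad : ∀ W : Set Src, ¬badc Φ ε L W a r := fun W h => absurd h.nonneg (not_le.2 hr0)
  change sta Φ ε L (W₁ : Set Src) a r = sta Φ ε L (W₂ : Set Src) a r
  unfold sta
  rw [hstat, hstat, eq_false (hbad _), eq_false (hbad _)]
  congr 1
  simpa using hiff

/-- The phase point `p` is, at time `r`, in contact with the real path or the M-path of the particle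
`b` of the world `W`. -/
def Hits (Φ : E3 → ℝ) (ε : ℝ) (L : ℕ) (W : Finset Src) (b : Src)
    (r : ℝ) (p : Ph) : Prop :=
  (b.1 ≤ r ∧ Ctc ε p (XR Φ ε W r b)) ∨
    ∃ S : CTree, S.root = b ∧ live Φ ε L (W : Set Src) S r ∧ Ctc ε p (st Φ ε S r)

/-- Direct contact of the free source `l` with an exposed particle of `w` up to the time `t`. -/
def Direct (Φ : E3 → ℝ) (ε : ℝ) (L : ℕ) (hΦ : IsPotential Φ)
    (hε : 0 < ε) (w : Finset Src) (l : Src) (t : ℝ) : Prop :=
  ∃ r ≤ t, l.1 ≤ r ∧ ∃ b, (Y Φ ε L hΦ hε).Exp w b r ∧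
    Hits Φ ε L w b r (free r l.2.1)

open Classical in
/-- Before the first M-contact of `l` nothing else is different. -/
theorem dlt_subset_single (hl : l ∉ w) {σ : ℝ}
    (hn : ∀ r < σ, ∀ b, ¬mcon Φ ε L (insert l w : Finset Src) r l b) :
    (Y Φ ε L hΦ hε).Dlt w (insert l w) σ ⊆ {l} := by
  have hmem : ∀ a, ¬(a ∈ w ↔ a ∈ insert l w) → a = l := by
    intro a ha
    by_contra hne
    exact ha (by simp [Finset.mem_insert, hne])
  refine Sys.dlt_subset (mc := fun W r a b => mcon Φ ε L (W : Set Src) r a b) (σ₁ := 0)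
    (fun t a h1 h2 h3 h4 => new' w _ t a h1 h2 h3 h4) ?_ ?_ ?_ ?_ ?_
  · rintro a (⟨h1, h2⟩ | ⟨h1, h2⟩)
    · exact absurd (Finset.mem_insert_of_mem h1) h2
    · exact hmem a fun h => h2 (h.2 h1)
  · intro a h1 h2 s
    exact sta_eq_of_notMem (by simpa using h1) (by simpa using h2) s
  · rintro a ⟨s, hs, ha⟩
    exact hmem a (D_neg hs ha)
  · rintro r hr0 hr x rfl b hb
    exact ⟨fun h => hl (Finset.mem_coe.1 h.mem.2), fun h => hn r hr b h.symm⟩
  · rintro r hr0 hr x rfl b hbx a ha hbD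
    refine ⟨fun h => hl (Finset.mem_coe.1 h.2.mem.2), fun h => ?_⟩
    rw [mem_singleton_iff.1 hbx] at h
    exact h.2.1 rfl

open Classical in
/-- **Case (0).**  If the first touch `τ` is not later than the first M-contact of `l` then `l` has
a direct contact with an exposed particle of the base world, or `τ` is the time of the first
M-contact of `l` and somebody is newly bad at that time. -/
theorem direct_of_touch (hw : ∀ a ∈ w, 0 ≤ a.1) (hl : l ∉ w) (h0 : 0 ≤ l.1) (hd : l.2.2 ≤ L)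
    {τ : ℝ} (hτ : (Y Φ ε L hΦ hε).Touch w (insert l w) τ)
    (hfirst : ∀ s < τ, ¬(Y Φ ε L hΦ hε).Touch w (insert l w) s)
    (hn : ∀ r < τ, ∀ b, ¬mcon Φ ε L (insert l w : Finset Src) r l b) :
    Direct Φ ε L hΦ hε w l τ ∨
      ((∃ b, mcon Φ ε L (insert l w : Finset Src) τ l b) ∧
        ∃ a, badc Φ ε L (insert l w : Finset Src) a τ ∧ ¬badc Φ ε L (w : Set Src) a τ) := by
  have hw' : ∀ a ∈ insert l w, 0 ≤ a.1 := by
    intro a ha
    rcases Finset.mem_insert.1 ha with rfl | ha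
    · exact h0
    · exact hw a ha
  have hD : (Y Φ ε L hΦ hε).Dlt w (insert l w) τ ⊆ {l} := dlt_subset_single hl hn
  have hW : ((insert l w : Finset Src) : Set Src).Finite := Finset.finite_toSet _
  have hlD : ∀ s, l ∈ (Y Φ ε L hΦ hε).D w (insert l w) s := fun s => mem_D_of_mem (by simp [hl]) s
  have hunexp : ∀ q < τ, ¬(Y Φ ε L hΦ hε).Exp (insert l w) l q := fun q hq h =>
    hfirst q hq ⟨l, hlD q, Or.inr h⟩
  have hlive : ∀ r ≤ τ, l.1 ≤ r → live Φ ε L (insert l w : Finset Src) (leaf l) r :=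
    fun r hr hb => live_leaf_of hΦ hε hW (by simp) h0 hd hb fun q hq => hn q (by linarith)
  rcases Sys.direct (X := {l}) (fun h => RB.con.symm h) (Finset.subset_insert l w)
    (fun a ha => by rw [mem_singleton_iff.1 ha]; exact hl) (Y_loc hΦ hε hw hw') hD hτ hfirst with
    ⟨x, hx, b, r, hr, hb, hc⟩ | ⟨a, r, hr, h1, h2⟩
  · left
    rw [mem_singleton_iff.1 hx] at hc
    have hbw : b ∈ w := hb.mem
    have hbl : b ≠ l := fun h => hl (h ▸ hbw)
    have hrD : (Y Φ ε L hΦ hε).Dlt w (insert l w) r ⊆ {l} := fun z ⟨q, hq, hz⟩ => hD ⟨q, by linarith, hz⟩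
    have hbD : b ∉ (Y Φ ε L hΦ hε).Dlt w (insert l w) r := fun h => hbl (hrD h)
    have hlr : l.1 ≤ r := (RB.con.birth_le hΦ hε hc).1
    have hbr : b.1 ≤ r := (RB.con.birth_le hΦ hε hc).2
    refine ⟨r, hr, hlr, b, hb, ?_⟩
    rcases hc with ⟨-, T, S, hT, hS, h3, h4, h5⟩ | h3
    · right
      have e1 : st Φ ε T r = free r l.2.1 := by
        have := st_eq_free hΦ hε hW h3 (by rw [hT]; exact hlive r hr hlr)
        rw [this, hT]
      have hsb : ∀ q < r, stat Φ ε L ((insert l w : Finset Src) : Set Src) S.root q =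
          stat Φ ε L (w : Set Src) S.root q := by
        intro q hq
        by_contra hcon
        refine hbD ⟨q, hq, q, le_rfl, fun h => hcon ?_⟩
        rw [hS]
        exact (stat_of_sta h).symm
      obtain ⟨S', h6, h7, h8⟩ := live_congr' hΦ hε hW w.finite_toSet
        (fun _ => by rw [hS]; exact Finset.mem_coe.2 hbw) hsb h4
      refine ⟨S', h6.trans hS, h7, ?_⟩
      rw [h8, ← e1]
      exact h5
    · left
      refine ⟨hbr, ?_⟩
      have e1 : XR Φ ε (insert l w) r l = free r l.2.1 :=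
        Y_real_st hΦ hε hw' (T := leaf l) (fun s hs => hunexp s (by linarith)) (hlive r hr hlr)
      have e2 : XR Φ ε w r b = XR Φ ε (insert l w) r b :=
        Y_real_eq hΦ hε hw hw' (fun s hs => hfirst s (by linarith)) hbD le_rfl
      have h4 := h3.2.2.2.2.2.2
      rw [e1, ← e2] at h4
      exact h4
  · right
    have h1' : badc Φ ε L ((insert l w : Finset Src) : Set Src) a τ := badc.mono h1 hr
    have haD : a ∈ (Y Φ ε L hΦ hε).D w (insert l w) r := ⟨r, le_rfl, fun h => h2 (by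
      have := badc_of_sta h
      change badc Φ ε L (w : Set Src) a r
      rw [this]
      exact h1)⟩
    -- there is an M-contact of `l` at `τ`
    by_cases hal : a = l
    · subst hal
      have hmc : ∃ b, mcon Φ ε L (insert a w : Finset Src) τ a b := by
        by_contra hcon
        push Not at hcon
        obtain ⟨q, hq, hq1, hq2, hq3, hq4⟩ := h1
        have hq5 : q ≤ τ := by linarith
        have hn' : ∀ r ≤ q, ∀ b, ¬mcon Φ ε L ((insert a w : Finset Src) : Set Src) r a b := by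
          intro r hr b hb
          rcases (hr.trans hq5).lt_or_eq with h | h
          · exact hn r h b hb
          · rw [h] at hb
            exact hcon b hb
        rcases hq4 with hq4 | ⟨c, hc, -⟩
        · rw [stat_eq_none_iff] at hq4
          exact hq4 (leaf a) rfl (lives_leaf hΦ hε hW (by simp) h0 hd hq3 hn')
        · exact hn' q le_rfl c hc
      exact ⟨hmc, a, h1', fun h => hl (Finset.mem_coe.1 h.mem)⟩
    · have hrτ : r = τ := by
        rcases hr.lt_or_eq with h | h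
        · exact absurd (hD ⟨r, h, haD⟩) hal
        · exact h
      subst hrτ
      refine ⟨?_, a, h1, h2⟩
      have haw : a ∈ w := by
        have := Finset.mem_coe.1 (badc.mem h1)
        rcases Finset.mem_insert.1 this with h | h
        · exact absurd h hal
        · exact h
      obtain ⟨b, hb, z, hz, h3⟩ := new' w (insert l w) r a haw (Finset.mem_insert_of_mem haw) haD
        fun h => hal (hD h)
      rw [mem_singleton_iff.1 (hD hz)] at h3
      rcases h3 with ⟨-, h4⟩ | ⟨-, h4⟩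
      · exact absurd (Finset.mem_coe.1 h4.mem.2) hl
      · exact ⟨b, h4.symm⟩

end Vale.Agent.P119.FB
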