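import Vale.Agent.P119.FB.Step

/-!
# P119, feedback block: ties (`helper909`)

At the first time `σ` at which an index of a cube touches the base, a touch between two worlds `W A`
and `W B` of the cube is caused by an index which belongs to one of `A`, `B` only
(`Cube.touch_tie`); indices that belong to both do not matter even if they touch at the same time.
The input is `Part`: two labels in contact which were not exposed before, the first one not bad, are
partners, hence the second has different histories if the first has.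
-/

open Set

namespace Vale.Agent.P119.FB

namespace Sys

variable {α S ι : Type*} {Y : Sys α S}

/-- Partners have different histories together. -/
def Part (Y : Sys α S) (W₁ W₂ : Finset α) : Prop :=
  ∀ t a b, (∀ r < t, ¬Y.Exp W₁ a r) → (∀ r < t, ¬Y.Exp W₁ b r) → Y.con W₁ t a b →
    ¬Y.bad W₁ a t → ¬Y.bad W₂ a t → a ∈ Y.D W₁ W₂ t → b ∈ Y.D W₁ W₂ t

section tie

variable [DecidableEq ι] {W : Finset ι → Finset α} {K : Finset ι} {σ : ℝ}

namespace Cube

/-- Before the first touch of an index, no two worlds of the cube touch each other. -/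
theorem not_touch_before (h : Cube Y W K σ)
    (hT : ∀ I J, I ⊆ K → J ⊆ K → Y.Transfer (W I) (W J))
    (hn : ∀ i ∈ K, ∀ s < σ, ¬Y.Touch (W ∅) (W {i}) s) {I J : Finset ι} (hI : I ⊆ K)
    (hJ : J ⊆ K) {s : ℝ} (hs : s < σ) : ¬Y.Touch (W I) (W J) s := by
  have h1 := (h.mono hs.le).superpose hT (fun i hi => hn i hi s hs)
  exact not_touch_trans (hT _ _ hI (Finset.empty_subset _)) (hT _ _ (Finset.empty_subset _) hJ)
    (fun h' => h1 I hI h'.symm) (h1 J hJ)

/-- A label altered by `j` has in `W I` the same histories as in `W ∅` or `W {j}`. -/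
theorem not_mem_D_inter (h : Cube Y W K σ) {I : Finset ι} (hI : I ⊆ K) {j : ι} (hj : j ∈ K)
    {a : α} (ha : a ∈ Y.D (W ∅) (W {j}) σ) : a ∉ Y.D (W I) (W (I ∩ {j})) σ := by
  refine not_mem_D.2 (h.eq I (I ∩ {j}) hI (Finset.inter_subset_left.trans hI) a
    fun k hk hka => ?_)
  have : k = j := by
    by_contra hne
    exact h.disj k hk j hj hne a hka ha
  subst this
  simp

theorem inter_singleton_cases (I : Finset ι) (j : ι) : I ∩ {j} = ∅ ∨ I ∩ {j} = {j} := by
  by_cases hj : j ∈ I
  · right
    ext k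
    simp only [Finset.mem_inter, Finset.mem_singleton]
    constructor
    · exact fun h => h.2
    · rintro rfl; exact ⟨hj, rfl⟩
  · left
    ext k
    simp only [Finset.mem_inter, Finset.mem_singleton, Finset.notMem_empty, iff_false]
    rintro ⟨h1, rfl⟩
    exact hj h1

/-- An exposed label in `W (I ∩ {j})` that is altered by `j` makes a touch of `j`. -/
theorem touch_of_exp_inter {I : Finset ι} {j : ι} {a : α} (ha : a ∈ Y.D (W ∅) (W {j}) σ)
    (he : Y.Exp (W (I ∩ {j})) a σ) : Y.Touch (W ∅) (W {j}) σ := by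
  rcases inter_singleton_cases I j with h | h
  · rw [h] at he
    exact ⟨a, ha, Or.inl he⟩
  · rw [h] at he
    exact ⟨a, ha, Or.inr he⟩

open Classical in
/-- The key induction: an exposed label of `W B` which is altered by `j` makes a touch of `j`. -/
theorem touch_of_exp (h : Cube Y W K σ) (hL : ∀ I J, I ⊆ K → J ⊆ K → Loc Y (W I) (W J))
    (hP : ∀ I J, I ⊆ K → J ⊆ K → Part Y (W I) (W J))
    (hn : ∀ i ∈ K, ∀ s < σ, ¬Y.Touch (W ∅) (W {i}) s) {B : Finset ι} (hB : B ⊆ K)
    {a : α} {s : ℝ} (he : Y.Exp (W B) a s) (hs : s ≤ σ) :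
    ∀ j ∈ K, a ∈ Y.D (W ∅) (W {j}) σ → Y.Touch (W ∅) (W {j}) σ := by
  have hT : ∀ I J, I ⊆ K → J ⊆ K → Y.Transfer (W I) (W J) := fun I J hI hJ =>
    (hL I J hI hJ).transfer
  -- an early exposure
  have early : ∀ c r, r < σ → Y.Exp (W B) c r → ∀ j ∈ K, c ∈ Y.D (W ∅) (W {j}) σ →
      Y.Touch (W ∅) (W {j}) σ := by
    intro c r hr hc j _ hcD
    have h1 := h.not_touch_before hT hn hB (Finset.empty_subset K) hr
    exact ⟨c, hcD, Or.inl (((exp_iff (hT _ _ hB (Finset.empty_subset K)) h1 le_rfl).1 hc).mono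
      hr.le)⟩
  induction he with
  | @bad a r s hrs hb =>
    intro j hj haD
    rcases (hrs.trans hs).lt_or_eq with hr | hr
    · exact early a r hr (.bad le_rfl hb) j hj haD
    · subst hr
      have hI : B ∩ {j} ⊆ K := Finset.inter_subset_left.trans hB
      have h1 := h.not_mem_D_inter hB hj haD
      have h2 := ((hL B (B ∩ {j}) hB hI).bad r a h1).1 hb
      exact touch_of_exp_inter haD (.bad le_rfl h2)
  | @con a b r s hrs hb hc IH =>
    intro j hj haD
    rcases (hrs.trans hs).lt_or_eq with hr | hr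
    · exact early a r hr (.con le_rfl hb hc) j hj haD
    subst hr
    by_cases ha0 : ∃ q < r, Y.Exp (W B) a q
    · obtain ⟨q, hq, ha0⟩ := ha0
      exact early a q hq ha0 j hj haD
    push Not at ha0
    have hI : B ∩ {j} ⊆ K := Finset.inter_subset_left.trans hB
    have haB := h.not_mem_D_inter hB hj haD
    have haB' : a ∉ Y.Dlt (W B) (W (B ∩ {j})) r := fun h' => haB (Dlt_subset_D h')
    have nBI : ∀ q < r, ¬Y.Touch (W B) (W (B ∩ {j})) q := fun q hq =>
      h.not_touch_before hT hn hB hI hq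
    by_cases hb0 : ∃ q < r, Y.Exp (W B) b q
    · -- contact with a label exposed before
      obtain ⟨q, hq, hb0⟩ := hb0
      have hbB : b ∉ Y.Dlt (W B) (W (B ∩ {j})) r := by
        rintro ⟨p, hp, hD⟩
        refine nBI (max p q) (max_lt hp hq) ⟨b, D_mono (le_max_left p q) hD, Or.inl ?_⟩
        exact hb0.mono (le_max_right p q)
      have h1 := ((hL B (B ∩ {j}) hB hI).con r nBI a haB' b hbB).1 hc
      have h2 : Y.Exp (W (B ∩ {j})) b q :=
        (exp_iff (hT _ _ hB hI) (nBI q hq) le_rfl).1 hb0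
      exact touch_of_exp_inter haD (.con le_rfl (h2.mono hq.le) h1)
    · push Not at hb0
      by_cases hba : Y.bad (W B) a r
      · have h2 := ((hL B (B ∩ {j}) hB hI).bad r a haB).1 hba
        exact touch_of_exp_inter haD (.bad le_rfl h2)
      -- toggle `j`
      set B' : Finset ι := if j ∈ B then B.erase j else insert j B with hB'
      have hB'K : B' ⊆ K := by
        rw [hB']
        split_ifs
        · exact (Finset.erase_subset _ _).trans hB
        · exact Finset.insert_subset hj hB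
      have hmem : ∀ k, (k ∈ B ↔ k ∈ B') ↔ k ≠ j := by
        intro k
        rw [hB']
        by_cases hjB : j ∈ B
        · rw [if_pos hjB, Finset.mem_erase]
          constructor
          · rintro h1 rfl
            exact (h1.1 hjB).1 rfl
          · intro h1; exact ⟨fun h2 => ⟨h1, h2⟩, fun h2 => h2.2⟩
        · rw [if_neg hjB, Finset.mem_insert]
          constructor
          · rintro h1 rfl
            exact hjB (h1.2 (Or.inl rfl))
          · intro h1; exact ⟨fun h2 => Or.inr h2, fun h2 => h2.resolve_left h1⟩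
      by_cases hba' : Y.bad (W B') a r
      · have hI' : B' ∩ {j} ⊆ K := Finset.inter_subset_left.trans hB'K
        have h1 := h.not_mem_D_inter hB'K hj haD
        have h2 := ((hL B' (B' ∩ {j}) hB'K hI').bad r a h1).1 hba'
        exact touch_of_exp_inter haD (.bad le_rfl h2)
      -- `a` is altered by toggling `j`
      have haBB' : a ∈ Y.D (W B) (W B') r := by
        by_contra hcon
        have h1 := not_mem_D.1 hcon
        have h2 := not_mem_D.1 haB
        have h3 := not_mem_D.1 (h.not_mem_D_inter hB'K hj haD)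
        refine (not_mem_D.2 fun q hq => ?_) haD
        have h4 : Y.st (W (B ∩ {j})) a q = Y.st (W (B' ∩ {j})) a q := by
          rw [← h2 q hq, h1 q hq, h3 q hq]
        by_cases hjB : j ∈ B
        · have e1 : B ∩ {j} = {j} := (inter_singleton_cases B j).resolve_left fun h' => by
            have : j ∈ B ∩ {j} := Finset.mem_inter.2 ⟨hjB, Finset.mem_singleton_self j⟩
            rw [h'] at this
            exact Finset.notMem_empty _ this
          have hjB' : j ∉ B' := by
            rw [hB', if_pos hjB]; exact Finset.notMem_erase j B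
          have e2 : B' ∩ {j} = ∅ := (inter_singleton_cases B' j).resolve_right fun h' => by
            have : j ∈ B' ∩ {j} := by rw [h']; exact Finset.mem_singleton_self j
            exact hjB' (Finset.mem_inter.1 this).1
          rw [e1, e2] at h4
          exact h4.symm
        · have e1 : B ∩ {j} = ∅ := (inter_singleton_cases B j).resolve_right fun h' => by
            have : j ∈ B ∩ {j} := by rw [h']; exact Finset.mem_singleton_self j
            exact hjB (Finset.mem_inter.1 this).1
          have hjB' : j ∈ B' := by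
            rw [hB', if_neg hjB]; exact Finset.mem_insert_self j B
          have e2 : B' ∩ {j} = {j} := (inter_singleton_cases B' j).resolve_left fun h' => by
            have : j ∈ B' ∩ {j} := Finset.mem_inter.2 ⟨hjB', Finset.mem_singleton_self j⟩
            rw [h'] at this
            exact Finset.notMem_empty _ this
          rw [e1, e2] at h4
          exact h4
      have hbBB' := hP B B' hB hB'K r a b ha0 hb0 hc hba hba' haBB'
      -- hence `b` is altered by `j`
      have hbD : b ∈ Y.D (W ∅) (W {j}) r := by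
        by_contra hcon
        refine (not_mem_D.2 (h.eq B B' hB hB'K b fun k hk hkb => ?_)) hbBB'
        rw [hmem k]
        rintro rfl
        exact hcon hkb
      exact IH le_rfl j hj hbD

open Classical in
/-- **Ties.** -/
theorem touch_tie (h : Cube Y W K σ) (hL : ∀ I J, I ⊆ K → J ⊆ K → Loc Y (W I) (W J))
    (hP : ∀ I J, I ⊆ K → J ⊆ K → Part Y (W I) (W J))
    (hn : ∀ i ∈ K, ∀ s < σ, ¬Y.Touch (W ∅) (W {i}) s) {A B : Finset ι} (hA : A ⊆ K)
    (hB : B ⊆ K) (hT : Y.Touch (W A) (W B) σ) :
    ∃ j ∈ K, ¬(j ∈ A ↔ j ∈ B) ∧ Y.Touch (W ∅) (W {j}) σ := by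
  obtain ⟨a, haD, he⟩ := hT
  obtain ⟨j, hj, hja, hjAB⟩ : ∃ j ∈ K, a ∈ Y.D (W ∅) (W {j}) σ ∧ ¬(j ∈ A ↔ j ∈ B) := by
    by_contra hcon
    push Not at hcon
    exact (not_mem_D.2 (h.eq A B hA hB a fun j hj hja => hcon j hj hja)) haD
  refine ⟨j, hj, hjAB, ?_⟩
  rcases he with he | he
  · exact h.touch_of_exp hL hP hn hA he le_rfl j hj hja
  · exact h.touch_of_exp hL hP hn hB he le_rfl j hj hja

end Cube

/-- Ties for two cubes `WA` on `E ∪ A`, `WB` on `E ∪ B` that coincide on `E`: only the indices of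
`A` and `B` matter at the first time. -/
theorem exists_touch_tie {WA WB : Finset ι → Finset α} {E A B : Finset ι}
    (h0 : ∀ I ⊆ E, WA I = WB I) (hA : Cube Y WA (E ∪ A) σ) (hB : Cube Y WB (E ∪ B) σ)
    (lA : ∀ I J, I ⊆ E ∪ A → J ⊆ E ∪ A → Loc Y (WA I) (WA J))
    (lB : ∀ I J, I ⊆ E ∪ B → J ⊆ E ∪ B → Loc Y (WB I) (WB J))
    (pA : ∀ I J, I ⊆ E ∪ A → J ⊆ E ∪ A → Part Y (WA I) (WA J))
    (pB : ∀ I J, I ⊆ E ∪ B → J ⊆ E ∪ B → Part Y (WB I) (WB J))
    (nA : ∀ i ∈ E ∪ A, ∀ s < σ, ¬Y.Touch (WA ∅) (WA {i}) s)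
    (nB : ∀ i ∈ E ∪ B, ∀ s < σ, ¬Y.Touch (WB ∅) (WB {i}) s)
    (hT : Y.Touch (WA (E ∪ A)) (WB (E ∪ B)) σ) :
    (∃ i ∈ A, Y.Touch (WA ∅) (WA {i}) σ) ∨ ∃ j ∈ B, Y.Touch (WB ∅) (WB {j}) σ := by
  by_contra hcon
  push Not at hcon
  obtain ⟨cA, cB⟩ := hcon
  have EA : E ⊆ E ∪ A := Finset.subset_union_left
  have EB : E ⊆ E ∪ B := Finset.subset_union_left
  have n1 : ¬Y.Touch (WA (E ∪ A)) (WA E) σ := by
    intro h
    obtain ⟨j, hj, h1, h2⟩ := hA.touch_tie lA pA nA (Finset.Subset.refl _) EA h
    rcases Finset.mem_union.1 hj with h3 | h3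
    · exact h1 ⟨fun _ => h3, fun _ => hj⟩
    · exact cA j h3 h2
  have n2 : ¬Y.Touch (WB E) (WB (E ∪ B)) σ := by
    intro h
    obtain ⟨j, hj, h1, h2⟩ := hB.touch_tie lB pB nB EB (Finset.Subset.refl _) h
    rcases Finset.mem_union.1 hj with h3 | h3
    · exact h1 ⟨fun _ => hj, fun _ => h3⟩
    · exact cB j h3 h2
  have e : WA E = WB E := h0 E (Finset.Subset.refl _)
  refine not_touch_trans (lA _ _ (Finset.Subset.refl _) EA).transfer ?_ n1 ?_ hT
  · rw [e]; exact (lB _ _ EB (Finset.Subset.refl _)).transfer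
  · rw [e]; exact n2

/-- **Second events over the base with `e`, at the first time.**  Indices: `e`, the lines `E ∪ A` of
the partner tree, the new lines `B`.  If up to (not including) `σ` neither the partner tree is felt
in the world with `e` nor the new lines `B` touch it, and the two full worlds touch at `σ`, then a line of
`A` or `B` touches the world with `e` at `σ`. -/
theorem step_second_tie {WA WB : Finset ι → Finset α} {E A B : Finset ι} {e : ι}
    (h0 : ∀ I ⊆ insert e E, WA I = WB I) (hA : Cube Y WA (insert e (E ∪ A)) σ)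
    (hB : Cube Y WB (insert e (E ∪ B)) σ)
    (lA : ∀ I J, I ⊆ insert e (E ∪ A) → J ⊆ insert e (E ∪ A) → Loc Y (WA I) (WA J))
    (lB : ∀ I J, I ⊆ insert e (E ∪ B) → J ⊆ insert e (E ∪ B) → Loc Y (WB I) (WB J))
    (pA : ∀ I J, I ⊆ insert e (E ∪ A) → J ⊆ insert e (E ∪ A) → Part Y (WA I) (WA J))
    (pB : ∀ I J, I ⊆ insert e (E ∪ B) → J ⊆ insert e (E ∪ B) → Part Y (WB I) (WB J))
    (heA : e ∉ E ∪ A) (heB : e ∉ E ∪ B)
    (nA : ∀ s < σ, ¬Y.Touch (WA {e}) (WA (insert e (E ∪ A))) s)
    (nB : ∀ j ∈ B, ∀ s < σ, ¬Y.Touch (WB {e}) (WB {e, j}) s)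
    (hT : Y.Touch (WA (insert e (E ∪ A))) (WB (insert e (E ∪ B))) σ) :
    (∃ i ∈ A, Y.Touch (WA {e}) (WA {e, i}) σ) ∨ ∃ j ∈ B, Y.Touch (WB {e}) (WB {e, j}) σ := by
  have tA : ∀ I J, I ⊆ insert e (E ∪ A) → J ⊆ insert e (E ∪ A) → Y.Transfer (WA I) (WA J) :=
    fun I J hI hJ => (lA I J hI hJ).transfer
  have fA := hA.face (Finset.mem_insert_self e _)
  have fB := hB.face (Finset.mem_insert_self e _)
  rw [Finset.erase_insert heA] at fA
  rw [Finset.erase_insert heB] at fB
  have i1 : ∀ I, I ⊆ E ∪ A → insert e I ⊆ insert e (E ∪ A) := fun I hI =>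
    Finset.insert_subset_insert e hI
  have i2 : ∀ I, I ⊆ E ∪ B → insert e I ⊆ insert e (E ∪ B) := fun I hI =>
    Finset.insert_subset_insert e hI
  have e1 : ∀ W : Finset ι → Finset α, W (insert e ∅) = W {e} := fun W => by
    rw [show (insert e ∅ : Finset ι) = {e} by simp]
  -- no line of the partner tree touches before `σ`
  have nA' : ∀ i ∈ E ∪ A, ∀ s < σ, ¬Y.Touch (WA (insert e ∅)) (WA (insert e {i})) s := by
    intro i hi s hs hTi
    refine nA s hs ?_
    rw [← e1 WA]
    exact ((fA.mono hs.le).touch_iff (fun I J hI hJ => tA _ _ (i1 I hI) (i1 J hJ))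
      (Finset.Subset.refl _)).2 ⟨i, hi, hTi⟩
  have nB' : ∀ i ∈ E ∪ B, ∀ s < σ, ¬Y.Touch (WB (insert e ∅)) (WB (insert e {i})) s := by
    intro i hi s hs hTi
    rcases Finset.mem_union.1 hi with h | h
    · have e2 : WB (insert e {i}) = WA (insert e {i}) := (h0 _ (by
        intro k hk
        rcases Finset.mem_insert.1 hk with rfl | hk
        · exact Finset.mem_insert_self _ _
        · rw [Finset.mem_singleton.1 hk]; exact Finset.mem_insert_of_mem h)).symm
      have e3 : WB (insert e ∅) = WA (insert e ∅) := (h0 _ (by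
        intro k hk
        rcases Finset.mem_insert.1 hk with rfl | hk
        · exact Finset.mem_insert_self _ _
        · exact absurd hk (Finset.notMem_empty _))).symm
      rw [e2, e3] at hTi
      exact nA' i (Finset.mem_union_left _ h) s hs hTi
    · rw [e1 WB] at hTi
      exact nB i h s hs hTi
  have key := exists_touch_tie (WA := fun I => WA (insert e I)) (WB := fun I => WB (insert e I))
    (E := E) (A := A) (B := B) (fun I hI => h0 _ (Finset.insert_subset_insert e hI)) fA fB
    (fun I J hI hJ => lA _ _ (i1 I hI) (i1 J hJ)) (fun I J hI hJ => lB _ _ (i2 I hI) (i2 J hJ))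
    (fun I J hI hJ => pA _ _ (i1 I hI) (i1 J hJ)) (fun I J hI hJ => pB _ _ (i2 I hI) (i2 J hJ))
    nA' nB' hT
  rcases key with ⟨i, hi, h⟩ | ⟨j, hj, h⟩
  · left
    refine ⟨i, hi, ?_⟩
    simpa using h
  · right
    refine ⟨j, hj, ?_⟩
    simpa using h

end tie

end Sys

end Vale.Agent.P119.FB
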