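import Vale.Agent.P119.FB.Sys

/-!
# P119, feedback block: superposition of independent structures (`helper939`)

`Cube W K t`: the worlds `W I`, `I ⊆ K`, where the indices of `K` act on different labels up to
time `t`.  `Cube.superpose`: if no single index touches the base world, no combination does.
`one_step`, `contam`: the classification of the first touch through fresh lines.
-/

open Set

namespace Vale.Agent.P119.FB

namespace Sys

variable {α S ι : Type*} {Y : Sys α S} [DecidableEq ι]

/-- A cube of worlds: every label is altered by at most one index of `K` up to time `t`. -/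
structure Cube (Y : Sys α S) (W : Finset ι → Finset α) (K : Finset ι) (t : ℝ) : Prop where
  disj : ∀ i ∈ K, ∀ j ∈ K, i ≠ j → ∀ a, a ∈ Y.D (W ∅) (W {i}) t → a ∉ Y.D (W ∅) (W {j}) t
  eq : ∀ I J, I ⊆ K → J ⊆ K → ∀ a, (∀ i ∈ K, a ∈ Y.D (W ∅) (W {i}) t → (i ∈ I ↔ i ∈ J)) →
    ∀ s ≤ t, Y.st (W I) a s = Y.st (W J) a s

namespace Cube

variable {W : Finset ι → Finset α} {K : Finset ι} {t : ℝ}

theorem D_insert (h : Cube Y W K t) {I : Finset ι} (hI : I ⊆ K) {i : ι} (hi : i ∈ K)
    (hiI : i ∉ I) : Y.D (W I) (W (insert i I)) t = Y.D (W ∅) (W {i}) t := by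
  have hI' : insert i I ⊆ K := Finset.insert_subset hi hI
  ext a
  constructor
  · intro ha
    by_contra hn
    refine (not_mem_D.2 (h.eq I (insert i I) hI hI' a fun j _ hj => ?_)) ha
    have : j ≠ i := by rintro rfl; exact hn hj
    simp [this]
  · intro ha
    by_contra hn
    have h1 := not_mem_D.1 hn
    refine (not_mem_D.2 fun s hs => ?_) ha
    have h2 : Y.st (W ∅) a s = Y.st (W I) a s := by
      refine h.eq ∅ I (Finset.empty_subset _) hI a (fun j hj hja => ?_) s hs
      have : j = i := by
        by_contra hne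
        exact h.disj j hj i hi hne a hja ha
      subst this
      simp [hiI]
    have h3 : Y.st (W {i}) a s = Y.st (W (insert i I)) a s := by
      refine h.eq {i} (insert i I) (by simpa using hi) hI' a (fun j hj hja => ?_) s hs
      have : j = i := by
        by_contra hne
        exact h.disj j hj i hi hne a hja ha
      subst this
      simp
    rw [h2, h1 s hs, h3]

theorem square (h : Cube Y W K t) {I : Finset ι} (hI : I ⊆ K) {i j : ι} (hi : i ∈ K)
    (hj : j ∈ K) (hij : i ≠ j) (hiI : i ∉ I) (hjI : j ∉ I) :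
    Square Y (W I) (W (insert i I)) (W (insert j I)) (W (insert i (insert j I))) t := by
  have h1 := h.D_insert hI hi hiI
  have h2 := h.D_insert hI hj hjI
  refine ⟨fun a ha hb => ?_, fun a ha => ?_, fun a ha => ?_⟩
  · rw [h1] at ha
    rw [h2] at hb
    exact h.disj i hi j hj hij a ha hb
  · rw [h1] at ha
    refine h.eq _ _ (Finset.insert_subset hj hI)
      (Finset.insert_subset hi (Finset.insert_subset hj hI)) a fun k _ hk => ?_
    have : k ≠ i := by rintro rfl; exact ha hk
    simp [this]
  · rw [h2] at ha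
    refine h.eq _ _ (Finset.insert_subset hi hI)
      (Finset.insert_subset hi (Finset.insert_subset hj hI)) a fun k _ hk => ?_
    have : k ≠ j := by rintro rfl; exact ha hk
    simp [this]

theorem mono (h : Cube Y W K t) {r : ℝ} (hr : r ≤ t) : Cube Y W K r := by
  refine ⟨fun i hi j hj hij a h1 h2 => h.disj i hi j hj hij a (D_mono hr h1) (D_mono hr h2),
    fun I J hI hJ a ha s hs => ?_⟩
  by_cases h3 : ∃ i ∈ K, a ∈ Y.D (W ∅) (W {i}) t
  · obtain ⟨i, hi, hia⟩ := h3
    have huniq : ∀ j ∈ K, a ∈ Y.D (W ∅) (W {j}) t → j = i := fun j hj hja => by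
      by_contra hne
      exact h.disj j hj i hi hne a hja hia
    by_cases h4 : a ∈ Y.D (W ∅) (W {i}) r
    · refine h.eq I J hI hJ a (fun j hj hja => ?_) s (hs.trans hr)
      rw [huniq j hj hja]
      exact ha i hi h4
    · -- the two worlds `∅` and `{i}` agree up to `r`
      have h5 := not_mem_D.1 h4 s hs
      have h6 : ∀ I, I ⊆ K → Y.st (W I) a s = Y.st (W ∅) a s := by
        intro I hI
        by_cases h7 : i ∈ I
        · rw [h5]
          refine h.eq I {i} hI (by simpa using hi) a (fun j hj hja => ?_) s (hs.trans hr)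
          rw [huniq j hj hja]
          simp [h7]
        · refine h.eq I ∅ hI (Finset.empty_subset _) a (fun j hj hja => ?_) s (hs.trans hr)
          rw [huniq j hj hja]
          simp [h7]
      rw [h6 I hI, h6 J hJ]
  · push Not at h3
    exact h.eq I J hI hJ a (fun i hi hia => absurd hia (h3 i hi)) s (hs.trans hr)

theorem subset (h : Cube Y W K t) {K' : Finset ι} (hK : K' ⊆ K) : Cube Y W K' t :=
  ⟨fun i hi j hj => h.disj i (hK hi) j (hK hj), fun I J hI hJ a ha =>
    h.eq I J (hI.trans hK) (hJ.trans hK) a fun i _ hia => by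
      by_cases hi : i ∈ K'
      · exact ha i hi hia
      · exact ⟨fun h => absurd (hI h) hi, fun h => absurd (hJ h) hi⟩⟩

/-- The face of a cube that contains `i`. -/
theorem face (h : Cube Y W K t) {i : ι} (hi : i ∈ K) :
    Cube Y (fun I => W (insert i I)) (K.erase i) t := by
  have h0 : ∀ j ∈ K.erase i, Y.D (W (insert i ∅)) (W (insert i {j})) t =
      Y.D (W ∅) (W {j}) t := by
    intro j hj
    rw [Finset.mem_erase] at hj
    have h1 : (insert i {j} : Finset ι) = insert j {i} := by
      ext k; simp [or_comm]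
    have h2 : (insert i ∅ : Finset ι) = {i} := by simp
    rw [h1, h2]
    exact h.D_insert (by simpa using hi) hj.2 (by simpa using hj.1)
  refine ⟨fun j hj k hk hjk a h1 h2 => ?_, fun I J hI hJ a ha => ?_⟩
  · rw [h0 j hj] at h1
    rw [h0 k hk] at h2
    exact h.disj j (Finset.mem_of_mem_erase hj) k (Finset.mem_of_mem_erase hk) hjk a h1 h2
  · refine h.eq _ _ (Finset.insert_subset hi (hI.trans (Finset.erase_subset _ _)))
      (Finset.insert_subset hi (hJ.trans (Finset.erase_subset _ _))) a fun j hj hja => ?_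
    by_cases hji : j = i
    · subst hji; simp
    · have hj' : j ∈ K.erase i := Finset.mem_erase.2 ⟨hji, hj⟩
      have h1 := ha j hj' (by rw [h0 j hj']; exact hja)
      simp [hji, h1]

/-- **Superposition**, one more index. -/
theorem not_touch_insert (h : Cube Y W K t) (hT : ∀ I J, I ⊆ K → J ⊆ K → Y.Transfer (W I) (W J))
    (hn : ∀ i ∈ K, ¬Y.Touch (W ∅) (W {i}) t) (n : ℕ) :
    ∀ I ⊆ K, I.card = n → ∀ i ∈ K, i ∉ I → ¬Y.Touch (W I) (W (insert i I)) t := by
  induction n with
  | zero =>
    intro I _ hc i hi _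
    have h1 : I = ∅ := Finset.card_eq_zero.1 hc
    subst h1
    simpa using hn i hi
  | succ n IH =>
    intro I hI hc i hi hiI
    obtain ⟨j, J, hjJ, rfl, hJc⟩ := Finset.card_eq_succ.1 hc
    have hjK : j ∈ K := hI (Finset.mem_insert_self j J)
    have hJK : J ⊆ K := (Finset.subset_insert j J).trans hI
    have hij : i ≠ j := by rintro rfl; exact hiI (Finset.mem_insert_self i J)
    have hiJ : i ∉ J := fun h => hiI (Finset.mem_insert_of_mem h)
    have hsq := h.square hJK hi hjK hij hiJ hjJ
    have k1 := Finset.insert_subset hi hJK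
    have k2 := Finset.insert_subset hjK hJK
    have k3 := Finset.insert_subset hi k2
    exact (hsq.corner (hT _ _ hJK k1) (hT _ _ hJK k2) (hT _ _ k1 k3) (hT _ _ k2 k3)
      (IH J hJK hJc i hi hiJ) (IH J hJK hJc j hjK hjJ)).2

/-- **Superposition**: if no single index touches the base world, no combination does. -/
theorem superpose (h : Cube Y W K t) (hT : ∀ I J, I ⊆ K → J ⊆ K → Y.Transfer (W I) (W J))
    (hn : ∀ i ∈ K, ¬Y.Touch (W ∅) (W {i}) t) : ∀ I ⊆ K, ¬Y.Touch (W ∅) (W I) t := by
  intro I
  induction I using Finset.induction_on with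
  | empty =>
    rintro - ⟨a, hD, -⟩
    rw [D_self] at hD
    exact hD
  | insert i I hi IH =>
    intro hI
    have hIK : I ⊆ K := (Finset.subset_insert i I).trans hI
    have hiK : i ∈ K := hI (Finset.mem_insert_self i I)
    exact not_touch_trans (hT _ _ (Finset.empty_subset _) hIK) (hT _ _ hIK hI) (IH hIK)
      (h.not_touch_insert hT hn I.card I hIK rfl i hiK hi)

end Cube

/-- Two cubes over the same base (e.g. with `k^c`, and with `l'`, `k'`): if two of their worlds
touch each other, one of the indices touches the base. -/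
theorem exists_touch {WA WB : Finset ι → Finset α} {KA KB : Finset ι} {t : ℝ}
    (h0 : WA ∅ = WB ∅) (hA : Cube Y WA KA t) (hB : Cube Y WB KB t)
    (tA : ∀ I J, I ⊆ KA → J ⊆ KA → Y.Transfer (WA I) (WA J))
    (tB : ∀ I J, I ⊆ KB → J ⊆ KB → Y.Transfer (WB I) (WB J))
    {I J : Finset ι} (hI : I ⊆ KA) (hJ : J ⊆ KB) (hT : Y.Touch (WA I) (WB J) t) :
    (∃ i ∈ I, Y.Touch (WA ∅) (WA {i}) t) ∨ ∃ j ∈ J, Y.Touch (WB ∅) (WB {j}) t := by
  by_contra hcon
  push Not at hcon
  have n1 := (hA.subset hI).superpose (fun P Q hP hQ => tA P Q (hP.trans hI) (hQ.trans hI))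
    hcon.1 I (Finset.Subset.refl I)
  have n2 := (hB.subset hJ).superpose (fun P Q hP hQ => tB P Q (hP.trans hJ) (hQ.trans hJ))
    hcon.2 J (Finset.Subset.refl J)
  have t1 : Y.Transfer (WA I) (WA ∅) := tA _ _ hI (Finset.empty_subset _)
  have t2 : Y.Transfer (WA ∅) (WB J) := by rw [h0]; exact tB _ _ (Finset.empty_subset _) hJ
  exact not_touch_trans t1 t2 (fun h => n1 h.symm) (by rw [h0]; exact n2) hT

end Sys

end Vale.Agent.P119.FB
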