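import Vale.Agent.P119.FB.Window
import Vale.Agent.P119.PB.Felt
import Vale.Agent.P119.PB.Def6

/-!
# P119, feedback block: ONE STEP with a partner which is not felt (`helper119`)

`l` is inserted in the world `w`, `τ` is the first touch of `w` and `insert l w`, `h ≥ τ` a time
(the stopping time of `w`).  `unfelt_step`: direct contact, irregular contact, or `l` hits a flying tree
`T` (`HitU`) and (`StepU`): the depth is too large, an exceptional event, `T` is felt before `h`, the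
colliding pair is in contact with an exposed particle of `V = w ∖ T`, or one of the three fresh lines
touches `V`.  `stepHyp`: the same as `StepHyp`.
-/

open MeasureTheory Filter Topology Set
open scoped ENNReal NNReal

noncomputable section

namespace Vale.Agent.P119.PB

open M CTree KU FB RB AU TL

variable {Φ : E3 → ℝ} {ε : ℝ} {L : ℕ} {hΦ : IsPotential Φ} {hε : 0 < ε}
  {U V W w K : Finset Src} {T x : CTree} {l : Src} {s t ρ σ τ h : ℝ}

/-! ### The hypotheses -/

/-- The root line of `T`, reborn at the hit by `l`. -/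
def kcS (Φ : E3 → ℝ) (ε : ℝ) (T : CTree) (l : Src) : Src :=
  (sig Φ ε (node T (leaf l)), ln Φ ε T, T.depth)

/-- The indices of the world (A): the exhausts and the reborn root line. -/
def kA (Φ : E3 → ℝ) (ε : ℝ) (T : CTree) (l : Src) : Finset Src := by
  classical
  exact insert (kcS Φ ε T l) (exl Φ ε T)

/-- The indices of the world (B): the exhausts and the two outgoing lines. -/
def kB (Φ : E3 → ℝ) (ε : ℝ) (T : CTree) (l : Src) : Finset Src := by
  classical
  exact insert (rsrc Φ ε (node T (leaf l))) (insert (rsrc Φ ε (node (leaf l) T)) (exl Φ ε T))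

theorem mem_kA {a : Src} : a ∈ kA Φ ε T l ↔ a = kcS Φ ε T l ∨ a ∈ exl Φ ε T := by
  classical
  unfold kA
  rw [Finset.mem_insert]

theorem mem_kB {a : Src} : a ∈ kB Φ ε T l ↔ a = rsrc Φ ε (node T (leaf l)) ∨
    a = rsrc Φ ε (node (leaf l) T) ∨ a ∈ exl Φ ε T := by
  classical
  unfold kB
  rw [Finset.mem_insert, Finset.mem_insert]

/-- No exceptional event: the pair separates, the lines are distinct and do not interact over `V`,
no third body during the collision. -/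
structure NoExc (Φ : E3 → ℝ) (ε : ℝ) (L : ℕ) (t : ℝ) (l : Src) (V : Finset Src) (T : CTree) :
    Prop where
  /-- the pair separates -/
  exits : Exits Φ (rel ε (ln Φ ε T, l.2.1))
  /-- distinct lines -/
  inj : InjOn (rsrc Φ ε) (outs T)
  /-- distinct lines -/
  inj' : InjOn (rsrc Φ ε) (outs (node T (leaf l)))
  /-- the exhausts and the reborn root line do not interact -/
  ga : Good Φ ε L V sgl (kA Φ ε T l) t
  /-- the exhausts and the outgoing lines do not interact (if they are not too deep) -/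
  gb : max l.2.2 T.depth + 1 ≤ L → Good Φ ε L V sgl (kB Φ ε T l) t
  /-- no third body -/
  tri : ¬TriW Φ ε L (addT V T) T l t

/-- The hypotheses of TREE -> LINES from `Good`. -/
theorem lgood_of_good (hΦ : IsPotential Φ) (hε : 0 < ε) (hT : ok Φ ε T)
    (hinj : InjOn (msrc Φ ε (rho Φ ε T ρ)) (outs T)) (hg : Good Φ ε L V sgl K t)
    (hK : ∀ x ∈ outs T, msrc Φ ε (rho Φ ε T ρ) x ∈ K)
    (hl : lnw Φ ε V T ρ = wF V sgl K) : LGood Φ ε L V T ρ t := by
  refine ⟨hinj, fun x hx => ?_, ?_⟩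
  · exact fun hV => Finset.disjoint_left.1 (hg.disjV _ (hK x hx)) hV
      (Finset.mem_singleton_self _)
  · have : Nonempty Src := ⟨rsrc Φ ε T⟩
    refine indep_of_NI hΦ hε hg.cubeW hg.ni (Finset.Subset.refl _) ?_
      (msrc Φ ε (rho Φ ε T ρ)) (fun x hx => ?_) hinj
    · rw [← coe_lnw hT, hl]
    · exact hg.idx (hK x hx) (Finset.mem_singleton_self _)

theorem inj_rebirth (hΦ : IsPotential Φ) (hε : 0 < ε) (hT : ok Φ ε T) (hρ : ext Φ ε T < ρ)
    (hinj : InjOn (rsrc Φ ε) (outs T)) : InjOn (msrc Φ ε (rho Φ ε T ρ)) (outs T) := by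
  intro x hx x' hx' he
  rcases hx with rfl | hx <;> rcases hx' with rfl | hx'
  · rfl
  · exfalso
    rw [msrc_rho_self, msrc_rho_exs hT hx'] at he
    have h1 : ρ = ext Φ ε x' := congrArg (fun q : Src => q.1) he
    have h2 := out_ext_le hΦ hε hT (Or.inr hx')
    linarith
  · exfalso
    rw [msrc_rho_self, msrc_rho_exs hT hx] at he
    have h1 : ext Φ ε x = ρ := congrArg (fun q : Src => q.1) he
    have h2 := out_ext_le hΦ hε hT (Or.inr hx)
    linarith
  · rw [msrc_rho_exs hT hx, msrc_rho_exs hT hx'] at he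
    exact hinj (Or.inr hx) (Or.inr hx') he

theorem lnw_kA : lnw Φ ε V T (sig Φ ε (node T (leaf l))) = wF V sgl (kA Φ ε T l) := by
  classical
  ext a
  rw [mem_wF_sgl, mem_kA]
  unfold lnw kcS
  simp only [Finset.mem_union, Finset.mem_singleton]
  tauto

theorem lnw_kB : lnw Φ ε V (node T (leaf l)) (ext Φ ε (node T (leaf l))) =
    wF V sgl (kB Φ ε T l) := by
  classical
  rw [lnw_node_leaf]
  ext a
  rw [mem_wF_sgl, mem_kB]
  simp only [Finset.mem_union, Finset.mem_singleton, Finset.mem_insert]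
  tauto

theorem NoExc.lgood_A (hΦ : IsPotential Φ) (hε : 0 < ε) (h : NoExc Φ ε L t l V T)
    (hT : ok Φ ε T) (hs : ext Φ ε T < sig Φ ε (node T (leaf l))) :
    LGood Φ ε L V T (sig Φ ε (node T (leaf l))) t := by
  refine lgood_of_good hΦ hε hT (inj_rebirth hΦ hε hT hs h.inj) h.ga (fun x hx => ?_) lnw_kA
  rw [mem_kA]
  rcases hx with rfl | hx
  · left
    exact msrc_rho_self
  · right
    rw [msrc_rho_exs hT hx, ← Finset.mem_coe, coe_exl]
    exact mem_image_of_mem _ hx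

theorem NoExc.lgood_B (hΦ : IsPotential Φ) (hε : 0 < ε) (h : NoExc Φ ε L t l V T)
    (hd : max l.2.2 T.depth + 1 ≤ L) (hy : ok Φ ε (node T (leaf l))) :
    LGood Φ ε L V (node T (leaf l)) (ext Φ ε (node T (leaf l))) t := by
  refine lgood_of_good hΦ hε hy (fun x hx x' hx' he => ?_) (h.gb hd) (fun x hx => ?_) lnw_kB
  · rw [msrc_rho hy hx, msrc_rho hy hx'] at he
    exact h.inj' hx hx' he
  · rw [msrc_rho hy hx, mem_kB]
    rcases hx with rfl | hx
    · exact Or.inl rfl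
    · rw [exs_node_leaf] at hx
      rcases hx with hx | hx
      · refine Or.inr (Or.inr ?_)
        rw [← Finset.mem_coe, coe_exl]
        exact mem_image_of_mem _ hx
      · rw [mem_singleton_iff.1 hx]
        exact Or.inr (Or.inl rfl)

/-! ### The step -/

theorem sig_eq : sig Φ ε (node T (leaf l)) = hitT ε (l.2.1, ln Φ ε T) :=
  (hitT_swap (ε := ε) (ln Φ ε T, l.2.1)).symm

theorem ext_eq (hΦ : IsPotential Φ) :
    ext Φ ε (node T (leaf l)) = sepT Φ ε (l.2.1, ln Φ ε T) :=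
  (sepT_swap (ε := ε) hΦ (ln Φ ε T, l.2.1)).symm

theorem pairLine_eq (hΦ : IsPotential Φ) (r : ℝ) :
    pairLine Φ ε (l.2.1, ln Φ ε T) r = (pairLine Φ ε (ln Φ ε T, l.2.1) r).swap :=
  pairLine_swap (ε := ε) hΦ (ln Φ ε T, l.2.1) r

theorem frs_old : Frs Φ ε l T (kcS Φ ε T l) := by
  unfold kcS
  rw [sig_eq]
  exact .old

theorem frs_out1 : Frs Φ ε l T (rsrc Φ ε (node (leaf l) T)) := .out1

theorem frs_out2 (hΦ : IsPotential Φ) : Frs Φ ε l T (rsrc Φ ε (node T (leaf l))) := by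
  have e : rsrc Φ ε (node T (leaf l)) = (sepT Φ ε (l.2.1, ln Φ ε T),
      (sc2 Φ ε (l.2.1, ln Φ ε T)).2, max l.2.2 T.depth + 1) := by
    have h1 : (node T (leaf l)).depth = max l.2.2 T.depth + 1 := by
      change max T.depth l.2.2 + 1 = _
      rw [max_comm]
    have h2 : ln Φ ε (node T (leaf l)) = (sc2 Φ ε (l.2.1, ln Φ ε T)).2 :=
      ln_swap hΦ (leaf l) T
    unfold rsrc
    rw [h1, h2, ext_eq hΦ]
  rw [e]
  exact .out2

open Classical in
/-- The alternatives for a given partner `T`. -/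
theorem stepU_of {E : Finset Src → CTree → Prop}
    (hE : ∀ V T, ¬E V T → NoExc Φ ε L t l V T) (ht : h ≤ t) (hτ : τ ≤ h)
    (hT : (RB.Y Φ ε L hΦ hε).Touch w (insert l w) τ)
    (hfirst : ∀ s < τ, ¬(RB.Y Φ ε L hΦ hε).Touch w (insert l w) s)
    (hR : RegHit Φ ε L w l T) (hS : hitT ε (l.2.1, ln Φ ε T) ≤ τ)
    (hun : ¬(RB.Y Φ ε L hΦ hε).Exp w T.root (hitT ε (l.2.1, ln Φ ε T)))
    (hC : ¬Exits Φ (rel ε (ln Φ ε T, l.2.1)) ∨ L < (node T (leaf l)).depth ∨
          TriW Φ ε L w T l τ ∨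
          (Hit1 Φ ε L hΦ hε w l T ∧ sig Φ ε (node T (leaf l)) < τ ∧
            τ < ext Φ ε (node T (leaf l)) ∧ (RB.Y Φ ε L hΦ hε).Exp w T.root τ) ∨
          (τ < ext Φ ε (node T (leaf l)) ∧ WinCon Φ ε L hΦ hε w T l τ) ∨
          (Hit1 Φ ε L hΦ hε w l T ∧ ext Φ ε (node T (leaf l)) ≤ τ)) :
    StepU L hΦ hε h E w l T := by
  have hsig := sig_eq (Φ := Φ) (ε := ε) (T := T) (l := l)
  have hTs := hR.sub
  have hTd := (alive_pre hR.alive).depth
  have hw0 := hR.births_w
  by_cases hdeep : L < max l.2.2 T.depth + 1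
  · exact .deep hdeep
  by_cases hexc : E (rm w T) T
  · exact .exc hexc
  by_cases hfelt : ∃ s < h, fl L hΦ hε w s T
  · obtain ⟨s, hs, hf⟩ := hfelt
    exact .felt s hs hf
  have hN := hE _ _ hexc
  have hwT : addT (rm w T) T = w := addT_rm hTs
  have hV : (rm w T : Set Src) = (w : Set Src) \ T.leaves := coe_rm w T
  have hV0 : ∀ a ∈ rm w T, 0 ≤ a.1 := rm_nonneg hw0
  have hext : ext Φ ε T < τ := by
    have := hR.ext_lt
    rw [hsig] at this
    exact this.trans_le hS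
  have hτt : τ ≤ t := hτ.trans ht
  -- `T` is not felt before `h`
  have hnf : ∀ q < h, ¬(RB.Y Φ ε L hΦ hε).Touch (rm w T) w q := by
    intro q hq hc
    refine hfelt ⟨max q (ext Φ ε T), max_lt hq (hext.trans_le hτ), ⟨hTs, hTd, le_max_right _ _,
      ?_, fun s hs he => ?_, hc.mono (le_max_left _ _)⟩⟩
    · exact alive_anti hR.alive hR.ext_lt.le le_rfl
    · refine hun (he.mono ?_)
      rw [← hsig]
      exact (hs.trans hR.ext_lt).le
  have htr : (RB.Y Φ ε L hΦ hε).Transfer (rm w T) w := Y_transfer hΦ hε hV0 hw0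
  -- the lines touch the base only if the tree does
  rcases hC with h1 | h1 | h1 | ⟨h1, h2, h3, h4⟩ | ⟨h1, b, h2, h3, h4, ⟨s, hs, h5⟩, h6⟩ | ⟨h1, h2⟩
  · exact absurd hN.exits h1
  · refine absurd h1 (not_lt.2 ?_)
    change max T.depth l.2.2 + 1 ≤ L
    rw [max_comm]
    exact not_lt.1 hdeep
  · refine absurd (h1.mono hτt) ?_
    rw [← hwT]
    exact hN.tri
  · -- the root is exposed in `w`
    have hgA : TGood Φ ε L hΦ hε (rm w T) T w (sig Φ ε (node T (leaf l))) t :=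
      h1.tgood_A hV (h2.le.trans hτt)
    have hlA := hN.lgood_A hΦ hε hgA.ok hR.ext_lt
    have hrep := hgA.rep hlA
    have hmem : kcS Φ ε T l ∈ lnw Φ ε (rm w T) T (sig Φ ε (node T (leaf l))) := by
      rw [lnw_kA, mem_wF_sgl, mem_kA]
      exact Or.inr (Or.inl rfl)
    have hroot : (fs Φ ε (rho Φ ε T (sig Φ ε (node T (leaf l)))) T (kcS Φ ε T l)).root =
        T.root := by
      have : kcS Φ ε T l = msrc Φ ε (rho Φ ε T (sig Φ ε (node T (leaf l)))) T :=
        msrc_rho_self.symm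
      rw [this, fs_msrc (hgA.setup hlA) (Or.inl rfl)]
    have he : (RB.Y Φ ε L hΦ hε).Exp (lnw Φ ε (rm w T) T (sig Φ ε (node T (leaf l))))
        (kcS Φ ε T l) τ := by
      refine (hrep.lines.exp _ hmem τ hτt).2 ?_
      rw [hroot]
      exact h4
    rw [lnw_kA] at he
    have hcube := (hN.ga.mono hτt).cube hΦ hε
    have hkc : kcS Φ ε T l ∈ kA Φ ε T l := mem_kA.2 (Or.inl rfl)
    have hbase : ∀ s ≤ t, (RB.Y Φ ε L hΦ hε).Touch (rm w T) w s ↔
        ∃ a ∈ kA Φ ε T l, (RB.Y Φ ε L hΦ hε).Touch (rm w T) (insert a (rm w T)) s := by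
      intro s hs
      rw [hgA.touch_base hlA hs, lnw_kA]
      exact touch_sgl_iff hN.ga (Finset.Subset.refl _) hs
    have hn : ∀ i ∈ kA Φ ε T l, ∀ s < τ,
        ¬(RB.Y Φ ε L hΦ hε).Touch (wF (rm w T) sgl ∅) (wF (rm w T) sgl {i}) s := by
      intro i hi s hs hc
      rw [wF_empty, wF_sgl_singleton] at hc
      exact hnf s (hs.trans_le hτ) ((hbase s (hs.le.trans hτt)).2 ⟨i, hi, hc⟩)
    have hkD : kcS Φ ε T l ∈ (RB.Y Φ ε L hΦ hε).D (wF (rm w T) sgl ∅)
        (wF (rm w T) sgl {kcS Φ ε T l}) τ := by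
      refine mem_D_of_mem (fun h' => ?_) τ
      rw [wF_empty, wF_sgl_singleton] at h'
      exact Finset.disjoint_left.1 (hN.ga.disjV _ hkc) (h'.2 (Finset.mem_insert_self _ _))
        (Finset.mem_singleton_self _)
    have h7 := hcube.touch_of_exp (fun I J hI hJ => hN.ga.loc hΦ hε hI hJ)
      (fun I J hI hJ => hN.ga.part hΦ hε hI hJ) hn (Finset.Subset.refl _) he le_rfl
      (kcS Φ ε T l) hkc hkD
    rw [wF_empty, wF_sgl_singleton] at h7
    exact .new _ τ hnf frs_old hτ h7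
  · -- the pair touches a particle exposed before
    have hsh : s < h := hs.trans_le hτ
    have h7 : (RB.Y Φ ε L hΦ hε).Exp (rm w T) b s := (Sys.exp_iff htr (hnf s hsh) le_rfl).2 h5
    have hbD : b ∉ (RB.Y Φ ε L hΦ hε).Dlt (rm w T) w τ := by
      rintro ⟨q, hq, hz⟩
      refine hnf (max q s) (max_lt (hq.trans_le hτ) hsh) ⟨b, Sys.D_mono (le_max_left _ _) hz,
        Or.inl (h7.mono (le_max_right _ _))⟩
    have h8 : XR Φ ε (rm w T) τ b = XR Φ ε w τ b :=
      Y_real_eq hΦ hε hV0 hw0 (fun q hq => hnf q (hq.trans_le hτ)) hbD le_rfl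
    rw [← h8] at h6
    refine .pair τ hnf hS hτ ?_
    have key : ∀ p : Ph, Ctc ε p (XR Φ ε (rm w T) τ b) → CC L hΦ hε (rm w T) τ p.1 := fun p hp =>
      CC_of_hits (h7.mono hs.le) (Or.inl ⟨h4, hp⟩)
    unfold PCC
    rw [pairLine_eq hΦ]
    rcases h6 with h6 | h6
    · exact Or.inr (key _ h6)
    · exact Or.inl (key _ h6)
  · -- after the collision
    have hgA : TGood Φ ε L hΦ hε (rm w T) T w (sig Φ ε (node T (leaf l))) t :=
      h1.tgood_A hV ((sig_lt_ext hΦ hε h1.ok).le.trans (h2.trans hτt))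
    have hgB : TGood Φ ε L hΦ hε (rm w T) (node T (leaf l)) (insert l w)
        (ext Φ ε (node T (leaf l))) t :=
      h1.tgood_B2 hV (fun q hq => hfirst q (hq.trans_le h2)) (h2.trans hτt)
    have hlA := hN.lgood_A hΦ hε hgA.ok hR.ext_lt
    have hlB := hN.lgood_B hΦ hε (not_lt.1 hdeep) h1.ok
    have h3 := touch_node hgA hgB hlA hlB hτt hT
    rw [lnw_kA, lnw_kB] at h3
    have hbase : ∀ s ≤ t, (RB.Y Φ ε L hΦ hε).Touch (rm w T) w s ↔
        ∃ a ∈ kA Φ ε T l, (RB.Y Φ ε L hΦ hε).Touch (rm w T) (insert a (rm w T)) s := by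
      intro s hs
      rw [hgA.touch_base hlA hs, lnw_kA]
      exact touch_sgl_iff hN.ga (Finset.Subset.refl _) hs
    have hnA : ∀ i ∈ kA Φ ε T l, ∀ s < τ,
        ¬(RB.Y Φ ε L hΦ hε).Touch (wF (rm w T) sgl ∅) (wF (rm w T) sgl {i}) s := by
      intro i hi s hs hc
      rw [wF_empty, wF_sgl_singleton] at hc
      exact hnf s (hs.trans_le hτ) ((hbase s (hs.le.trans hτt)).2 ⟨i, hi, hc⟩)
    -- the fresh lines
    have hfr : ∀ m, (m = rsrc Φ ε (node T (leaf l)) ∨ m = rsrc Φ ε (node (leaf l) T)) →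
        Frs Φ ε l T m := by
      rintro m (rfl | rfl)
      · exact frs_out2 hΦ
      · exact frs_out1
    by_cases hB : ∃ m, (m = rsrc Φ ε (node T (leaf l)) ∨ m = rsrc Φ ε (node (leaf l) T)) ∧
        ∃ s ≤ h, (RB.Y Φ ε L hΦ hε).Touch (rm w T) (insert m (rm w T)) s
    · obtain ⟨m, hm, s, hs, h4⟩ := hB
      exact .new m s hnf (hfr m hm) hs h4
    push Not at hB
    have hnB : ∀ i ∈ kB Φ ε T l, ∀ s < τ,
        ¬(RB.Y Φ ε L hΦ hε).Touch (wF (rm w T) sgl ∅) (wF (rm w T) sgl {i}) s := by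
      intro i hi s hs hc
      rcases mem_kB.1 hi with hi | hi | hi
      · rw [wF_empty, wF_sgl_singleton] at hc
        exact hB i (Or.inl hi) s (hs.le.trans hτ) hc
      · rw [wF_empty, wF_sgl_singleton] at hc
        exact hB i (Or.inr hi) s (hs.le.trans hτ) hc
      · exact hnA i (mem_kA.2 (Or.inr hi)) s hs hc
    have eA : kA Φ ε T l = exl Φ ε T ∪ {kcS Φ ε T l} := by
      ext a
      rw [mem_kA, Finset.mem_union, Finset.mem_singleton, or_comm]
    have eB : kB Φ ε T l = exl Φ ε T ∪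
        {rsrc Φ ε (node T (leaf l)), rsrc Φ ε (node (leaf l) T)} := by
      ext a
      rw [mem_kB, Finset.mem_union, Finset.mem_insert, Finset.mem_singleton]
      tauto
    have gA := hN.ga.mono hτt
    have gB := (hN.gb (not_lt.1 hdeep)).mono hτt
    rw [eA] at h3 hnA gA
    rw [eB] at h3 hnB gB
    rcases Sys.exists_touch_tie (WA := wF (rm w T) sgl) (WB := wF (rm w T) sgl)
      (fun _ _ => rfl) (gA.cube hΦ hε) (gB.cube hΦ hε)
      (fun I J hI hJ => gA.loc hΦ hε hI hJ) (fun I J hI hJ => gB.loc hΦ hε hI hJ)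
      (fun I J hI hJ => gA.part hΦ hε hI hJ) (fun I J hI hJ => gB.part hΦ hε hI hJ)
      hnA hnB h3 with ⟨i, hi, h4⟩ | ⟨j, hj, h4⟩
    · rw [Finset.mem_singleton] at hi
      rw [hi, wF_empty, wF_sgl_singleton] at h4
      exact .new _ τ hnf frs_old hτ h4
    · rw [wF_empty, wF_sgl_singleton] at h4
      rw [Finset.mem_insert, Finset.mem_singleton] at hj
      exact absurd h4 (hB j hj τ hτ)

open Classical in
/-- **ONE STEP, partner not felt.** -/
theorem unfelt_step {E : Finset Src → CTree → Prop}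
    (hE : ∀ V T, ¬E V T → NoExc Φ ε L t l V T)
    (hl : l ∉ w) (hbd : ∀ a ∈ insert l w, 0 ≤ a.1 ∧ a.2.2 ≤ L) (ht : h ≤ t) (hτ : τ ≤ h)
    (hT : (RB.Y Φ ε L hΦ hε).Touch w (insert l w) τ)
    (hfirst : ∀ s < τ, ¬(RB.Y Φ ε L hΦ hε).Touch w (insert l w) s) :
    FB.Direct Φ ε L hΦ hε w l τ ∨ Irr Φ ε L w l τ ∨
      ∃ T, HitU L hΦ hε w l T τ ∧ StepU L hΦ hε h E w l T := by
  rcases touch_cases hl hbd hT hfirst with h1 | h1 | ⟨T, hR, hS, hun, hC⟩
  · exact Or.inl h1
  · exact Or.inr (Or.inl h1)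
  right; right
  have hsig := sig_eq (Φ := Φ) (ε := ε) (T := T) (l := l)
  rw [hsig] at hS hun
  refine ⟨T, ⟨hR.sub, (alive_pre hR.alive).depth,
    (meets_swap (ε := ε) (ln Φ ε T, l.2.1)).2 hR.meets, ?_, hS, ?_, ?_,
    fun q hq he => hun (he.mono hq.le), fun r hr => ?_⟩,
    stepU_of hE ht hτ hT hfirst hR hS hun hC⟩
  · rw [← hsig]; exact hR.birth_lt
  · rw [← hsig]; exact hR.ext_lt
  · rw [← hsig]; exact hR.alive
  · rw [← hsig] at hr
    exact hR.first r hr

open Classical in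
/-- **The deterministic step**, in the form of `helper178`. -/
theorem stepHyp {I : Prop} {E : Finset Src → CTree → Prop}
    (hE : ∀ V T, ¬E V T → NoExc Φ ε L t l V T) (hI : Irr Φ ε L w l t → I)
    (hl : l ∉ w) (hbd : ∀ a ∈ insert l w, 0 ≤ a.1 ∧ a.2.2 ≤ L) :
    StepHyp L hΦ hε t I E w l := by
  intro τ h _ hτ ht hT hfirst
  rcases unfelt_step hE hl hbd ht hτ hT hfirst with h1 | h1 | h1
  · exact Or.inl h1
  · exact Or.inr (Or.inl (hI (h1.mono (hτ.trans ht))))
  · exact Or.inr (Or.inr h1)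

end Vale.Agent.P119.PB
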