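import Vale.Agent.P119.TL.MRep
import Vale.Agent.P119.PB.Felt
import Vale.Agent.P119.FB.Conc1

/-!
# P119: squares with an old tree, from its lines (`helper472`)

`V` is the base, the packets `X i`, `i ∈ K`, do not interact over `V` (`M.Good`); the packets of
`N ⊆ K` are the lines of the tree `T`.  `I, J ⊆ K` are disjoint from `N`.

* `Nice W T`: `T` is alive at its exit in the world `W` and its particles are not bad before their
  exits; `Nice.of_not_exp`, `Nice.congr`;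
* `MRep.dep_on`: `MRep.sta_dep` for a family of index sets;
* **`square_of_lines`**: the worlds `wF V X I`, `wF V X J`, and the same with the particles of `T`,
  form a square.
-/

open MeasureTheory Filter Topology Set
open scoped ENNReal NNReal

noncomputable section

namespace Vale.Agent.P119.TL

open KU M M.CTree RB PB

variable {Φ : E3 → ℝ} {ε : ℝ} {L : ℕ} {hΦ : IsPotential Φ} {hε : 0 < ε}
  {U V W W₁ W₂ : Finset Src} {T : CTree} {t s : ℝ} {ι : Type*}

/-! ### Nice trees -/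

/-- `T` is alive at its exit, its particles are not bad before their exits. -/
structure Nice (Φ : E3 → ℝ) (ε : ℝ) (L : ℕ) (W : Finset Src) (T : CTree) : Prop where
  /-- alive -/
  alive : alive Φ ε L (W : Set Src) T (ext Φ ε T)
  /-- not bad -/
  good : ∀ x ∈ outs T, ∀ s < ext Φ ε x, ¬badi Φ ε L (W : Set Src) x.root s

/-- If the root is not exposed before the exit. -/
theorem Nice.of_not_exp (ha : M.alive Φ ε L (W : Set Src) T (ext Φ ε T))
    (he : ∀ s < ext Φ ε T, ¬(Y Φ ε L hΦ hε).Exp W T.root s) : Nice Φ ε L W T := by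
  refine ⟨ha, fun x hx s hs hb => ?_⟩
  rcases hx with rfl | hx
  · exact he s hs (exp_of_badi hb le_rfl)
  · exact leg_lemma ha he hx hs (exp_of_badi hb le_rfl)

theorem Nice.sub (h : Nice Φ ε L W T) : T.leaves ⊆ (W : Set Src) := (alive_pre h.alive).sub

theorem Nice.ok (h : Nice Φ ε L W T) : M.CTree.ok Φ ε T := (alive_pre h.alive).ok

/-- The same in another world in which the particles of `T` have the same statuses. -/
theorem Nice.congr (hΦ : IsPotential Φ) (hε : 0 < ε) (h : Nice Φ ε L W₂ T)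
    (ht : ext Φ ε T ≤ t) (hD : ∀ a ∈ T.leaves, a ∉ (Y Φ ε L hΦ hε).D W₁ W₂ t) :
    Nice Φ ε L W₁ T := by
  have hroot := hD _ T.root_mem_leaves
  refine ⟨alive_congr hΦ hε W₂.finite_toSet W₁.finite_toSet (fun _ => ?_) (fun r hr => ?_)
    h.alive, fun x hx s hs hb => ?_⟩
  · have h1 := mem_of_sta (sta_eq_of_not_mem_D hroot (le_refl t))
    exact h1.2 (h.sub T.root_mem_leaves)
  · exact (stat_of_sta (sta_eq_of_not_mem_D hroot (hr.le.trans ht))).symm
  · have hst : s ≤ t := (hs.trans_le (out_ext_le hΦ hε h.ok hx)).le.trans ht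
    have h1 := sta_eq_of_not_mem_D (hD _ (outs_leaves hx x.root_mem_leaves)) hst
    have h2 : RB.badc Φ ε L (W₁ : Set Src) x.root s = RB.badc Φ ε L (W₂ : Set Src) x.root s :=
      congrArg (fun p => p.2.2) h1
    have h3 : RB.badc Φ ε L (W₁ : Set Src) x.root s := ⟨s, le_rfl, hb⟩
    rw [h2] at h3
    obtain ⟨u, hu, h4⟩ := h3
    exact h.good x hx u (hu.trans_lt hs) h4

/-! ### Dependence on one index -/

/-- `MRep.sta_dep` for a family of index sets. -/
theorem MRep.dep_on {κ : Type*} {K : Finset ι} {Js : κ → Finset ι} {Wr : κ → Finset Src}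
    {Wl : Finset ι → Finset Src} {f : Src → CTree} (hΦ : IsPotential Φ) (hε : 0 < ε)
    (hR : ∀ k, MRep Φ ε L (Wr k) (Wl (Js k)) f t) (hJs : ∀ k, Js k ⊆ K)
    (hinj : ∀ k k', ∀ b ∈ Wl (Js k), ∀ b' ∈ Wl (Js k'), (f b).root = (f b').root → b = b')
    (h : ∀ a, ∃ i, ∀ J J', J ⊆ K → J' ⊆ K → (i ∈ J ↔ i ∈ J') →
      ∀ s ≤ t, sta Φ ε L (Wl J : Set Src) a s = sta Φ ε L (Wl J' : Set Src) a s) (a : Src) :
    ∃ i, ∀ k k', (i ∈ Js k ↔ i ∈ Js k') →
      ∀ s ≤ t, sta Φ ε L (Wr k : Set Src) a s = sta Φ ε L (Wr k' : Set Src) a s := by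
  by_cases ha : ∃ k, ∃ a' ∈ Wl (Js k), (f a').root = a
  · obtain ⟨k₀, a', ha', rfl⟩ := ha
    obtain ⟨i, hi⟩ := h a'
    have hmem : ∀ k, a' ∉ Wl (Js k) → (f a').root ∉ (Wr k : Set Src) := by
      intro k h1 h2
      obtain ⟨b, hb, he⟩ := (hR k).bij.surjOn h2
      have h3 := hinj k k₀ b (Finset.mem_coe.1 hb) a' ha' he
      exact h1 (h3 ▸ Finset.mem_coe.1 hb)
    refine ⟨i, fun k k' hij s hs => ?_⟩
    have h1 := hi (Js k) (Js k') (hJs k) (hJs k') hij s hs
    have h2 : a' ∈ Wl (Js k) ↔ a' ∈ Wl (Js k') := by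
      have h3 : (a' ∈ (Wl (Js k) : Set Src)) = (a' ∈ (Wl (Js k') : Set Src)) :=
        congrArg (fun p : Prop × Option CTree × Prop => p.1) h1
      exact Iff.of_eq h3
    by_cases h3 : a' ∈ Wl (Js k)
    · exact (hR k).sta_eq hΦ hε (hR k') (fun _ _ _ => rfl) h3 (h2.1 h3) hs h1
    · rw [sta_not_mem (hmem k h3), sta_not_mem (hmem k' fun h4 => h3 (h2.2 h4))]
  · obtain ⟨i, -⟩ := h a
    have hn : ∀ k, a ∉ (Wr k : Set Src) := by
      intro k h1
      obtain ⟨b, hb, he⟩ := (hR k).bij.surjOn h1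
      exact ha ⟨k, b, Finset.mem_coe.1 hb, he⟩
    refine ⟨i, fun k k' _ s _ => ?_⟩
    rw [sta_not_mem (hn k), sta_not_mem (hn k')]

/-- A square from the dependence on one index. -/
theorem square_of_dep {I J N : Finset ι} [DecidableEq ι] {P Q R S : Finset Src}
    (hI : Disjoint I N) (hJ : Disjoint J N)
    (h : ∀ a, ∃ i, ((i ∈ I ↔ i ∈ J) → ∀ s ≤ t, sta Φ ε L (P : Set Src) a s =
        sta Φ ε L (Q : Set Src) a s) ∧
      ((i ∈ I ↔ i ∈ I ∪ N) → ∀ s ≤ t, sta Φ ε L (P : Set Src) a s =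
        sta Φ ε L (R : Set Src) a s) ∧
      ((i ∈ J ↔ i ∈ J ∪ N) → ∀ s ≤ t, sta Φ ε L (Q : Set Src) a s =
        sta Φ ε L (S : Set Src) a s) ∧
      ((i ∈ I ∪ N ↔ i ∈ J ∪ N) → ∀ s ≤ t, sta Φ ε L (R : Set Src) a s =
        sta Φ ε L (S : Set Src) a s)) :
    FB.Sys.Square (Y Φ ε L hΦ hε) P Q R S t := by
  have key : ∀ i : ι, i ∉ N → (i ∈ I ↔ i ∈ I ∪ N) ∧ (i ∈ J ↔ i ∈ J ∪ N) := by
    intro i hi
    rw [Finset.mem_union, Finset.mem_union]
    tauto
  have hIN := Finset.disjoint_left.1 hI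
  have hJN := Finset.disjoint_left.1 hJ
  refine ⟨fun a h1 h2 => ?_, fun a h1 s hs => ?_, fun a h1 s hs => ?_⟩
  · obtain ⟨i, e1, e2, -, -⟩ := h a
    by_cases hi : i ∈ N
    · obtain ⟨s, hs, hne⟩ := h1
      exact hne (e1 (iff_of_false (fun h => hIN h hi) fun h => hJN h hi) s hs)
    · obtain ⟨s, hs, hne⟩ := h2
      exact hne (e2 (key i hi).1 s hs)
  · obtain ⟨i, -, e2, e3, e4⟩ := h a
    by_cases hi : i ∈ N
    · exact e4 (iff_of_true (Finset.mem_union_right _ hi) (Finset.mem_union_right _ hi)) s hs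
    · have h2 := sta_eq_of_not_mem_D h1 hs
      exact ((e2 (key i hi).1 s hs).symm.trans h2).trans (e3 (key i hi).2 s hs)
  · obtain ⟨i, e1, e2, e3, e4⟩ := h a
    by_cases hi : i ∈ N
    · have h2 := sta_eq_of_not_mem_D h1 hs
      have h3 := e1 (iff_of_false (fun h => hIN h hi) fun h => hJN h hi) s hs
      have h4 := e4 (iff_of_true (Finset.mem_union_right _ hi) (Finset.mem_union_right _ hi)) s hs
      exact (h3.symm.trans h2).trans h4
    · exact e3 (key i hi).2 s hs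

/-! ### Squares -/

/-- The packets of `N` are the lines of `T`. -/
structure LinePk (Φ : E3 → ℝ) (ε : ℝ) (T : CTree) (X : ι → Finset Src) (N : Finset ι)
    (i : CTree → ι) : Prop where
  mem : ∀ x ∈ outs T, i x ∈ N
  surj : ∀ k ∈ N, ∃ x ∈ outs T, i x = k
  pk : ∀ x ∈ outs T, X (i x) = {rsrc Φ ε x}
  inj : InjOn i (outs T)

variable [DecidableEq ι] {X : ι → Finset Src} {K N I J : Finset ι} {i : CTree → ι}

/-- The world with the lines of `T`. -/
theorem wF_eq_lwd (hL : LinePk Φ ε T X N i) (hok : ok Φ ε T) : (wF V X (I ∪ N) : Set Src) =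
    lwd Φ ε (rho Φ ε T (ext Φ ε T)) (wF V X I : Set Src) T := by
  ext a
  unfold lwd
  rw [Finset.mem_coe, mem_wF, mem_union, Finset.mem_coe, mem_wF, mem_image]
  constructor
  · rintro (h | ⟨j, hj, h⟩)
    · exact Or.inl (Or.inl h)
    · rcases Finset.mem_union.1 hj with hj | hj
      · exact Or.inl (Or.inr ⟨j, hj, h⟩)
      · obtain ⟨x, hx, rfl⟩ := hL.surj j hj
        rw [hL.pk x hx, Finset.mem_singleton] at h
        exact Or.inr ⟨x, hx, (msrc_rho hok hx).trans h.symm⟩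
  · rintro ((h | ⟨j, hj, h⟩) | ⟨x, hx, rfl⟩)
    · exact Or.inl h
    · exact Or.inr ⟨j, Finset.mem_union_left _ hj, h⟩
    · refine Or.inr ⟨i x, Finset.mem_union_right _ (hL.mem x hx), ?_⟩
      rw [hL.pk x hx, msrc_rho hok hx]
      exact Finset.mem_singleton_self _

/-- The hypotheses of TREE -> LINES for `T` over the worlds of a good family. -/
theorem setup_of_good (hΦ : IsPotential Φ) (hε : 0 < ε) (hL : LinePk Φ ε T X N i) (hN : N ⊆ K)
    (hI : I ⊆ K) (hIN : Disjoint I N) (hg : Good Φ ε L V X K t)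
    (hd : Disjoint (wF V X I : Set Src) T.leaves)
    (hW : (W : Set Src) = (wF V X I : Set Src) ∪ T.leaves) (hn : Nice Φ ε L W T) :
    Setup Φ ε L (wF V X I : Set Src) T (rho Φ ε T (ext Φ ε T)) t := by
  have hok := hn.ok
  have hlw := wF_eq_lwd (V := V) (I := I) hL hok
  have : Nonempty ι := ⟨i T⟩
  have hidx : ∀ x ∈ outs T, Idx (fun J => (wF V X J : Set Src)) K (i x)
      (msrc Φ ε (rho Φ ε T (ext Φ ε T)) x) := by
    intro x hx
    rw [msrc_rho hok hx]
    refine hg.idx (hN (hL.mem x hx)) ?_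
    rw [hL.pk x hx]
    exact Finset.mem_singleton_self _
  have hu : I ∪ N ⊆ K := Finset.union_subset hI hN
  have hinj := inj_of_idx (Wc := fun J => (wF V X J : Set Src)) hg.cubeW hu hlw.symm i hidx hL.inj
  have hfr : ∀ x ∈ outs T, msrc Φ ε (rho Φ ε T (ext Φ ε T)) x ∉ (wF V X I : Set Src) := fun x hx =>
    fresh_of_idx (Wc := fun J => (wF V X J : Set Src)) hI Set.Subset.rfl (hidx x hx) fun h =>
      Finset.disjoint_left.1 hIN h (hL.mem x hx)
  have hal : M.alive Φ ε L ((wF V X I : Set Src) ∪ T.leaves) T (ext Φ ε T) := by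
    rw [← hW]; exact hn.alive
  have hfin : ((wF V X I : Set Src) ∪ T.leaves).Finite :=
    (Finset.finite_toSet _).union T.leaves_finite
  have hrho : ∀ x ∈ outs T, rho Φ ε T (ext Φ ε T) x = ext Φ ε x := by
    intro x hx
    rcases hx with rfl | hx
    · exact rho_self _
    · exact rho_exs hok hx _
  refine Setup.of_not_bad hΦ hε (Finset.finite_toSet _) hd hinj hfr
    (fun x hx => (hrho x hx).ge) (fun x hx => ?_) (fun x hx => Or.inl (hrho x hx))
    (fun x hx u hu _ hbad => ?_)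
    (indep_of_NI hΦ hε (Wc := fun J => (wF V X J : Set Src)) hg.cubeW hg.ni hu hlw.symm i hidx
      hL.inj)
  · rw [hrho x hx]
    rcases hx with rfl | hx
    · exact hal
    · exact out_alive hΦ hε hfin hal hx
  · rw [← hW] at hbad
    rw [hrho x hx] at hu
    exact hn.good x hx u hu hbad

/-- The representation of the world with `T` by the world with the lines of `T`. -/
theorem mrep_of_good (hΦ : IsPotential Φ) (hε : 0 < ε) (hL : LinePk Φ ε T X N i) (hN : N ⊆ K)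
    (hI : I ⊆ K) (hIN : Disjoint I N) (hg : Good Φ ε L V X K t) (ht : ext Φ ε T ≤ t)
    (hd : Disjoint (wF V X I : Set Src) T.leaves)
    (hW : (W : Set Src) = (wF V X I : Set Src) ∪ T.leaves) (hn : Nice Φ ε L W T) :
    MRep Φ ε L W (wF V X (I ∪ N)) (fs Φ ε (rho Φ ε T (ext Φ ε T)) T) t := by
  have hok := hn.ok
  have hset := setup_of_good hΦ hε hL hN hI hIN hg hd hW hn
  refine MRep.of_setup hΦ hε hset hW (wF_eq_lwd hL hok) (fun a ha => ?_)
    (fun x hx => (rho_le hΦ hε hok le_rfl hx).trans ht) (fun x hx u hu => ?_)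
  · rw [← Finset.mem_coe, hW] at ha
    rcases ha with ha | ha
    · exact (hg.bd hI a (Finset.mem_coe.1 ha)).1
    · exact birth_of_ok hok a ha
  · have hrho : rho Φ ε T (ext Φ ε T) x = ext Φ ε x := by
      rcases hx with rfl | hx
      · exact rho_self _
      · exact rho_exs hok hx _
    rw [hrho] at hu
    exact hn.good x hx u hu

omit [DecidableEq ι] in
/-- The representation of the world without `T` by itself. -/
theorem mrep_base (hΦ : IsPotential Φ) (hε : 0 < ε) (hL : LinePk Φ ε T X N i) (hN : N ⊆ K) (hI : I ⊆ K) (hIN : Disjoint I N)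
    (hg : Good Φ ε L V X K t) (hok : ok Φ ε T) :
    MRep Φ ε L (wF V X I) (wF V X I) (fs Φ ε (rho Φ ε T (ext Φ ε T)) T) t := by
  refine (MRep.refl (fun a ha => (hg.bd hI a ha).1)).congr hΦ hε fun a ha => ?_
  unfold fs
  rw [dif_neg]
  rintro ⟨x, hx, rfl⟩
  rw [msrc_rho hok hx] at ha
  have h1 := hg.idx (hN (hL.mem x hx)) (a := rsrc Φ ε x)
    (by rw [hL.pk x hx]; exact Finset.mem_singleton_self _) I hI (Finset.mem_coe.2 ha)
  exact Finset.disjoint_left.1 hIN h1 (hL.mem x hx)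

/-- **Squares from the lines**: the packets of `K` do not interact over `V`, the packets of `N` are
the lines of `T`; `T` is nice in the worlds `W₁ = wF V X I ∪ T`, `W₂ = wF V X J ∪ T`. -/
theorem square_of_lines (hL : LinePk Φ ε T X N i) (hN : N ⊆ K) (hI : I ⊆ K) (hJ : J ⊆ K)
    (hIN : Disjoint I N) (hJN : Disjoint J N) (hg : Good Φ ε L V X K t) (ht : ext Φ ε T ≤ t)
    (hdI : Disjoint (wF V X I : Set Src) T.leaves) (hdJ : Disjoint (wF V X J : Set Src) T.leaves)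
    (hW₁ : (W₁ : Set Src) = (wF V X I : Set Src) ∪ T.leaves)
    (hW₂ : (W₂ : Set Src) = (wF V X J : Set Src) ∪ T.leaves) (n₁ : Nice Φ ε L W₁ T)
    (n₂ : Nice Φ ε L W₂ T) :
    FB.Sys.Square (Y Φ ε L hΦ hε) (wF V X I) (wF V X J) W₁ W₂ t := by
  have hok := n₁.ok
  have hne : Nonempty ι := ⟨i T⟩
  have r1 := mrep_base (t := t) hΦ hε hL hN hI hIN hg hok
  have r2 := mrep_base (t := t) hΦ hε hL hN hJ hJN hg hok
  have r3 := mrep_of_good hΦ hε hL hN hI hIN hg ht hdI hW₁ n₁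
  have r4 := mrep_of_good hΦ hε hL hN hJ hJN hg ht hdJ hW₂ n₂
  have hidx : ∀ x ∈ outs T, ∀ I', I' ⊆ K → rsrc Φ ε x ∈ wF V X I' → i x ∈ I' :=
    fun x hx I' hI' h => hg.idx (hN (hL.mem x hx)) (a := rsrc Φ ε x)
      (by rw [hL.pk x hx]; exact Finset.mem_singleton_self _) I' hI' (Finset.mem_coe.2 h)
  have hmem : ∀ x ∈ outs T, rsrc Φ ε x ∈ wF V X {i x} := by
    intro x hx
    refine mem_wF.2 (Or.inr ⟨i x, Finset.mem_singleton_self _, ?_⟩)
    rw [hL.pk x hx]
    exact Finset.mem_singleton_self _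
  have hrinj : InjOn (rsrc Φ ε) (outs T) := by
    intro x hx x' hx' he
    refine hL.inj hx hx' ?_
    have h1 := hidx x hx {i x'} (Finset.singleton_subset_iff.2 (hN (hL.mem x' hx')))
      (he ▸ hmem x' hx')
    exact Finset.mem_singleton.1 h1
  have hfs : ∀ x ∈ outs T, fs Φ ε (rho Φ ε T (ext Φ ε T)) T (rsrc Φ ε x) = x := by
    intro x hx
    have h1 : ∃ x' ∈ outs T, msrc Φ ε (rho Φ ε T (ext Φ ε T)) x' = rsrc Φ ε x :=
      ⟨x, hx, msrc_rho hok hx⟩
    unfold fs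
    rw [dif_pos h1]
    have h2 := h1.choose_spec
    rw [msrc_rho hok h2.1] at h2
    exact hrinj h2.1 hx h2.2
  -- the histories
  have hf : ∀ I', I' ⊆ K → Disjoint I' N → Disjoint (wF V X I' : Set Src) T.leaves →
      ∀ b ∈ wF V X (I' ∪ N), (fs Φ ε (rho Φ ε T (ext Φ ε T)) T b = leaf b ∧ b ∉ T.leaves) ∨
      ∃ x ∈ outs T, rsrc Φ ε x = b := by
    intro I' hI' hd hdd b hb
    have key : b ∈ wF V X I' → (fs Φ ε (rho Φ ε T (ext Φ ε T)) T b = leaf b ∧ b ∉ T.leaves) := by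
      intro h1
      refine ⟨?_, disjoint_left.1 hdd (Finset.mem_coe.2 h1)⟩
      unfold fs
      rw [dif_neg]
      rintro ⟨x, hx, rfl⟩
      rw [msrc_rho hok hx] at h1
      exact Finset.disjoint_left.1 hd (hidx x hx I' hI' h1) (hL.mem x hx)
    rcases mem_wF.1 hb with h | ⟨j, hj, h⟩
    · exact Or.inl (key (mem_wF.2 (Or.inl h)))
    · rcases Finset.mem_union.1 hj with hj | hj
      · exact Or.inl (key (mem_wF.2 (Or.inr ⟨j, hj, h⟩)))
      · obtain ⟨x, hx, rfl⟩ := hL.surj j hj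
        rw [hL.pk x hx, Finset.mem_singleton] at h
        exact Or.inr ⟨x, hx, h.symm⟩
  have hf' : ∀ I', (I' = I ∨ I' = J ∨ I' = I ∪ N ∨ I' = J ∪ N) → ∀ b ∈ wF V X I',
      (fs Φ ε (rho Φ ε T (ext Φ ε T)) T b = leaf b ∧ b ∉ T.leaves) ∨
      ∃ x ∈ outs T, rsrc Φ ε x = b := by
    rintro I' (rfl | rfl | rfl | rfl) b hb
    · exact hf I' hI hIN hdI b (wF_mono Finset.subset_union_left hb)
    · exact hf I' hJ hJN hdJ b (wF_mono Finset.subset_union_left hb)
    · exact hf I hI hIN hdI b hb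
    · exact hf J hJ hJN hdJ b hb
  have hinj : ∀ b b', ((fs Φ ε (rho Φ ε T (ext Φ ε T)) T b = leaf b ∧ b ∉ T.leaves) ∨
      ∃ x ∈ outs T, rsrc Φ ε x = b) →
      ((fs Φ ε (rho Φ ε T (ext Φ ε T)) T b' = leaf b' ∧ b' ∉ T.leaves) ∨
      ∃ x ∈ outs T, rsrc Φ ε x = b') → (fs Φ ε (rho Φ ε T (ext Φ ε T)) T b).root =
      (fs Φ ε (rho Φ ε T (ext Φ ε T)) T b').root → b = b' := by
    rintro b b' (⟨h1, h2⟩ | ⟨x, hx, rfl⟩) (⟨h1', h2'⟩ | ⟨x', hx', rfl⟩) he
    · rw [h1, h1'] at he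
      exact he
    · rw [h1, hfs x' hx'] at he
      have he : b = x'.root := he
      exact absurd (outs_leaves hx' x'.root_mem_leaves) (he ▸ h2)
    · rw [h1', hfs x hx] at he
      have he : x.root = b' := he
      exact absurd (outs_leaves hx x.root_mem_leaves) (he ▸ h2')
    · rw [hfs x hx, hfs x' hx'] at he
      rw [outs_root_inj hok hx hx' he]
  -- the four worlds
  let Js : Fin 4 → Finset ι := ![I, J, I ∪ N, J ∪ N]
  let Wr : Fin 4 → Finset Src := ![wF V X I, wF V X J, W₁, W₂]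
  have hJs : ∀ k, Js k = I ∨ Js k = J ∨ Js k = I ∪ N ∨ Js k = J ∪ N := by
    intro k
    fin_cases k
    · exact Or.inl rfl
    · exact Or.inr (Or.inl rfl)
    · exact Or.inr (Or.inr (Or.inl rfl))
    · exact Or.inr (Or.inr (Or.inr rfl))
  have hR : ∀ k, MRep Φ ε L (Wr k) (wF V X (Js k)) (fs Φ ε (rho Φ ε T (ext Φ ε T)) T) t := by
    intro k
    fin_cases k
    · exact r1
    · exact r2
    · exact r3
    · exact r4
  have hJK : ∀ k, Js k ⊆ K := by
    intro k
    rcases hJs k with h | h | h | h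
    · rw [h]; exact hI
    · rw [h]; exact hJ
    · rw [h]; exact Finset.union_subset hI hN
    · rw [h]; exact Finset.union_subset hJ hN
  have key := MRep.dep_on hΦ hε hR hJK
    (fun k k' b hb b' hb' he => hinj b b' (hf' _ (hJs k) b hb) (hf' _ (hJs k') b' hb') he)
    fun a => hg.sta_dep hΦ hε a
  refine square_of_dep hIN hJN fun a => ?_
  obtain ⟨i₀, hi₀⟩ := key a
  exact ⟨i₀, hi₀ 0 1, hi₀ 0 2, hi₀ 1 3, hi₀ 2 3⟩

end Vale.Agent.P119.TL

namespace Vale.Agent.P119.PB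

open M CTree KU FB RB AU TL

variable {Φ : E3 → ℝ} {ε : ℝ} {L : ℕ} {hΦ : IsPotential Φ} {hε : 0 < ε}
  {U V W W₁ W₂ K I J : Finset Src} {T : CTree} {t s : ℝ} {a : Src}

/-! ### Lines as packets -/

open Classical in
/-- The lines of `T` and the sources of `K` are distinct, and they do not interact over `V`. -/
structure GoodK (Φ : E3 → ℝ) (ε : ℝ) (L : ℕ) (V : Finset Src) (T : CTree) (K : Finset Src)
    (t : ℝ) : Prop where
  /-- distinct lines -/
  inj : InjOn (rsrc Φ ε) (outs T)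
  /-- distinct lines -/
  disj : Disjoint (srcs Φ ε T) K
  /-- no interaction -/
  good : Good Φ ε L V sgl (srcs Φ ε T ∪ K) t

theorem GoodK.mono (h : GoodK Φ ε L V T K t) (hst : s ≤ t) : GoodK Φ ε L V T K s :=
  ⟨h.inj, h.disj, h.good.mono hst⟩

theorem GoodK.subset (h : GoodK Φ ε L V T K t) (hI : I ⊆ K) : GoodK Φ ε L V T I t :=
  ⟨h.inj, h.disj.mono_right hI, h.good.subset (Finset.union_subset_union_right hI)⟩

theorem linePk_srcs (hi : InjOn (rsrc Φ ε) (outs T)) :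
    LinePk Φ ε T sgl (srcs Φ ε T) (rsrc Φ ε) :=
  ⟨fun x hx => mem_srcs.2 ⟨x, hx, rfl⟩, fun _ hk => mem_srcs.1 hk, fun _ _ => rfl, hi⟩

theorem mem_wF_sgl' : a ∈ (wF U sgl I : Set Src) ↔ a ∈ U ∨ a ∈ I := mem_wF_sgl

/-- The worlds without `T`. -/
theorem rm_wF_sgl (hI : ∀ a ∈ I, a ∉ T.leaves) : rm (wF U sgl I) T = wF (rm U T) sgl I := by
  ext a
  rw [mem_rm, mem_wF_sgl, mem_wF_sgl, mem_rm]
  constructor
  · rintro ⟨h | h, h2⟩
    · exact Or.inl ⟨h, h2⟩
    · exact Or.inr h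
  · rintro (h | h)
    · exact ⟨Or.inl h.1, h.2⟩
    · exact ⟨Or.inr h, hI a h⟩

/-- **Squares from the lines of `T`**, `T ⊆ U`. -/
theorem square_of_goodK (hT : T.leaves ⊆ (U : Set Src)) (hI : I ⊆ K) (hJ : J ⊆ K)
    (hK : ∀ a ∈ K, a ∉ T.leaves) (ht : ext Φ ε T ≤ t) (hg : GoodK Φ ε L (rm U T) T K t)
    (n₁ : Nice Φ ε L (wF U sgl I) T) (n₂ : Nice Φ ε L (wF U sgl J) T) :
    FB.Sys.Square (Y Φ ε L hΦ hε) (rm (wF U sgl I) T) (rm (wF U sgl J) T) (wF U sgl I)
      (wF U sgl J) t := by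
  classical
  rw [rm_wF_sgl fun a ha => hK a (hI ha), rm_wF_sgl fun a ha => hK a (hJ ha)]
  have hdis : ∀ I', I' ⊆ K → Disjoint (wF (rm U T) sgl I' : Set Src) T.leaves := by
    intro I' hI'
    refine disjoint_left.2 fun a h1 h2 => ?_
    rcases mem_wF_sgl'.1 h1 with h1 | h1
    · exact (mem_rm.1 h1).2 h2
    · exact hK a (hI' h1) h2
  have heq : ∀ I', (wF U sgl I' : Set Src) = (wF (rm U T) sgl I' : Set Src) ∪ T.leaves := by
    intro I'
    ext a
    rw [mem_union, mem_wF_sgl', mem_wF_sgl', mem_rm]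
    constructor
    · rintro (h | h)
      · by_cases h2 : a ∈ T.leaves
        · exact Or.inr h2
        · exact Or.inl (Or.inl ⟨h, h2⟩)
      · exact Or.inl (Or.inr h)
    · rintro ((h | h) | h)
      · exact Or.inl h.1
      · exact Or.inr h
      · exact Or.inl (Finset.mem_coe.1 (hT h))
  exact square_of_lines (K := srcs Φ ε T ∪ K) (linePk_srcs hg.inj) Finset.subset_union_left
    (hI.trans Finset.subset_union_right) (hJ.trans Finset.subset_union_right)
    (hg.disj.mono_right hI).symm (hg.disj.mono_right hJ).symm hg.good ht (hdis I hI) (hdis J hJ)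
    (heq I) (heq J) n₁ n₂

/-- **A nice tree which is related to the difference of two worlds**: a particle of the tree is
altered, or its lines interact with the other sources over the base. -/
theorem rel_lines (hI : I ⊆ K) (hJ : J ⊆ K) (hIJ : Disjoint I J) (hK : ∀ a ∈ K, a ∉ U)
    (ht : ext Φ ε T ≤ t) (n₂ : Nice Φ ε L (wF U sgl J) T)
    (h : ¬FB.Sys.Square (Y Φ ε L hΦ hε) (rm (wF U sgl I) T) (rm (wF U sgl J) T) (wF U sgl I)
      (wF U sgl J) t) :
    (∃ a ∈ T.leaves, a ∈ (Y Φ ε L hΦ hε).D (wF U sgl I) (wF U sgl J) t) ∨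
      (T.leaves ⊆ (U : Set Src) ∧ ¬GoodK Φ ε L (rm U T) T K t) := by
  by_contra hcon
  push Not at hcon
  obtain ⟨h1, h2⟩ := hcon
  have hT : T.leaves ⊆ (U : Set Src) := by
    intro a ha
    rcases mem_wF_sgl'.1 (n₂.sub ha) with h3 | h3
    · exact Finset.mem_coe.2 h3
    · exfalso
      refine h1 a ha (mem_D_of_mem (fun h4 => ?_) t)
      rcases mem_wF_sgl.1 (h4.2 (mem_wF_sgl.2 (Or.inr h3))) with h5 | h5
      · exact hK a (hJ h3) h5
      · exact Finset.disjoint_left.1 hIJ h5 h3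
  exact h (square_of_goodK hT hI hJ (fun a ha h3 => hK a ha (Finset.mem_coe.1 (hT h3))) ht (h2 hT)
    (n₂.congr hΦ hε ht h1) n₂)

end Vale.Agent.P119.PB
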