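import Vale.Agent.P119.FB.Unfelt

/-!
# P119, feedback block: irregular FIRST contacts (`helper939`)

`FB.Irr` (an irregular contact of the free source `l` with a live tree of the world `w`) does not say
that `l` is still undisturbed.  Here:

* `IrrF`: the same, before (or at) the first M-contact of `l` in `insert l w`;
* `touch_casesF`, `PB.unfelt_stepF`, `PB.stepHypF`: the deterministic step with `IrrF`;
* `IrrU Φ ε L U m t`: an irregular contact of the line `m` with SOME history with sources in `U`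
  (no liveness, no second inserted line);
* **`irrU_of_irrF`**: if `U`, `e`, `m` are good (no interaction of `e` and `m`) then an irregular first
  contact of `m` with the world `insert e U` is an irregular contact with a history of `U`: a live tree
  with `e` would be in contact with the line `m`;
* **`PB.stepHyp_irrU`**: the deterministic step for the line `m` in the world `insert e U`, with the
  exceptional proposition `¬Good ∨ IrrU`.
-/

open MeasureTheory Filter Topology Set
open scoped ENNReal NNReal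

noncomputable section

namespace Vale.Agent.P119.FB

open M CTree KU RB TL

variable {Φ : E3 → ℝ} {ε : ℝ} {L : ℕ} {hΦ : IsPotential Φ} {hε : 0 < ε}
  {U V W w : Finset Src} {T : CTree} {l e m : Src} {s t σ : ℝ}

/-! ### The definitions -/

open Classical in
/-- Irregular contact of the line `l` with a live tree of `w`, at (or before) the first M-contact of
`l` in the world `insert l w`. -/
def IrrF (Φ : E3 → ℝ) (ε : ℝ) (L : ℕ) (w : Finset Src) (l : Src) (t : ℝ) : Prop :=
  ∃ s ≤ t, l.1 ≤ s ∧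
    (∀ r < s, ∀ b, ¬mcon Φ ε L ((insert l w : Finset Src) : Set Src) r l b) ∧
    ∃ S : CTree, live Φ ε L (w : Set Src) S s ∧ Ctc ε (KU.free s l.2.1) (st Φ ε S s) ∧
      (s = l.1 ∨ s ≤ ext Φ ε S ∨ (ext Φ ε S < s ∧
        ‖(KU.free s l.2.1).1 - (KU.free s (ln Φ ε S)).1‖ = ε ∧
        (inner ℝ ((KU.free s l.2.1).1 - (KU.free s (ln Φ ε S)).1)
          ((KU.free s l.2.1).2 - (KU.free s (ln Φ ε S)).2) : ℝ) = 0))

/-- Irregular contact of the line `m` with a history with sources in `U`: at the birth of `m`, or with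
a history which has just begun its last collision, or grazing. -/
def IrrU (Φ : E3 → ℝ) (ε : ℝ) (L : ℕ) (U : Finset Src) (m : Src) (t : ℝ) : Prop :=
  ∃ S : CTree, ok Φ ε S ∧ S.depth ≤ L ∧ S.leaves ⊆ (U : Set Src) ∧
    ∃ s ≤ t, m.1 ≤ s ∧ sig Φ ε S ≤ s ∧ Ctc ε (KU.free s m.2.1) (st Φ ε S s) ∧
      (s = m.1 ∨ s ≤ ext Φ ε S ∨ (ext Φ ε S < s ∧
        ‖(KU.free s m.2.1).1 - (KU.free s (ln Φ ε S)).1‖ = ε ∧
        (inner ℝ ((KU.free s m.2.1).1 - (KU.free s (ln Φ ε S)).1)
          ((KU.free s m.2.1).2 - (KU.free s (ln Φ ε S)).2) : ℝ) = 0))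

theorem IrrF.irr (h : IrrF Φ ε L w l t) : Irr Φ ε L w l t := by
  obtain ⟨s, h1, h2, -, S, h3, h4, h5⟩ := h
  exact ⟨s, h1, h2, S, h3, h4, h5⟩

theorem IrrF.mono (h : IrrF Φ ε L w l s) (hst : s ≤ t) : IrrF Φ ε L w l t := by
  obtain ⟨r, hr, h⟩ := h
  exact ⟨r, hr.trans hst, h⟩

theorem IrrU.mono (h : IrrU Φ ε L U m s) (hst : s ≤ t) : IrrU Φ ε L U m t := by
  obtain ⟨S, h1, h2, h3, r, hr, h⟩ := h
  exact ⟨S, h1, h2, h3, r, hr.trans hst, h⟩

theorem IrrU.mono_set (h : IrrU Φ ε L U m t) (hU : U ⊆ V) : IrrU Φ ε L V m t := by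
  obtain ⟨S, h1, h2, h3, h⟩ := h
  exact ⟨S, h1, h2, h3.trans (Finset.coe_subset.2 hU), h⟩

theorem IrrU.of_irr (h : Irr Φ ε L U m t) : IrrU Φ ε L U m t := by
  obtain ⟨s, h1, h2, S, h3, h4, h5⟩ := h
  exact ⟨S, h3.ok, h3.depth, h3.sub, s, h1, h2, h3.sig_le, h4, h5⟩

/-! ### The cases of the first touch -/

open Classical in
/-- **All the cases of the first touch**, with an irregular FIRST contact. -/
theorem touch_casesF (hl : l ∉ w) (hbd : ∀ a ∈ insert l w, 0 ≤ a.1 ∧ a.2.2 ≤ L)
    (hσ : (Y Φ ε L hΦ hε).Touch w (insert l w) σ)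
    (hfirst : ∀ s < σ, ¬(Y Φ ε L hΦ hε).Touch w (insert l w) s) :
    Direct Φ ε L hΦ hε w l σ ∨ IrrF Φ ε L w l σ ∨
      ∃ T : CTree, RegHit Φ ε L w l T ∧ sig Φ ε (node T (leaf l)) ≤ σ ∧
        ¬(Y Φ ε L hΦ hε).Exp w T.root (sig Φ ε (node T (leaf l))) ∧
        (¬Exits Φ (rel ε (CTree.ln Φ ε T, l.2.1)) ∨ L < (node T (leaf l)).depth ∨
          TriW Φ ε L w T l σ ∨
          (Hit1 Φ ε L hΦ hε w l T ∧ sig Φ ε (node T (leaf l)) < σ ∧
            σ < ext Φ ε (node T (leaf l)) ∧ (Y Φ ε L hΦ hε).Exp w T.root σ) ∨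
          (σ < ext Φ ε (node T (leaf l)) ∧ WinCon Φ ε L hΦ hε w T l σ) ∨
          (Hit1 Φ ε L hΦ hε w l T ∧ ext Φ ε (node T (leaf l)) ≤ σ)) := by
  have h0 : ∀ a ∈ insert l w, 0 ≤ a.1 := fun a ha => (hbd a ha).1
  by_cases hA : ∃ r < σ, ∃ b, mcon Φ ε L ((insert l w : Finset Src) : Set Src) r l b
  · obtain ⟨r, hr, b, hb⟩ := hA
    obtain ⟨s₁, hs, hex, hn⟩ := exists_first_mcon hΦ hε hb
    have hsσ : s₁ < σ := hs.trans_lt hr
    obtain ⟨T, h1, rfl⟩ := exists_hit1 hl h0 hn hex (hfirst s₁ hsσ)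
    have hR := RegHit.of_hit1 h1 hbd hn
    right; right
    refine ⟨T, hR, hsσ.le, h1.unexp_w, ?_⟩
    by_cases h2 : ext Φ ε (node T (leaf l)) ≤ σ
    · exact Or.inr (Or.inr (Or.inr (Or.inr (Or.inr ⟨h1, h2⟩))))
    push Not at h2
    by_cases h3 : TriW Φ ε L w T l σ
    · exact Or.inr (Or.inr (Or.inl h3))
    by_cases h4 : (Y Φ ε L hΦ hε).Exp w T.root σ
    · exact Or.inr (Or.inr (Or.inr (Or.inl ⟨h1, hsσ, h2, h4⟩)))
    · exact Or.inr (Or.inr (Or.inr (Or.inr (Or.inl ⟨h2,
        window hR h1.ok.2.2.2.2.1 h1.lives_y.depth hsσ.le h2 h3 hσ hfirst h4⟩))))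
  · push Not at hA
    rcases touch_cases hl hbd hσ hfirst with h | h | h
    · exact Or.inl h
    · obtain ⟨s, h1, h2, S, h3, h4, h5⟩ := h
      exact Or.inr (Or.inl ⟨s, h1, h2, fun r hr => hA r (hr.trans_le h1), S, h3, h4, h5⟩)
    · exact Or.inr (Or.inr h)

/-! ### No tree with the other inserted line -/

open Classical in
/-- **An irregular first contact of `m` with the world `insert e U` is one with a history of `U`.** -/
theorem irrU_of_irrF (hΦ : IsPotential Φ) (hε : 0 < ε)
    (hG : M.Good Φ ε L U (fun a : Src => ({a} : Finset Src)) {e, m} t)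
    (hem : e ≠ m) (h : IrrF Φ ε L (insert e U) m t) (hm0 : 0 ≤ m.1) (hmd : m.2.2 ≤ L) :
    IrrU Φ ε L U m t := by
  obtain ⟨s, hst, hms, hfree, S, hS, hctc, hirr⟩ := h
  refine ⟨S, hS.ok, hS.depth, ?_, s, hst, hms, hS.sig_le, hctc, hirr⟩
  by_cases heS : e ∈ S.leaves
  swap
  · intro a ha
    rcases Finset.mem_insert.1 (Finset.mem_coe.1 (hS.sub ha)) with h1 | h1
    · exact absurd (h1 ▸ ha) heS
    · exact Finset.mem_coe.2 h1
  exfalso
  have he' : e ∈ ({e, m} : Finset Src) := Finset.mem_insert_self _ _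
  have hm' : m ∈ ({e, m} : Finset Src) := Finset.mem_insert_of_mem (Finset.mem_singleton_self _)
  have heU : e ∉ U := fun hc =>
    Finset.disjoint_left.1 (hG.disjV e he') hc (Finset.mem_singleton_self _)
  have hmU : m ∉ U := fun hc =>
    Finset.disjoint_left.1 (hG.disjV m hm') hc (Finset.mem_singleton_self _)
  -- the worlds
  have w0 : M.wF U (fun a : Src => ({a} : Finset Src)) ∅ = U := M.wF_empty
  have w1 : M.wF U (fun a : Src => ({a} : Finset Src)) {m} = insert m U := by
    ext a; simp [M.mem_wF, or_comm]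
  have w2 : M.wF U (fun a : Src => ({a} : Finset Src)) {e} = insert e U := by
    ext a; simp [M.mem_wF, or_comm]
  have w3 : M.wF U (fun a : Src => ({a} : Finset Src)) {e, m} = insert m (insert e U) := by
    ext a; simp only [M.mem_wF, Finset.mem_insert, Finset.mem_singleton]
    constructor
    · rintro (ha | ⟨j, rfl | rfl, rfl⟩)
      · exact Or.inr (Or.inr ha)
      · exact Or.inr (Or.inl rfl)
      · exact Or.inl rfl
    · rintro (rfl | rfl | ha)
      · exact Or.inr ⟨_, Or.inr rfl, rfl⟩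
      · exact Or.inr ⟨_, Or.inl rfl, rfl⟩
      · exact Or.inl ha
  have hl : live Φ ε L ((insert m (insert e U) : Finset Src) : Set Src) (leaf m) s :=
    live_leaf_of hΦ hε (Finset.finite_toSet _) (Finset.mem_coe.2 (Finset.mem_insert_self _ _)) hm0
      hmd hms hfree
  obtain ⟨i, hi⟩ := hG.sta_dep hΦ hε m
  have him : i = m := by
    by_contra hne
    have h1 := hi {m} ∅ (Finset.singleton_subset_iff.2 hm') (Finset.empty_subset _)
      (by simp [hne]) s hst
    have h2 := mem_of_sta h1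
    rw [w0, w1] at h2
    exact hmU (Finset.mem_coe.1 (h2.1 (Finset.mem_coe.2 (Finset.mem_insert_self _ _))))
  subst him
  have hst' : ∀ r ≤ t, stat Φ ε L ((insert i (insert e U) : Finset Src) : Set Src) i r =
      stat Φ ε L ((insert i U : Finset Src) : Set Src) i r := by
    intro r hr
    have h1 := hi {e, i} {i} (Finset.Subset.refl _) (Finset.singleton_subset_iff.2 hm')
      (by simp) r hr
    rw [w1, w3] at h1
    exact stat_of_sta h1
  have hl' : live Φ ε L ((insert i U : Finset Src) : Set Src) (leaf i) s :=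
    live_congr hΦ hε (Finset.finite_toSet _) (Finset.finite_toSet _)
      (fun _ => Finset.mem_coe.2 (Finset.mem_insert_self _ _))
      (fun r hr => hst' r (hr.le.trans hst)) hl (Or.inr rfl)
  have hiS : i ∉ S.leaves := by
    intro hiS
    rcases Finset.mem_insert.1 (Finset.mem_coe.1 (hS.sub hiS)) with h1 | h1
    · exact hem h1.symm
    · exact hmU h1
  rcases le_or_gt (ext Φ ε S) s with hx | hx
  · -- the tree is flying: `leaf i` is hit by `S`
    refine hG.ni.nohit i hm' e he' hem.symm s hst (leaf i) S ?_ ?_ ?_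
    · simp only [w0, w1]
      intro hiff
      exact hmU (Finset.mem_coe.1 ((hiff.2 hl').sub (mem_singleton i)))
    · simp only [w0, w2]
      intro hiff
      have ha : alive Φ ε L ((insert e U : Finset Src) : Set Src) S s :=
        (alive_iff_live hΦ hε (Finset.finite_toSet _)).2 ⟨hS, hx⟩
      exact heU (Finset.mem_coe.1 ((alive_pre (hiff.2 ha)).sub heS))
    · refine ⟨hms, hx, hiS, ?_⟩
      rw [← st_after hΦ hε hS.ok hx]
      exact hctc
  · -- the tree is colliding: `S` is hit by `leaf i`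
    have hsl := hS.sig_le
    cases S with
    | leaf a => exact absurd hsl (not_le.2 hx)
    | node a b =>
      refine hG.ni.nohit e he' i hm' hem s hst (node a b) (leaf i) ?_ ?_ ?_
      · simp only [w0, w2]
        intro hiff
        exact heU (Finset.mem_coe.1 ((hiff.2 hS).sub heS))
      · simp only [w0, w1]
        intro hiff
        have ha : alive Φ ε L ((insert i U : Finset Src) : Set Src) (leaf i) s :=
          (alive_iff_live hΦ hε (Finset.finite_toSet _)).2 ⟨hl', hms⟩
        exact hmU (Finset.mem_coe.1 ((alive_pre (hiff.2 ha)).sub (mem_singleton i)))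
      · refine Or.inr ⟨hsl, hms, ?_, Or.inl hctc.symm⟩
        rw [disjoint_left]
        intro z hz hz'
        rw [mem_singleton_iff.1 hz'] at hz
        exact hiS hz

end Vale.Agent.P119.FB

namespace Vale.Agent.P119.PB

open M CTree KU FB RB AU TL

variable {Φ : E3 → ℝ} {ε : ℝ} {L : ℕ} {hΦ : IsPotential Φ} {hε : 0 < ε}
  {U V W w K : Finset Src} {T x : CTree} {l e m : Src} {s t ρ σ τ h : ℝ}

open Classical in
/-- **ONE STEP, partner not felt**, with an irregular FIRST contact. -/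
theorem unfelt_stepF {E : Finset Src → CTree → Prop}
    (hE : ∀ V T, ¬E V T → NoExc Φ ε L t l V T)
    (hl : l ∉ w) (hbd : ∀ a ∈ insert l w, 0 ≤ a.1 ∧ a.2.2 ≤ L) (ht : h ≤ t) (hτ : τ ≤ h)
    (hT : (RB.Y Φ ε L hΦ hε).Touch w (insert l w) τ)
    (hfirst : ∀ s < τ, ¬(RB.Y Φ ε L hΦ hε).Touch w (insert l w) s) :
    FB.Direct Φ ε L hΦ hε w l τ ∨ IrrF Φ ε L w l τ ∨
      ∃ T, HitU L hΦ hε w l T τ ∧ StepU L hΦ hε h E w l T := by
  rcases touch_casesF hl hbd hT hfirst with h1 | h1 | ⟨T, hR, hS, hun, hC⟩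
  · exact Or.inl h1
  · exact Or.inr (Or.inl h1)
  right; right
  have hsig := sig_eq (Φ := Φ) (ε := ε) (T := T) (l := l)
  rw [hsig] at hS hun
  refine ⟨T, ⟨hR.sub, (alive_pre hR.alive).depth,
    (meets_swap (ε := ε) (ln Φ ε T, l.2.1)).2 hR.meets, ?_, hS, ?_, ?_,
    fun q hq he => hun (he.mono hq.le), fun r hr => ?_⟩,
    stepU_of hE ht hτ hT hfirst hR hS hun hC⟩
  · rw [← hsig]; exact hR.birth_lt
  · rw [← hsig]; exact hR.ext_lt
  · rw [← hsig]; exact hR.alive
  · rw [← hsig] at hr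
    exact hR.first r hr

open Classical in
/-- **The deterministic step**, with an irregular FIRST contact. -/
theorem stepHypF {I : Prop} {E : Finset Src → CTree → Prop}
    (hE : ∀ V T, ¬E V T → NoExc Φ ε L t l V T) (hI : IrrF Φ ε L w l t → I)
    (hl : l ∉ w) (hbd : ∀ a ∈ insert l w, 0 ≤ a.1 ∧ a.2.2 ≤ L) :
    StepHyp L hΦ hε t I E w l := by
  intro τ h _ hτ ht hT hfirst
  rcases unfelt_stepF hE hl hbd ht hτ hT hfirst with h1 | h1 | h1
  · exact Or.inl h1
  · exact Or.inr (Or.inl (hI (h1.mono (hτ.trans ht))))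
  · exact Or.inr (Or.inr h1)

open Classical in
/-- **The deterministic step for the line `m` in the world `insert e U`**: the exceptional proposition
is `¬Good ∨ IrrU`, which does not depend on the world `insert e U`. -/
theorem stepHyp_irrU {E : Finset Src → CTree → Prop}
    (hE : ∀ V T, ¬E V T → NoExc Φ ε L t m V T)
    (hbd : ∀ a ∈ insert m (insert e U), 0 ≤ a.1 ∧ a.2.2 ≤ L) :
    StepHyp L hΦ hε t
      (¬M.Good Φ ε L U (fun a : Src => ({a} : Finset Src)) {e, m} t ∨ IrrU Φ ε L U m t)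
      E (insert e U) m := by
  by_cases hm : m ∈ insert e U
  · intro τ h _ _ _ hT _
    rw [Finset.insert_eq_of_mem hm] at hT
    exact absurd hT not_touch_self
  · refine stepHypF hE (fun h => ?_) hm hbd
    by_cases hG : M.Good Φ ε L U (fun a : Src => ({a} : Finset Src)) {e, m} t
    · have h0 := hbd m (Finset.mem_insert_self _ _)
      refine Or.inr (irrU_of_irrF hΦ hε hG ?_ h h0.1 h0.2)
      rintro rfl
      exact hm (Finset.mem_insert_self _ _)
    · exact Or.inl hG

end Vale.Agent.P119.PB
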