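import Vale.Agent.P119.FB.Tie

/-!
# P119, feedback block: the guard of the second events (`helper178`)

`P` is the base, `Q = P + e`, `R = P + T`, `V = P + e + T`.  If `T` does not touch the world with `e`
before `σ` and `e` touches in the presence of `T` at `σ`, then `e` touches the base at `σ`
(`Square.guard_tie`).
-/

open Set

namespace Vale.Agent.P119.FB

namespace Sys

variable {α S : Type*} {Y : Sys α S} {P Q R V : Finset α} {σ t : ℝ}

/-- The four worlds, indexed by the subsets of `Bool`. -/
def wd4 (P Q R V : Finset α) (J : Finset Bool) : Finset α :=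
  if true ∈ J then (if false ∈ J then V else Q) else if false ∈ J then R else P

theorem wd4_empty : wd4 P Q R V ∅ = P := by simp [wd4]

theorem wd4_true : wd4 P Q R V {true} = Q := by simp [wd4]

theorem wd4_false : wd4 P Q R V {false} = R := by simp [wd4]

theorem wd4_univ : wd4 P Q R V {true, false} = V := by simp [wd4]

theorem wd4_cases (J : Finset Bool) {p : Finset α → Prop} (hP : p P) (hQ : p Q) (hR : p R)
    (hV : p V) : p (wd4 P Q R V J) := by
  unfold wd4
  split_ifs <;> assumption

/-- A square is a cube with two indices. -/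
theorem Square.cube (h : Square Y P Q R V t) : Cube Y (wd4 P Q R V) Finset.univ t := by
  refine ⟨fun i _ j _ hij a h1 h2 => ?_, fun I J _ _ a ha s hs => ?_⟩
  · rw [wd4_empty] at h1 h2
    cases i <;> cases j
    · exact hij rfl
    · rw [wd4_false] at h1
      rw [wd4_true] at h2
      exact h.disj a h2 h1
    · rw [wd4_true] at h1
      rw [wd4_false] at h2
      exact h.disj a h1 h2
    · exact hij rfl
  · have h1 := ha true (Finset.mem_univ _)
    have h2 := ha false (Finset.mem_univ _)
    rw [wd4_empty, wd4_true] at h1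
    rw [wd4_empty, wd4_false] at h2
    by_cases hX : a ∈ Y.D P Q t
    · have hY := h.disj a hX
      have e1 := not_mem_D.1 hY s hs
      have e2 := h.eqY a hY s hs
      have h1 := h1 hX
      unfold wd4
      by_cases a1 : true ∈ I <;> by_cases a2 : false ∈ I <;> by_cases a3 : true ∈ J <;>
        by_cases a4 : false ∈ J <;> simp_all
    · have e1 := not_mem_D.1 hX s hs
      have e2 := h.eqX a hX s hs
      by_cases hY : a ∈ Y.D P R t
      · have h2 := h2 hY
        unfold wd4
        by_cases a1 : true ∈ I <;> by_cases a2 : false ∈ I <;> by_cases a3 : true ∈ J <;>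
          by_cases a4 : false ∈ J <;> simp_all
      · have e3 := not_mem_D.1 hY s hs
        unfold wd4
        by_cases a1 : true ∈ I <;> by_cases a2 : false ∈ I <;> by_cases a3 : true ∈ J <;>
          by_cases a4 : false ∈ J <;> simp_all

/-- **The guard.** -/
theorem Square.guard_tie (h : Square Y P Q R V σ)
    (hL : ∀ A ∈ ({P, Q, R, V} : Set (Finset α)), ∀ B ∈ ({P, Q, R, V} : Set (Finset α)), Loc Y A B)
    (hP : ∀ A ∈ ({P, Q, R, V} : Set (Finset α)), ∀ B ∈ ({P, Q, R, V} : Set (Finset α)), Part Y A B)
    (h1 : ∀ s < σ, ¬Y.Touch Q V s) (h2 : Y.Touch R V σ) : Y.Touch P Q σ := by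
  by_contra hcon
  have hc := h.cube
  have mem : ∀ J : Finset Bool, wd4 P Q R V J ∈ ({P, Q, R, V} : Set (Finset α)) := fun J =>
    wd4_cases J (p := fun A => A ∈ ({P, Q, R, V} : Set (Finset α))) (by simp) (by simp) (by simp)
      (by simp)
  have tr : ∀ A ∈ ({P, Q, R, V} : Set (Finset α)), ∀ B ∈ ({P, Q, R, V} : Set (Finset α)),
      Y.Transfer A B := fun A hA B hB => (hL A hA B hB).transfer
  -- nothing touches before `σ`
  have hn : ∀ i ∈ (Finset.univ : Finset Bool), ∀ s < σ,
      ¬Y.Touch (wd4 P Q R V ∅) (wd4 P Q R V {i}) s := by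
    intro i _ s hs
    have h3 : ¬Y.Touch P Q s := fun h' => hcon (h'.mono hs.le)
    rw [wd4_empty]
    cases i
    · rw [wd4_false]
      have h4 : Square Y Q P V R s := (h.mono hs.le).flip
      exact (h4.corner (tr _ (by simp) _ (by simp)) (tr _ (by simp) _ (by simp))
        (tr _ (by simp) _ (by simp)) (tr _ (by simp) _ (by simp)) (fun h' => h3 h'.symm)
        (h1 s hs)).1
    · rw [wd4_true]
      exact h3
  have h5 := hc.touch_tie (fun I J _ _ => hL _ (mem I) _ (mem J))
    (fun I J _ _ => hP _ (mem I) _ (mem J)) hn (A := {false}) (B := {true, false})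
    (Finset.subset_univ _) (Finset.subset_univ _) (by rw [wd4_false, wd4_univ]; exact h2)
  obtain ⟨j, -, h6, h7⟩ := h5
  rw [wd4_empty] at h7
  cases j
  · simp at h6
  · rw [wd4_true] at h7
    exact hcon h7

end Sys

end Vale.Agent.P119.FB
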