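import Vale.Agent.P119.FB.Cube

/-!
# P119, feedback block: one step, contamination, second event, direct contacts (`helper939`)
-/

open Set

namespace Vale.Agent.P119.FB

namespace Sys

variable {α S ι : Type*} {Y : Sys α S}

namespace Square

variable {P Q R V : Finset α} {t : ℝ}

theorem D_PV (h : Square Y P Q R V t) : Y.D P V t = Y.D P Q t ∪ Y.D P R t := by
  ext a
  constructor
  · intro ha
    have h1 := D_trans (W₂ := Q) ha
    rwa [h.D_QV] at h1
  · rintro (ha | ha)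
    · by_contra hn
      have h1 := h.disj a ha
      refine (not_mem_D.2 fun s hs => ?_) ha
      rw [not_mem_D.1 hn s hs, h.eqY a h1 s hs]
    · by_contra hn
      have h1 : a ∉ Y.D P Q t := fun h2 => h.disj a h2 ha
      refine (not_mem_D.2 fun s hs => ?_) ha
      rw [not_mem_D.1 hn s hs, h.eqX a h1 s hs]

/-- If the joint insertion does not touch, no single insertion does. -/
theorem not_touch_of_diag (h : Square Y P Q R V t) (tPQ : Y.Transfer P Q)
    (tQV : Y.Transfer Q V) (tPV : Y.Transfer P V) (n : ¬Y.Touch P V t) : ¬Y.Touch P Q t := by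
  intro hT
  obtain ⟨σ, hσ, h1, h2⟩ := hT.first
  have hD : ∀ r ≤ t, ∀ b, Y.Exp P b r → b ∉ Y.D P Q t ∧ b ∉ Y.D P R t := by
    intro r hr b hb
    have h3 : b ∉ Y.D P V t := fun hD => n ⟨b, hD, Or.inl (hb.mono hr)⟩
    rw [h.D_PV, mem_union, not_or] at h3
    exact h3
  have nPV : ∀ r ≤ t, ¬Y.Touch P V r := fun r hr h' => n (h'.mono hr)
  have nQV : ∀ r < σ, ¬Y.Touch Q V r := fun r hr =>
    not_touch_trans tPQ.symm tPV (fun h' => h2 r hr h'.symm) (nPV r (by linarith))
  have key : ∀ a s, Y.Exp Q a s → s ≤ σ → Y.Exp P a s := by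
    intro a s he
    induction he with
    | @bad a r s hrs hb =>
      intro hs
      have hrt : r ≤ t := by linarith
      have h' := h.mono hrt
      by_cases hX : a ∈ Y.D P Q t
      · have hY : a ∉ Y.D P R t := h.disj a hX
        have hQV : a ∉ Y.D Q V r := by rw [h'.D_QV]; exact fun h => hY (D_mono hrt h)
        have h3 := ((tQV r (fun q hq => nQV q (by linarith)) a hQV).1).1 hb
        have h4 : a ∈ Y.D P V t := by rw [h.D_PV]; exact Or.inl hX
        exact absurd ⟨a, h4, Or.inr (.bad hrt h3)⟩ n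
      · have h3 := ((tPQ r (fun q hq => h2 q (by linarith)) a
          fun h => hX (D_mono hrt h)).1).2 hb
        exact .bad hrs h3
    | @con a b r s hrs _ hc IH =>
      intro hs
      have hrt : r ≤ t := by linarith
      have hb : Y.Exp P b r := IH (by linarith)
      obtain ⟨bX, bY⟩ := hD r hrt b hb
      have h' := h.mono hrt
      have bQV : b ∉ Y.D Q V r := by rw [h'.D_QV]; exact fun h => bY (D_mono hrt h)
      by_cases hX : a ∈ Y.D P Q t
      · have hY : a ∉ Y.D P R t := h.disj a hX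
        have hQV : a ∉ Y.D Q V r := by rw [h'.D_QV]; exact fun h => hY (D_mono hrt h)
        have h3 := ((tQV r (fun q hq => nQV q (by linarith)) a hQV).2 b bQV).1 hc
        have h4 : a ∈ Y.D P V t := by rw [h.D_PV]; exact Or.inl hX
        have h5 : Y.Exp V b r := (exp_iff tPV n hrt).1 hb
        exact absurd ⟨a, h4, Or.inr (.con hrt h5 h3)⟩ n
      · have h3 := ((tPQ r (fun q hq => h2 q (by linarith)) a
          fun h => hX (D_mono hrt h)).2 b fun h => bX (D_mono hrt h)).2 hc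
        exact .con hrs hb h3
  obtain ⟨a, ha, he⟩ := h1
  have h6 : Y.Exp P a σ := he.elim id fun h => key a σ h le_rfl
  exact (hD σ hσ a h6).1 (D_mono hσ ha)

/-- In a square: the joint insertion touches iff one of the single insertions does. -/
theorem touch_iff (h : Square Y P Q R V t) (tPQ : Y.Transfer P Q) (tPR : Y.Transfer P R)
    (tQV : Y.Transfer Q V) (tRV : Y.Transfer R V) (tPV : Y.Transfer P V) :
    Y.Touch P V t ↔ Y.Touch P Q t ∨ Y.Touch P R t := by
  constructor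
  · intro hT
    by_contra hcon
    rw [not_or] at hcon
    have h1 := h.corner tPQ tPR tQV tRV hcon.1 hcon.2
    exact not_touch_trans tPQ tQV hcon.1 h1.1 hT
  · rintro (hT | hT)
    · by_contra hcon
      exact h.not_touch_of_diag tPQ tQV tPV hcon hT
    · by_contra hcon
      exact h.transpose.not_touch_of_diag tPR tRV tPV hcon hT

/-- **R1**: an untouched insertion `X` (in the presence of `Y`) does not change whether `Y`
touches. -/
theorem touch_stable (h : Square Y P Q R V t) (tPQ : Y.Transfer P Q) (tPR : Y.Transfer P R)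
    (tQV : Y.Transfer Q V) (tRV : Y.Transfer R V) (n : ¬Y.Touch R V t) :
    Y.Touch P R t ↔ Y.Touch Q V t := by
  constructor
  · intro hT
    by_contra hcon
    -- corner at `V`
    have h1 : Square Y V R Q P t := h.transpose.flip.transpose.flip
    exact (h1.corner tRV.symm tQV.symm tPR.symm tPQ.symm (fun h => n h.symm)
      (fun h => hcon h.symm)).1 hT.symm
  · intro hT
    by_contra hcon
    -- corner at `R`
    have h1 : Square Y R V P Q t := h.transpose.flip.transpose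
    exact (h1.corner tRV tPR.symm tQV.symm tPQ n (fun h => hcon h.symm)).1 hT.symm

end Square

section cube

variable [DecidableEq ι]

namespace Cube

variable {W : Finset ι → Finset α} {K : Finset ι} {t : ℝ}

/-- **Equivalence**: a combination touches iff one of its members does. -/
theorem touch_iff (h : Cube Y W K t) (hT : ∀ I J, I ⊆ K → J ⊆ K → Y.Transfer (W I) (W J))
    {I : Finset ι} (hI : I ⊆ K) : Y.Touch (W ∅) (W I) t ↔ ∃ i ∈ I, Y.Touch (W ∅) (W {i}) t := by
  constructor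
  · intro hTo
    by_contra hcon
    push Not at hcon
    exact (h.subset hI).superpose (fun P Q hP hQ => hT P Q (hP.trans hI) (hQ.trans hI)) hcon I
      (Finset.Subset.refl I) hTo
  · induction I using Finset.induction_on with
    | empty => rintro ⟨i, hi, -⟩; exact absurd hi (Finset.notMem_empty i)
    | insert j I hj IH =>
      rintro ⟨i, hi, hTi⟩
      have hIK : I ⊆ K := (Finset.subset_insert j I).trans hI
      have hjK : j ∈ K := hI (Finset.mem_insert_self j I)
      -- square `∅`, `{j}`, `I`, `insert j I`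
      have hsq : Square Y (W ∅) (W {j}) (W I) (W (insert j I)) t := by
        have hDI : ∀ a, a ∈ Y.D (W ∅) (W I) t → ∃ k ∈ I, a ∈ Y.D (W ∅) (W {k}) t := by
          intro a ha
          by_contra hcon
          push Not at hcon
          exact (not_mem_D.2 (h.eq ∅ I (Finset.empty_subset _) hIK a fun k _ hka => by
            by_cases hkI : k ∈ I
            · exact absurd hka (hcon k hkI)
            · simp [hkI])) ha
        have hDI' : ∀ a, a ∉ Y.D (W ∅) (W I) t → ∀ k ∈ I, a ∉ Y.D (W ∅) (W {k}) t := by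
          intro a ha k hk hka
          have hkK := hIK hk
          refine (not_mem_D.2 fun s hs => ?_) hka
          rw [not_mem_D.1 ha s hs]
          refine h.eq I {k} hIK (by simpa using hkK) a (fun l hl hla => ?_) s hs
          have : l = k := by
            by_contra hne
            exact h.disj l hl k hkK hne a hla hka
          subst this
          simp [hk]
        refine ⟨fun a h1 h2 => ?_, fun a h1 => ?_, fun a h1 => ?_⟩
        · obtain ⟨k, hk, hka⟩ := hDI a h2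
          exact h.disj j hjK k (hIK hk) (by rintro rfl; exact hj hk) a h1 hka
        · refine h.eq _ _ hIK hI a fun k _ hka => ?_
          have : k ≠ j := by rintro rfl; exact h1 hka
          simp [this]
        · refine h.eq _ _ (by simpa using hjK) hI a fun k _ hka => ?_
          by_cases hkI : k ∈ I
          · exact absurd hka (hDI' a h1 k hkI)
          · simp [hkI]
      have t1 := hT ∅ {j} (Finset.empty_subset _) (by simpa using hjK)
      have t2 := hT ∅ I (Finset.empty_subset _) hIK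
      have t3 := hT {j} (insert j I) (by simpa using hjK) hI
      have t4 := hT I (insert j I) hIK hI
      have t5 := hT ∅ (insert j I) (Finset.empty_subset _) hI
      rw [hsq.touch_iff t1 t2 t3 t4 t5]
      rcases Finset.mem_insert.1 hi with rfl | hi
      · exact Or.inl hTi
      · exact Or.inr (IH hIK ⟨i, hi, hTi⟩)

/-- Two disjoint groups of indices form a square. -/
theorem square_union (h : Cube Y W K t) {I J : Finset ι} (hI : I ⊆ K) (hJ : J ⊆ K)
    (hIJ : Disjoint I J) : Square Y (W ∅) (W I) (W J) (W (I ∪ J)) t := by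
  have hDI : ∀ L ⊆ K, ∀ a, a ∈ Y.D (W ∅) (W L) t → ∃ k ∈ L, a ∈ Y.D (W ∅) (W {k}) t := by
    intro L hL a ha
    by_contra hcon
    push Not at hcon
    exact (not_mem_D.2 (h.eq ∅ L (Finset.empty_subset _) hL a fun k _ hka => by
      by_cases hkI : k ∈ L
      · exact absurd hka (hcon k hkI)
      · simp [hkI])) ha
  have hDI' : ∀ L ⊆ K, ∀ a, a ∉ Y.D (W ∅) (W L) t → ∀ k ∈ L, a ∉ Y.D (W ∅) (W {k}) t := by
    intro L hL a ha k hk hka
    have hkK := hL hk
    refine (not_mem_D.2 fun s hs => ?_) hka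
    rw [not_mem_D.1 ha s hs]
    refine h.eq L {k} hL (by simpa using hkK) a (fun l hl hla => ?_) s hs
    have : l = k := by
      by_contra hne
      exact h.disj l hl k hkK hne a hla hka
    subst this
    simp [hk]
  refine ⟨fun a h1 h2 => ?_, fun a h1 => ?_, fun a h1 => ?_⟩
  · obtain ⟨i, hi, hia⟩ := hDI I hI a h1
    obtain ⟨j, hj, hja⟩ := hDI J hJ a h2
    exact h.disj i (hI hi) j (hJ hj)
      (by rintro rfl; exact Finset.disjoint_left.1 hIJ hi hj) a hia hja
  · refine h.eq _ _ hJ (Finset.union_subset hI hJ) a fun k _ hka => ?_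
    have : k ∉ I := fun hk => hDI' I hI a h1 k hk hka
    simp [this]
  · refine h.eq _ _ hI (Finset.union_subset hI hJ) a fun k _ hka => ?_
    have : k ∉ J := fun hk => hDI' J hJ a h1 k hk hka
    simp [this]

/-- R1 in a cube: inserting the untouched group `J` (in the presence of `I`) does not change
whether `I` touches. -/
theorem touch_stable (h : Cube Y W K t) (hT : ∀ I J, I ⊆ K → J ⊆ K → Y.Transfer (W I) (W J))
    {I J : Finset ι} (hI : I ⊆ K) (hJ : J ⊆ K) (hIJ : Disjoint I J)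
    (n : ¬Y.Touch (W I) (W (I ∪ J)) t) : Y.Touch (W ∅) (W I) t ↔ Y.Touch (W J) (W (I ∪ J)) t := by
  have hsq := h.square_union hJ hI hIJ.symm
  rw [Finset.union_comm] at hsq
  have hU := Finset.union_subset hI hJ
  exact hsq.touch_stable (hT _ _ (Finset.empty_subset _) hJ) (hT _ _ (Finset.empty_subset _) hI)
    (hT _ _ hJ hU) (hT _ _ hI hU) n

theorem not_touch_pair (h : Cube Y W K t)
    (hT : ∀ I J, I ⊆ K → J ⊆ K → Y.Transfer (W I) (W J))
    {i j : ι} (hi : i ∈ K) (hj : j ∈ K) (hij : i ≠ j) {s : ℝ} (hs : s ≤ t)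
    (n₁ : ¬Y.Touch (W ∅) (W {i}) s) (n₂ : ¬Y.Touch (W ∅) (W {j}) s) :
    ¬Y.Touch (W {i}) (W {i, j}) s := by
  have h' := h.mono hs
  have hsq := h'.square (Finset.empty_subset K) hj hi hij.symm (Finset.notMem_empty _)
    (Finset.notMem_empty _)
  have e1 : (insert j (insert i ∅) : Finset ι) = {i, j} := by
    ext k; simp [or_comm]
  rw [e1] at hsq
  have k1 : ({i} : Finset ι) ⊆ K := by simpa using hi
  have k2 : ({j} : Finset ι) ⊆ K := by simpa using hj
  have k3 : ({i, j} : Finset ι) ⊆ K := by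
    intro k hk
    rcases Finset.mem_insert.1 hk with rfl | hk
    · exact hi
    · rw [Finset.mem_singleton.1 hk]; exact hj
  have := hsq.corner (by simpa using hT ∅ {j} (Finset.empty_subset _) k2)
    (by simpa using hT ∅ {i} (Finset.empty_subset _) k1)
    (by simpa using hT {j} {i, j} k2 k3) (by simpa using hT {i} {i, j} k1 k3)
    (by simpa using n₂) (by simpa using n₁)
  simpa using this.2

end Cube

/-- **One step.**  Two cubes `WA` on `E ∪ A` and `WB` on `E ∪ B` that coincide on `E` (in the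
application: `E` the exhausts of the partner tree, `A = {k^c}`, `B = {l', k'}`).  If the full worlds
touch each other, then either one of the fresh lines of `A`, `B` touches the base, or some exhaust
`e ∈ E` is the first toucher of the base, at time `σ`, and a second index touches the world of `e`,
not before `σ`. -/
theorem one_step {WA WB : Finset ι → Finset α} {E A B : Finset ι} {t : ℝ}
    (h0 : ∀ I ⊆ E, WA I = WB I) (hA : Cube Y WA (E ∪ A) t) (hB : Cube Y WB (E ∪ B) t)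
    (tA : ∀ I J, I ⊆ E ∪ A → J ⊆ E ∪ A → Y.Transfer (WA I) (WA J))
    (tB : ∀ I J, I ⊆ E ∪ B → J ⊆ E ∪ B → Y.Transfer (WB I) (WB J))
    (dA : Disjoint E A) (dB : Disjoint E B)
    (hT : Y.Touch (WA (E ∪ A)) (WB (E ∪ B)) t) :
    (∃ i ∈ A, Y.Touch (WA ∅) (WA {i}) t) ∨ (∃ j ∈ B, Y.Touch (WA ∅) (WB {j}) t) ∨
    ∃ e ∈ E, ∃ σ ≤ t, Y.Touch (WA ∅) (WA {e}) σ ∧ (∀ s < σ, ¬Y.Touch (WA ∅) (WA {e}) s) ∧
      ((∃ i ∈ A, Y.Touch (WA {e}) (WA {e, i}) t ∧ ∀ s < σ, ¬Y.Touch (WA {e}) (WA {e, i}) s) ∨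
       (∃ j ∈ B, Y.Touch (WA {e}) (WB {e, j}) t ∧ ∀ s < σ, ¬Y.Touch (WA {e}) (WB {e, j}) s) ∨
       ∃ e' ∈ E, e' ≠ e ∧ Y.Touch (WA {e}) (WA {e, e'}) t ∧
        ∀ s < σ, ¬Y.Touch (WA {e}) (WA {e, e'}) s) := by
  classical
  by_contra hcon
  push Not at hcon
  obtain ⟨cA, cB, cE⟩ := hcon
  have e0 : WA ∅ = WB ∅ := h0 ∅ (Finset.empty_subset _)
  have EA : E ⊆ E ∪ A := Finset.subset_union_left
  have EB : E ⊆ E ∪ B := Finset.subset_union_left
  have s1 : ∀ e ∈ E, WA {e} = WB {e} := fun e he => h0 {e} (by simpa using he)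
  -- some exhaust touches
  have hE : ∃ e ∈ E, Y.Touch (WA ∅) (WA {e}) t := by
    rcases exists_touch e0 hA hB tA tB (Finset.Subset.refl _) (Finset.Subset.refl _) hT with
      ⟨i, hi, h⟩ | ⟨j, hj, h⟩
    · rcases Finset.mem_union.1 hi with hi | hi
      · exact ⟨i, hi, h⟩
      · exact absurd h (cA i hi)
    · rcases Finset.mem_union.1 hj with hj | hj
      · exact ⟨j, hj, by rw [e0, s1 j hj]; exact h⟩
      · rw [← e0] at h
        exact absurd h (cB j hj)
  -- first time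
  have hcl : DClosed {s | ∃ e ∈ E, s ∈ {s | Y.Touch (WA ∅) (WA {e}) s}} :=
    DClosed.biUnion E fun e _ => touch_closed _ _
  obtain ⟨σ, hσ, ⟨e, he, hTe⟩, hfirst⟩ := hcl.first (m := 0)
    (fun s ⟨e, _, hs⟩ => Touch.nonneg hs) (t := t) hE
  have hTe : Y.Touch (WA ∅) (WA {e}) σ := hTe
  have hfirst' : ∀ s < σ, ∀ e' ∈ E, ¬Y.Touch (WA ∅) (WA {e'}) s := fun s hs e' he' h =>
    hfirst s hs ⟨e', he', h⟩
  have heA : e ∈ E ∪ A := EA he
  have heB : e ∈ E ∪ B := EB he
  obtain ⟨dE, dAB⟩ : (∀ i ∈ A, i ≠ e) ∧ ∀ j ∈ B, j ≠ e :=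
    ⟨fun i hi h => Finset.disjoint_left.1 dA he (h ▸ hi),
      fun j hj h => Finset.disjoint_left.1 dB he (h ▸ hj)⟩
  obtain ⟨c1, c2, c3⟩ := cE e he σ hσ hTe (fun s hs => hfirst' s hs e he)
  -- the second events are not before `σ`
  have n1 : ∀ i ∈ A, ¬Y.Touch (WA {e}) (WA {e, i}) t := by
    intro i hi hTi
    obtain ⟨s, hs, hTs⟩ := c1 i hi hTi
    exact hA.not_touch_pair tA heA (Finset.mem_union_right _ hi) (dE i hi).symm (by linarith)
      (hfirst' s hs e he) (fun h => cA i hi (h.mono (by linarith))) hTs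
  have n2 : ∀ j ∈ B, ¬Y.Touch (WB {e}) (WB {e, j}) t := by
    intro j hj hTj
    rw [← s1 e he] at hTj
    obtain ⟨s, hs, hTs⟩ := c2 j hj hTj
    rw [s1 e he] at hTs
    refine hB.not_touch_pair tB heB (Finset.mem_union_right _ hj) (dAB j hj).symm (by linarith)
      ?_ (fun h => cB j hj ?_) hTs
    · rw [← e0, ← s1 e he]; exact hfirst' s hs e he
    · rw [e0]; exact h.mono (by linarith)
  have n3 : ∀ e' ∈ E, e' ≠ e → ¬Y.Touch (WA {e}) (WA {e, e'}) t := by
    intro e' he' hne hTe'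
    obtain ⟨s, hs, hTs⟩ := c3 e' he' hne hTe'
    exact hA.not_touch_pair tA heA (EA he') hne.symm (by linarith)
      (hfirst' s hs e he) (hfirst' s hs e' he') hTs
  -- faces over `e`
  have fA := hA.face heA
  have fB := hB.face heB
  have i1 : ∀ I, I ⊆ (E ∪ A).erase e → insert e I ⊆ E ∪ A := fun I hI =>
    Finset.insert_subset heA (hI.trans (Finset.erase_subset _ _))
  have i2 : ∀ I, I ⊆ (E ∪ B).erase e → insert e I ⊆ E ∪ B := fun I hI =>
    Finset.insert_subset heB (hI.trans (Finset.erase_subset _ _))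
  have e4 : WA (insert e ∅) = WB (insert e ∅) := by
    simpa using s1 e he
  have hT' : Y.Touch (WA (insert e ((E ∪ A).erase e))) (WB (insert e ((E ∪ B).erase e))) t := by
    rw [Finset.insert_erase heA, Finset.insert_erase heB]
    exact hT
  rcases exists_touch (WA := fun I => WA (insert e I)) (WB := fun I => WB (insert e I)) e4 fA fB
    (fun I J hI hJ => tA _ _ (i1 I hI) (i1 J hJ)) (fun I J hI hJ => tB _ _ (i2 I hI) (i2 J hJ))
    (Finset.Subset.refl _) (Finset.Subset.refl _) hT' with ⟨i, hi, h⟩ | ⟨j, hj, h⟩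
  · rw [Finset.mem_erase, Finset.mem_union] at hi
    have h' : Y.Touch (WA {e}) (WA {e, i}) t := by simpa using h
    rcases hi.2 with h2 | h2
    · exact n3 i h2 hi.1 h'
    · exact n1 i h2 h'
  · rw [Finset.mem_erase, Finset.mem_union] at hj
    have h' : Y.Touch (WB {e}) (WB {e, j}) t := by simpa using h
    rcases hj.2 with h2 | h2
    · refine n3 j h2 hj.1 ?_
      have e5 : WA {e, j} = WB {e, j} := h0 _ (by
        intro k hk
        rcases Finset.mem_insert.1 hk with rfl | hk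
        · exact he
        · rw [Finset.mem_singleton.1 hk]; exact h2)
      rw [s1 e he, e5]
      exact h'
    · exact n2 j h2 h'

/-- **Second events, one step with an unfelt partner.**  If the partner tree (lines `E ∪ A`) is not
felt, i.e. its insertion does not touch the base, then only the new lines `B` can touch. -/
theorem step_unfelt {WA WB : Finset ι → Finset α} {E A B : Finset ι} {t : ℝ}
    (h0 : ∀ I ⊆ E, WA I = WB I) (hA : Cube Y WA (E ∪ A) t) (hB : Cube Y WB (E ∪ B) t)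
    (tA : ∀ I J, I ⊆ E ∪ A → J ⊆ E ∪ A → Y.Transfer (WA I) (WA J))
    (tB : ∀ I J, I ⊆ E ∪ B → J ⊆ E ∪ B → Y.Transfer (WB I) (WB J))
    (hn : ¬Y.Touch (WA ∅) (WA (E ∪ A)) t)
    (hT : Y.Touch (WA (E ∪ A)) (WB (E ∪ B)) t) : ∃ j ∈ B, Y.Touch (WA ∅) (WB {j}) t := by
  have e0 : WA ∅ = WB ∅ := h0 ∅ (Finset.empty_subset _)
  have h1 : ∀ i ∈ E ∪ A, ¬Y.Touch (WA ∅) (WA {i}) t := fun i hi h =>
    hn ((hA.touch_iff tA (Finset.Subset.refl _)).2 ⟨i, hi, h⟩)
  rcases exists_touch e0 hA hB tA tB (Finset.Subset.refl _) (Finset.Subset.refl _) hT with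
    ⟨i, hi, h⟩ | ⟨j, hj, h⟩
  · exact absurd h (h1 i hi)
  · rcases Finset.mem_union.1 hj with hj | hj
    · rw [← e0, ← h0 {j} (by simpa using hj)] at h
      exact absurd h (h1 j (Finset.mem_union_left _ hj))
    · exact ⟨j, hj, by rw [e0]; exact h⟩

/-- **Second events over the base with `e`, one step with an unfelt partner.**  Indices: `e`, the
lines `E ∪ A` of the partner tree, the new lines `B`.  If the partner tree is not felt in the world
with `e`, then (i) whether `e` touches is not changed by the extraction of the partner tree, (ii)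
only the new lines `B` can touch the world with `e`. -/
theorem step_second {WA WB : Finset ι → Finset α} {E A B : Finset ι} {e : ι} {t : ℝ}
    (h0 : ∀ I ⊆ insert e E, WA I = WB I) (hA : Cube Y WA (insert e (E ∪ A)) t)
    (hB : Cube Y WB (insert e (E ∪ B)) t)
    (tA : ∀ I J, I ⊆ insert e (E ∪ A) → J ⊆ insert e (E ∪ A) → Y.Transfer (WA I) (WA J))
    (tB : ∀ I J, I ⊆ insert e (E ∪ B) → J ⊆ insert e (E ∪ B) → Y.Transfer (WB I) (WB J))
    (heA : e ∉ E ∪ A) (heB : e ∉ E ∪ B)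
    (hn : ¬Y.Touch (WA {e}) (WA (insert e (E ∪ A))) t) :
    (Y.Touch (WA ∅) (WA {e}) t ↔ Y.Touch (WA (E ∪ A)) (WA (insert e (E ∪ A))) t) ∧
    (Y.Touch (WA (insert e (E ∪ A))) (WB (insert e (E ∪ B))) t →
      ∃ j ∈ B, Y.Touch (WA {e}) (WB {e, j}) t) := by
  classical
  have e1 : ∀ F : Finset ι, ({e} : Finset ι) ∪ F = insert e F := fun F => by
    rw [Finset.insert_eq]
  constructor
  · have h2 := hA.touch_stable tA (I := {e}) (J := E ∪ A) (by simp) (Finset.subset_insert _ _)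
      (by simpa using heA) (by rw [e1]; exact hn)
    rw [e1] at h2
    exact h2
  · intro hT
    have fA := hA.face (Finset.mem_insert_self e _)
    have fB := hB.face (Finset.mem_insert_self e _)
    rw [Finset.erase_insert heA] at fA
    rw [Finset.erase_insert heB] at fB
    have i1 : ∀ I, I ⊆ E ∪ A → insert e I ⊆ insert e (E ∪ A) := fun I hI =>
      Finset.insert_subset_insert e hI
    have i2 : ∀ I, I ⊆ E ∪ B → insert e I ⊆ insert e (E ∪ B) := fun I hI =>
      Finset.insert_subset_insert e hI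
    obtain ⟨j, hj, h⟩ := step_unfelt (WA := fun I => WA (insert e I))
      (WB := fun I => WB (insert e I)) (E := E) (A := A) (B := B)
      (fun I hI => h0 _ (Finset.insert_subset_insert e hI)) fA fB
      (fun I J hI hJ => tA _ _ (i1 I hI) (i1 J hJ)) (fun I J hI hJ => tB _ _ (i2 I hI) (i2 J hJ))
      (by simpa using hn) hT
    exact ⟨j, hj, by simpa using h⟩

/-- **Contamination.**  A cube on `insert r E` (`E` the exhausts of the tree, `r` the root line; `r`
may also be a pair of colliding root lines): if some label that only exists with `r` is exposed in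
the full world at time `τ`, then either `r` touches the base and no exhaust does, or the first
exhaust `e` that touches the base does it at `σ ≤ τ` and a second index touches the world of `e`,
not before `σ`. -/
theorem contam {W : Finset ι → Finset α} {E : Finset ι} {r : ι} {τ : ℝ}
    (h : Cube Y W (insert r E) τ)
    (hT : ∀ I J, I ⊆ insert r E → J ⊆ insert r E → Y.Transfer (W I) (W J)) (hr : r ∉ E)
    {a : α} (ha : ∀ I ⊆ E, a ∈ Y.D (W I) (W (insert r E)) τ)
    (he : Y.Exp (W (insert r E)) a τ) :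
    (Y.Touch (W ∅) (W {r}) τ ∧ ∀ e ∈ E, ¬Y.Touch (W ∅) (W {e}) τ) ∨
    ∃ e ∈ E, ∃ σ ≤ τ, Y.Touch (W ∅) (W {e}) σ ∧ (∀ s < σ, ¬Y.Touch (W ∅) (W {e}) s) ∧
      ∃ m ∈ insert r E, m ≠ e ∧ Y.Touch (W {e}) (W {e, m}) τ ∧
        (Y.Touch (W ∅) (W {r}) τ ∨ ∀ s < σ, ¬Y.Touch (W {e}) (W {e, m}) s) := by
  classical
  have EK : E ⊆ insert r E := Finset.subset_insert r E
  by_cases hE : ∃ e ∈ E, Y.Touch (W ∅) (W {e}) τ
  · right
    have hcl : DClosed {s | ∃ e ∈ E, s ∈ {s | Y.Touch (W ∅) (W {e}) s}} :=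
      DClosed.biUnion E fun e _ => touch_closed _ _
    obtain ⟨σ, hσ, ⟨e, heE, hTe⟩, hfirst⟩ := hcl.first (m := 0)
      (fun s ⟨e, _, hs⟩ => Touch.nonneg hs) (t := τ) hE
    have hTe : Y.Touch (W ∅) (W {e}) σ := hTe
    have hfirst' : ∀ s < σ, ∀ e' ∈ E, ¬Y.Touch (W ∅) (W {e'}) s := fun s hs e' he' h =>
      hfirst s hs ⟨e', he', h⟩
    refine ⟨e, heE, σ, hσ, hTe, fun s hs => hfirst' s hs e heE, ?_⟩
    have heK : e ∈ insert r E := EK heE
    have hf := h.face heK
    have i1 : ∀ I, I ⊆ (insert r E).erase e → insert e I ⊆ insert r E := fun I hI =>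
      Finset.insert_subset heK (hI.trans (Finset.erase_subset _ _))
    have hTo : Y.Touch (W (insert e ∅)) (W (insert e ((insert r E).erase e))) τ := by
      rw [Finset.insert_erase heK]
      refine ⟨a, ha _ (by simpa using heE), Or.inr he⟩
    obtain ⟨m, hm, hTm⟩ := (hf.touch_iff (fun I J hI hJ => hT _ _ (i1 I hI) (i1 J hJ))
      (Finset.Subset.refl _)).1 hTo
    rw [Finset.mem_erase] at hm
    have hTm' : Y.Touch (W {e}) (W {e, m}) τ := by simpa using hTm
    refine ⟨m, hm.2, hm.1, hTm', ?_⟩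
    by_cases hTr : Y.Touch (W ∅) (W {r}) τ
    · exact Or.inl hTr
    · right
      intro s hs
      refine h.not_touch_pair hT heK hm.2 hm.1.symm (by linarith) (hfirst' s hs e heE) ?_
      rcases Finset.mem_insert.1 hm.2 with rfl | h3
      · exact fun h' => hTr (h'.mono (by linarith))
      · exact hfirst' s hs m h3
  · left
    push Not at hE
    refine ⟨?_, hE⟩
    have hTo : Y.Touch (W ∅) (W (insert r E)) τ := ⟨a, ha _ (Finset.empty_subset _), Or.inr he⟩
    obtain ⟨m, hm, hTm⟩ := (h.touch_iff hT (Finset.Subset.refl _)).1 hTo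
    rcases Finset.mem_insert.1 hm with rfl | h3
    · exact hTm
    · exact absurd hTm (hE m h3)

end cube

/-- Touches survive the replacement of trees by their lines: `W₁`, `W₂` worlds, `V₁`, `V₂` the line
worlds, `f` sends a source of the line worlds to its label. -/
theorem touch_of_repl {W₁ W₂ V₁ V₂ : Finset α} {t : ℝ} (f₁ f₂ : α → α)
    (s₁ : ∀ a, Y.Exp W₁ a t → ∃ a' ∈ V₁, f₁ a' = a ∧ Y.Exp V₁ a' t)
    (s₂ : ∀ a, Y.Exp W₂ a t → ∃ a' ∈ V₂, f₂ a' = a ∧ Y.Exp V₂ a' t)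
    (abs₁ : ∀ a ∈ V₁, a ∉ V₂ → a ∈ Y.D V₁ V₂ t) (abs₂ : ∀ a ∈ V₂, a ∉ V₁ → a ∈ Y.D V₁ V₂ t)
    (hD : ∀ a, a ∈ V₁ → a ∈ V₂ → a ∉ Y.D V₁ V₂ t → f₁ a = f₂ a ∧ f₁ a ∉ Y.D W₁ W₂ t)
    (hT : Y.Touch W₁ W₂ t) : Y.Touch V₁ V₂ t := by
  obtain ⟨a, ha, h | h⟩ := hT
  · obtain ⟨a', h1, h2, h3⟩ := s₁ a h
    refine ⟨a', ?_, Or.inl h3⟩
    by_contra hn
    by_cases h4 : a' ∈ V₂
    · exact (hD a' h1 h4 hn).2 (h2 ▸ ha)
    · exact hn (abs₁ a' h1 h4)
  · obtain ⟨a', h1, h2, h3⟩ := s₂ a h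
    refine ⟨a', ?_, Or.inr h3⟩
    by_contra hn
    by_cases h4 : a' ∈ V₁
    · obtain ⟨h5, h6⟩ := hD a' h4 h1 hn
      rw [h5, h2] at h6
      exact h6 ha
    · exact hn (abs₂ a' h1 h4)

section direct

/-- Different before `t`. -/
def Dlt (Y : Sys α S) (W₁ W₂ : Finset α) (t : ℝ) : Set α := {a | ∃ s < t, a ∈ Y.D W₁ W₂ s}

/-- Local systems: contacts at time `t` are determined by the histories before `t`; a difference
comes from a contact (with the label itself, or with a label `b` in contact with it, e.g. its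
collision partner) with a label that was already different. -/
structure Loc (Y : Sys α S) (W₁ W₂ : Finset α) : Prop where
  con : ∀ t, (∀ s < t, ¬Y.Touch W₁ W₂ s) → ∀ a ∉ Y.Dlt W₁ W₂ t, ∀ b ∉ Y.Dlt W₁ W₂ t,
    (Y.con W₁ t a b ↔ Y.con W₂ t a b)
  bad : ∀ t, ∀ a ∉ Y.D W₁ W₂ t, (Y.bad W₁ a t ↔ Y.bad W₂ a t)
  new : ∀ t, ∀ a ∈ W₁, a ∈ W₂ → a ∈ Y.D W₁ W₂ t → a ∉ Y.Dlt W₁ W₂ t →
    ∃ b ∉ Y.Dlt W₁ W₂ t, ∃ z ∈ Y.Dlt W₁ W₂ t,
      ((b = a ∨ Y.con W₁ t a b) ∧ Y.con W₁ t b z) ∨ ((b = a ∨ Y.con W₂ t a b) ∧ Y.con W₂ t b z)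

theorem Dlt_subset_D {W₁ W₂ : Finset α} {t : ℝ} : Y.Dlt W₁ W₂ t ⊆ Y.D W₁ W₂ t := by
  rintro a ⟨s, hs, h⟩
  exact D_mono hs.le h

theorem Loc.transfer {W₁ W₂ : Finset α} (h : Loc Y W₁ W₂) : Y.Transfer W₁ W₂ := fun t ht a ha =>
  ⟨h.bad t a ha, fun b hb => h.con t ht a (fun h => ha (Dlt_subset_D h)) b
    (fun h => hb (Dlt_subset_D h))⟩

/-- **Direct contact**, general form.  `X` contains the labels that are different before the first
touch `σ`, and its members are not exposed in the base world `U` up to `σ`.  Then a member of `X` is,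
at a time `r ≤ σ`, in contact with a label exposed in the base world `U` at that time, or somebody
is newly bad. -/
theorem direct' (hsymm : ∀ {W s a b}, Y.con W s a b → Y.con W s b a) {U V : Finset α}
    {X : Set α} (hUV : ∀ a ∈ U, a ∉ X → a ∈ V) {σ : ℝ} (hX : ∀ a ∈ X, ¬Y.Exp U a σ)
    (hL : Loc Y U V) (hD : Y.Dlt U V σ ⊆ X) (hσ : Y.Touch U V σ)
    (hfirst : ∀ s < σ, ¬Y.Touch U V s) :
    (∃ x ∈ X, ∃ b, ∃ r ≤ σ, Y.Exp U b r ∧ Y.con V r x b) ∨
      ∃ a, ∃ r ≤ σ, Y.bad V a r ∧ ¬Y.bad U a r := by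
  have hX' : ∀ a ∈ X, ∀ r ≤ σ, ¬Y.Exp U a r := fun a ha r hr h => hX a ha (h.mono hr)
  have key : ∀ a s, Y.Exp V a s → s ≤ σ → Y.Exp U a s ∨
      ((∃ x ∈ X, ∃ b, ∃ r ≤ σ, Y.Exp U b r ∧ Y.con V r x b) ∨
      ∃ a, ∃ r ≤ σ, Y.bad V a r ∧ ¬Y.bad U a r) := by
    intro a s he
    induction he with
    | @bad a r s hrs hb =>
      intro hs
      by_cases h : Y.bad U a r
      · exact Or.inl (.bad hrs h)
      · exact Or.inr (Or.inr ⟨a, r, by linarith, hb, h⟩)
    | @con a b r s hrs _ hc IH =>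
      intro hs
      rcases IH (by linarith) with hb | h
      · by_cases haX : a ∈ X
        · exact Or.inr (Or.inl ⟨a, haX, b, r, by linarith, hb, hc⟩)
        · have hsub : Y.Dlt U V r ⊆ X := fun z ⟨q, hq, hz⟩ => hD ⟨q, by linarith, hz⟩
          have h1 : a ∉ Y.Dlt U V r := fun h => haX (hsub h)
          have h2 : b ∉ Y.Dlt U V r := fun h => hX' b (hsub h) r (by linarith) hb
          exact Or.inl (.con hrs hb ((hL.con r (fun q hq => hfirst q (by linarith)) a h1 b h2).2 hc))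
      · exact Or.inr h
  obtain ⟨a, ha, he⟩ := hσ
  have h1 : Y.Exp U a σ ∨ ((∃ x ∈ X, ∃ b, ∃ r ≤ σ, Y.Exp U b r ∧ Y.con V r x b) ∨
      ∃ a, ∃ r ≤ σ, Y.bad V a r ∧ ¬Y.bad U a r) := by
    rcases he with he | he
    · exact Or.inl he
    · exact key a σ he le_rfl
  rcases h1 with h1 | h1
  · have haU : a ∈ U := h1.mem
    have haX : a ∉ X := fun h => hX a h h1
    have haD : a ∉ Y.Dlt U V σ := fun h => haX (hD h)
    obtain ⟨b, hbD, z, hz, h2⟩ := hL.new σ a haU (hUV a haU haX) ha haD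
    have hzX := hD hz
    rcases h2 with ⟨h3, h2⟩ | ⟨h3, h2⟩
    · have hb : Y.Exp U b σ := by
        rcases h3 with rfl | h3
        · exact h1
        · exact .con le_rfl h1 (hsymm h3)
      exact absurd (.con le_rfl hb (hsymm h2)) (hX z hzX)
    · have hb : Y.Exp U b σ := by
        rcases h3 with rfl | h3
        · exact h1
        · exact .con le_rfl h1 (hsymm ((hL.con σ hfirst a haD b hbD).2 h3))
      exact Or.inl ⟨z, hzX, b, σ, le_rfl, hb, hsymm h2⟩
  · exact h1

/-- **Direct contact.**  `X` inserted in `U`, nothing else is different before the first touch `σ`.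
Then a member of `X` is, at a time `r ≤ σ`, in contact with a label exposed in the base world `U`
at that time, or somebody is newly bad. -/
theorem direct (hsymm : ∀ {W s a b}, Y.con W s a b → Y.con W s b a) {U V : Finset α}
    {X : Set α} (hUV : U ⊆ V) (hX : ∀ a ∈ X, a ∉ U)
    (hL : Loc Y U V) {σ : ℝ} (hD : Y.Dlt U V σ ⊆ X) (hσ : Y.Touch U V σ)
    (hfirst : ∀ s < σ, ¬Y.Touch U V s) :
    (∃ x ∈ X, ∃ b, ∃ r ≤ σ, Y.Exp U b r ∧ Y.con V r x b) ∨
      ∃ a, ∃ r ≤ σ, Y.bad V a r ∧ ¬Y.bad U a r :=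
  direct' hsymm (fun _ ha _ => hUV ha) (fun a ha h => hX a ha h.mem) hL hD hσ hfirst

/-- New differences before `σ₂` are excluded if, from `σ₁` on, `X` has no `mc`-contact with the rest
in both worlds (`mc` is the M-level contact). -/
theorem dlt_subset {U V : Finset α} {mc : Finset α → ℝ → α → α → Prop} {X : Set α} {σ₁ σ₂ : ℝ}
    (hnew : ∀ t, ∀ a ∈ U, a ∈ V → a ∈ Y.D U V t → a ∉ Y.Dlt U V t →
      ∃ b ∉ Y.Dlt U V t, ∃ z ∈ Y.Dlt U V t,
        ((b = a ∨ mc U t a b) ∧ mc U t b z) ∨ ((b = a ∨ mc V t a b) ∧ mc V t b z))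
    (hUV : ∀ a, (a ∈ U ∧ a ∉ V) ∨ (a ∈ V ∧ a ∉ U) → a ∈ X)
    (hst : ∀ a, a ∉ U → a ∉ V → ∀ s, Y.st U a s = Y.st V a s)
    (h₁ : Y.Dlt U V σ₁ ⊆ X)
    (hX : ∀ r, σ₁ ≤ r → r < σ₂ → ∀ x ∈ X, ∀ b, b ∉ X → ¬mc U r b x ∧ ¬mc V r b x)
    (hX' : ∀ r, σ₁ ≤ r → r < σ₂ → ∀ x ∈ X, ∀ b ∈ X, ∀ a ∉ X, b ∉ Y.Dlt U V r →
      ¬(mc U r a b ∧ mc U r b x) ∧ ¬(mc V r a b ∧ mc V r b x)) :
    Y.Dlt U V σ₂ ⊆ X := by
  classical
  rintro a ⟨s, hs, ha⟩
  by_contra haX
  -- the first time of a difference outside `X`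
  have hcl : DClosed {r | ∃ c ∈ (U ∪ V).filter (fun c => c ∉ X), r ∈ {r | c ∈ Y.D U V r}} :=
    DClosed.biUnion _ fun c _ => D_closed U V c
  have hmem : ∀ c r, c ∈ Y.D U V r → c ∉ X → c ∈ U ∧ c ∈ V := by
    intro c r hc hcX
    by_contra hcon
    by_cases hU : c ∈ U
    · by_cases hV : c ∈ V
      · exact hcon ⟨hU, hV⟩
      · exact hcX (hUV c (Or.inl ⟨hU, hV⟩))
    · by_cases hV : c ∈ V
      · exact hcX (hUV c (Or.inr ⟨hV, hU⟩))
      · obtain ⟨q, _, hq⟩ := hc
        exact hq (hst c hU hV q)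
  have hs0 : s ∈ {r | ∃ c ∈ (U ∪ V).filter (fun c => c ∉ X), r ∈ {r | c ∈ Y.D U V r}} :=
    ⟨a, Finset.mem_filter.2 ⟨Finset.mem_union_left _ (hmem a s ha haX).1, haX⟩, ha⟩
  -- bounded below by `σ₁`
  have hlow : ∀ r ∈ {r | ∃ c ∈ (U ∪ V).filter (fun c => c ∉ X), r ∈ {r | c ∈ Y.D U V r}},
      σ₁ ≤ r := by
    rintro r ⟨c, hc, hcr⟩
    by_contra hcon
    exact (Finset.mem_filter.1 hc).2 (h₁ ⟨r, not_le.1 hcon, hcr⟩)
  obtain ⟨σ, hσs, ⟨c, hc, hcσ⟩, hfirst⟩ := hcl.first hlow hs0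
  have hσ1 : σ₁ ≤ σ := hlow σ ⟨c, hc, hcσ⟩
  have hcσ : c ∈ Y.D U V σ := hcσ
  have hcX : c ∉ X := (Finset.mem_filter.1 hc).2
  have hDX : Y.Dlt U V σ ⊆ X := by
    rintro z ⟨q, hq, hz⟩
    by_contra hzX
    exact hfirst q hq ⟨z, Finset.mem_filter.2 ⟨Finset.mem_union_left _ (hmem z q hz hzX).1, hzX⟩, hz⟩
  obtain ⟨hcU, hcV⟩ := hmem c σ hcσ hcX
  obtain ⟨b, hb, z, hz, h⟩ := hnew σ c hcU hcV hcσ fun h => hcX (hDX h)
  have hzX := hDX hz
  have hσ2 : σ < σ₂ := by linarith
  rcases h with ⟨h3, h4⟩ | ⟨h3, h4⟩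
  · by_cases hbX : b ∈ X
    · rcases h3 with rfl | h3
      · exact hcX hbX
      · exact (hX' σ hσ1 hσ2 z hzX b hbX c hcX hb).1 ⟨h3, h4⟩
    · exact (hX σ hσ1 hσ2 z hzX b hbX).1 h4
  · by_cases hbX : b ∈ X
    · rcases h3 with rfl | h3
      · exact hcX hbX
      · exact (hX' σ hσ1 hσ2 z hzX b hbX c hcX hb).2 ⟨h3, h4⟩
    · exact (hX σ hσ1 hσ2 z hzX b hbX).2 h4

end direct

end Sys

end Vale.Agent.P119.FB
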