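import Mathlib

/-!
# P119, feedback block, deterministic abstract layer (`helper939`)

Worlds are finite sets of labels (sources).  Every label of a world has a status at every time;
labels may be in contact; some labels are bad.  The exposed labels are the closure of the bad ones
under contact (`Exp`).  `D W₁ W₂ t` is the set of labels whose status was different in the two
worlds at some time `≤ t`; `Touch W₁ W₂ t` says that such a label is exposed in one of the worlds.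
`Transfer W₁ W₂` is the only input about the dynamics.
-/

open Set

namespace Vale.Agent.P119.FB

/-- Closed under decreasing limits. -/
def DClosed (A : Set ℝ) : Prop := ∀ x, (∀ δ > 0, ∃ s ∈ A, x ≤ s ∧ s < x + δ) → x ∈ A

namespace DClosed

theorem empty : DClosed ∅ := fun x h => by
  obtain ⟨s, hs, -⟩ := h 1 one_pos
  exact hs

theorem inter {A B : Set ℝ} (hA : DClosed A) (hB : DClosed B) : DClosed (A ∩ B) := fun x h =>
  ⟨hA x fun δ hδ => by obtain ⟨s, hs, h⟩ := h δ hδ; exact ⟨s, hs.1, h⟩,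
    hB x fun δ hδ => by obtain ⟨s, hs, h⟩ := h δ hδ; exact ⟨s, hs.2, h⟩⟩

theorem union {A B : Set ℝ} (hA : DClosed A) (hB : DClosed B) : DClosed (A ∪ B) := by
  intro x h
  by_contra hcon
  have h1 : x ∉ A := fun h => hcon (Or.inl h)
  have h2 : x ∉ B := fun h => hcon (Or.inr h)
  have h3 : ∃ δ > 0, ∀ s ∈ A, x ≤ s → x + δ ≤ s := by
    by_contra hc
    push Not at hc
    exact h1 (hA x fun δ hδ => by obtain ⟨s, hs, h1, h2⟩ := hc δ hδ; exact ⟨s, hs, h1, h2⟩)
  have h4 : ∃ δ > 0, ∀ s ∈ B, x ≤ s → x + δ ≤ s := by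
    by_contra hc
    push Not at hc
    exact h2 (hB x fun δ hδ => by obtain ⟨s, hs, h1, h2⟩ := hc δ hδ; exact ⟨s, hs, h1, h2⟩)
  obtain ⟨δ₁, hδ₁, h5⟩ := h3
  obtain ⟨δ₂, hδ₂, h6⟩ := h4
  obtain ⟨s, hs, h7, h8⟩ := h (min δ₁ δ₂) (lt_min hδ₁ hδ₂)
  rcases hs with hs | hs
  · have := h5 s hs h7
    have := min_le_left δ₁ δ₂
    linarith
  · have := h6 s hs h7
    have := min_le_right δ₁ δ₂
    linarith

theorem biUnion {β : Type*} (F : Finset β) {A : β → Set ℝ} (hA : ∀ b ∈ F, DClosed (A b)) :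
    DClosed {t | ∃ b ∈ F, t ∈ A b} := by
  classical
  induction F using Finset.induction_on with
  | empty =>
    have : {t : ℝ | ∃ b ∈ (∅ : Finset β), t ∈ A b} = ∅ := by
      ext t; simp
    rw [this]
    exact empty
  | insert b F hb IH =>
    have : {t : ℝ | ∃ c ∈ insert b F, t ∈ A c} = A b ∪ {t | ∃ c ∈ F, t ∈ A c} := by
      ext t
      simp [Finset.mem_insert]
    rw [this]
    exact (hA b (Finset.mem_insert_self b F)).union
      (IH fun c hc => hA c (Finset.mem_insert_of_mem hc))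

/-- The up-closure. -/
theorem up {A : Set ℝ} (hA : DClosed A) : DClosed {t | ∃ s ≤ t, s ∈ A} := by
  intro x h
  by_contra hcon
  have h0 : ∀ s ∈ A, x < s := fun s hs => by
    by_contra h
    exact hcon ⟨s, not_lt.1 h, hs⟩
  refine hcon ⟨x, le_rfl, hA x fun δ hδ => ?_⟩
  obtain ⟨t, ⟨s, hst, hs⟩, h1, h2⟩ := h δ hδ
  exact ⟨s, hs, (h0 s hs).le, by linarith⟩

/-- A nonempty set bounded below has a least element. -/
theorem first {A : Set ℝ} (hA : DClosed A) {m : ℝ} (hm : ∀ s ∈ A, m ≤ s) {t : ℝ} (ht : t ∈ A) :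
    ∃ σ ≤ t, σ ∈ A ∧ ∀ s < σ, s ∉ A := by
  have hb : BddBelow A := ⟨m, hm⟩
  refine ⟨sInf A, csInf_le hb ht, hA _ fun δ hδ => ?_, fun s hs h => ?_⟩
  · obtain ⟨s, hs, h⟩ := exists_lt_of_csInf_lt ⟨t, ht⟩ (show sInf A < sInf A + δ by linarith)
    exact ⟨s, hs, csInf_le hb hs, h⟩
  · exact absurd (csInf_le hb h) (not_le.2 hs)

theorem of_isClosed {A : Set ℝ} (hA : IsClosed A) : DClosed A := by
  intro x h
  by_contra hcon
  have h1 : Aᶜ ∈ nhds x := hA.isOpen_compl.mem_nhds hcon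
  obtain ⟨δ, hδ, h2⟩ := Metric.mem_nhds_iff.1 h1
  obtain ⟨s, hs, h3, h4⟩ := h δ hδ
  refine h2 ?_ hs
  rw [Metric.mem_ball, Real.dist_eq, abs_of_nonneg (by linarith)]
  linarith

end DClosed

/-- Abstract systems of worlds. -/
structure Sys (α S : Type*) where
  /-- status of a label in a world at a time -/
  st : Finset α → α → ℝ → S
  /-- contact of two labels -/
  con : Finset α → ℝ → α → α → Prop
  /-- bad labels -/
  bad : Finset α → α → ℝ → Prop
  con_mem : ∀ {W s a b}, con W s a b → a ∈ W ∧ b ∈ W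
  bad_mem : ∀ {W a s}, bad W a s → a ∈ W
  con_nonneg : ∀ {W s a b}, con W s a b → 0 ≤ s
  bad_nonneg : ∀ {W a s}, bad W a s → 0 ≤ s
  con_closed : ∀ W a b, DClosed {s | con W s a b}
  bad_closed : ∀ W a, DClosed {s | bad W a s}
  st_closed : ∀ W₁ W₂ a, DClosed {s | st W₁ a s ≠ st W₂ a s}

variable {α S : Type*}

namespace Sys

variable (Y : Sys α S)

/-- The exposed labels. -/
inductive Exp (W : Finset α) : α → ℝ → Prop
  | bad {a : α} {s t : ℝ} : s ≤ t → Y.bad W a s → Exp W a t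
  | con {a b : α} {s t : ℝ} : s ≤ t → Exp W b s → Y.con W s a b → Exp W a t

/-- The labels with different histories up to `t`. -/
def D (W₁ W₂ : Finset α) (t : ℝ) : Set α := {a | ∃ s ≤ t, Y.st W₁ a s ≠ Y.st W₂ a s}

/-- A label with different histories is exposed. -/
def Touch (W₁ W₂ : Finset α) (t : ℝ) : Prop :=
  ∃ a ∈ Y.D W₁ W₂ t, Y.Exp W₁ a t ∨ Y.Exp W₂ a t

/-- The only input about the dynamics: as long as no exposed label has different histories, the
labels with the same histories have the same contacts in both worlds. -/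
def Transfer (W₁ W₂ : Finset α) : Prop :=
  ∀ t, (∀ s < t, ¬Y.Touch W₁ W₂ s) → ∀ a ∉ Y.D W₁ W₂ t, (Y.bad W₁ a t ↔ Y.bad W₂ a t) ∧
    ∀ b ∉ Y.D W₁ W₂ t, (Y.con W₁ t a b ↔ Y.con W₂ t a b)

variable {Y}

section basic

variable {W W₁ W₂ W₃ : Finset α} {a b : α} {s t : ℝ}

theorem Exp.mono (h : Y.Exp W a s) (hst : s ≤ t) : Y.Exp W a t := by
  cases h with
  | bad h1 h2 => exact .bad (h1.trans hst) h2
  | con h1 h2 h3 => exact .con (h1.trans hst) h2 h3

theorem Exp.mem (h : Y.Exp W a t) : a ∈ W := by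
  cases h with
  | bad h1 h2 => exact Y.bad_mem h2
  | con h1 h2 h3 => exact (Y.con_mem h3).1

theorem Exp.nonneg (h : Y.Exp W a t) : 0 ≤ t := by
  cases h with
  | bad h1 h2 => exact (Y.bad_nonneg h2).trans h1
  | con h1 h2 h3 => exact (Y.con_nonneg h3).trans h1

theorem D_mono (hst : s ≤ t) : Y.D W₁ W₂ s ⊆ Y.D W₁ W₂ t := by
  rintro a ⟨r, hr, h⟩
  exact ⟨r, hr.trans hst, h⟩

theorem D_comm : Y.D W₁ W₂ t = Y.D W₂ W₁ t := by
  ext a
  constructor
  · rintro ⟨r, hr, h⟩; exact ⟨r, hr, h.symm⟩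
  · rintro ⟨r, hr, h⟩; exact ⟨r, hr, h.symm⟩

theorem D_self : Y.D W W t = ∅ := by
  ext a
  simp [D]

theorem not_mem_D : a ∉ Y.D W₁ W₂ t ↔ ∀ s ≤ t, Y.st W₁ a s = Y.st W₂ a s := by
  simp only [D, mem_ofPred_eq, not_exists, not_and, not_not]

theorem D_trans : Y.D W₁ W₃ t ⊆ Y.D W₁ W₂ t ∪ Y.D W₂ W₃ t := by
  intro a ha
  by_contra hcon
  rw [mem_union, not_or, not_mem_D, not_mem_D] at hcon
  exact (not_mem_D.2 fun s hs => (hcon.1 s hs).trans (hcon.2 s hs)) ha

theorem Touch.mono (h : Y.Touch W₁ W₂ s) (hst : s ≤ t) : Y.Touch W₁ W₂ t := by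
  obtain ⟨a, ha, h⟩ := h
  exact ⟨a, D_mono hst ha, h.imp (·.mono hst) (·.mono hst)⟩

theorem Touch.symm (h : Y.Touch W₁ W₂ t) : Y.Touch W₂ W₁ t := by
  obtain ⟨a, ha, h⟩ := h
  exact ⟨a, D_comm (Y := Y) ▸ ha, h.symm⟩

theorem touch_comm : Y.Touch W₁ W₂ t ↔ Y.Touch W₂ W₁ t := ⟨Touch.symm, Touch.symm⟩

theorem Touch.nonneg (h : Y.Touch W₁ W₂ t) : 0 ≤ t := by
  obtain ⟨a, ha, h | h⟩ := h
  · exact h.nonneg
  · exact h.nonneg

theorem Transfer.symm (h : Y.Transfer W₁ W₂) : Y.Transfer W₂ W₁ := by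
  intro t ht a ha
  have h1 := h t (fun s hs h' => ht s hs h'.symm) a (by rwa [D_comm])
  exact ⟨h1.1.symm, fun b hb => (h1.2 b (by rwa [D_comm])).symm⟩

/-- No exposed label has different histories. -/
theorem not_touch : ¬Y.Touch W₁ W₂ t ↔
    ∀ a, (Y.Exp W₁ a t ∨ Y.Exp W₂ a t) → a ∉ Y.D W₁ W₂ t := by
  constructor
  · intro h a ha hD
    exact h ⟨a, hD, ha⟩
  · rintro h ⟨a, hD, ha⟩
    exact h a ha hD

theorem exp_of_exp (hT : Y.Transfer W₁ W₂) (hn : ¬Y.Touch W₁ W₂ t) (h : Y.Exp W₁ a s)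
    (hs : s ≤ t) : Y.Exp W₂ a s := by
  induction h with
  | @bad a r s hrs hb =>
    have h1 : a ∉ Y.D W₁ W₂ t := fun hD => hn ⟨a, hD, Or.inl (.bad (hrs.trans hs) hb)⟩
    have h2 := (hT r (fun q hq h' => hn (h'.mono (by linarith))) a
      fun h => h1 (D_mono (by linarith) h)).1.1 hb
    exact .bad hrs h2
  | @con a b r s hrs hb hc IH =>
    have h1 : a ∉ Y.D W₁ W₂ t := fun hD => hn ⟨a, hD, Or.inl (.con (hrs.trans hs) hb hc)⟩
    have h3 : b ∉ Y.D W₁ W₂ t := fun hD => hn ⟨b, hD, Or.inl (hb.mono (by linarith))⟩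
    have h2 := ((hT r (fun q hq h' => hn (h'.mono (by linarith))) a
      fun h => h1 (D_mono (by linarith) h)).2 b fun h => h3 (D_mono (by linarith) h)).1 hc
    exact .con hrs (IH (by linarith)) h2

/-- **Locality**: without touch, the exposed labels are the same in both worlds. -/
theorem exp_iff (hT : Y.Transfer W₁ W₂) (hn : ¬Y.Touch W₁ W₂ t) (hs : s ≤ t) :
    Y.Exp W₁ a s ↔ Y.Exp W₂ a s :=
  ⟨fun h => exp_of_exp hT hn h hs, fun h => exp_of_exp hT.symm (fun h' => hn h'.symm) h hs⟩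

end basic

section closed

/-- Exposure by chains inside `B`. -/
inductive ExpIn (Y : Sys α S) (W B : Finset α) : α → ℝ → Prop
  | bad {a : α} {s t : ℝ} : a ∈ B → s ≤ t → Y.bad W a s → ExpIn Y W B a t
  | con {a b : α} {s t : ℝ} : a ∈ B → s ≤ t → ExpIn Y W B b s → Y.con W s a b → ExpIn Y W B a t

variable {W B : Finset α} {a b : α} {s t : ℝ}

theorem ExpIn.mem (h : ExpIn Y W B a t) : a ∈ B := by
  cases h with
  | bad h _ _ => exact h
  | con h _ _ _ => exact h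

theorem ExpIn.mono (h : ExpIn Y W B a s) (hst : s ≤ t) : ExpIn Y W B a t := by
  cases h with
  | bad h1 h2 h3 => exact .bad h1 (h2.trans hst) h3
  | con h1 h2 h3 h4 => exact .con h1 (h2.trans hst) h3 h4

theorem ExpIn.exp (h : ExpIn Y W B a t) : Y.Exp W a t := by
  induction h with
  | bad _ h2 h3 => exact .bad h2 h3
  | con _ h2 _ h4 IH => exact .con h2 IH h4

theorem Exp.expIn (h : Y.Exp W a t) : ExpIn Y W W a t := by
  induction h with
  | bad h1 h2 => exact .bad (Y.bad_mem h2) h1 h2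
  | con h1 h2 h3 IH => exact .con (Y.con_mem h3).1 h1 IH h3

theorem exp_iff_expIn : Y.Exp W a t ↔ ExpIn Y W W a t := ⟨Exp.expIn, ExpIn.exp⟩

theorem ExpIn.subset {B' : Finset α} (hB : B ⊆ B') (h : ExpIn Y W B a t) : ExpIn Y W B' a t := by
  induction h with
  | bad h1 h2 h3 => exact .bad (hB h1) h2 h3
  | con h1 h2 _ h4 IH => exact .con (hB h1) h2 IH h4

open Classical in
/-- Remove the returns to `a`. -/
theorem ExpIn.erase (a : α) (h : ExpIn Y W B b s) : ExpIn Y W (B.erase a) b s ∨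
    ∃ r ≤ s, Y.bad W a r ∨ ∃ c, ExpIn Y W (B.erase a) c r ∧ Y.con W r a c := by
  induction h with
  | @bad b r s hb hrs h =>
    by_cases hab : b = a
    · subst hab
      exact Or.inr ⟨r, hrs, Or.inl h⟩
    · exact Or.inl (.bad (Finset.mem_erase.2 ⟨hab, hb⟩) hrs h)
  | @con b c r s hb hrs _ hc IH =>
    rcases IH with h | ⟨q, hq, h⟩
    · by_cases hab : b = a
      · subst hab
        exact Or.inr ⟨r, hrs, Or.inr ⟨c, h, hc⟩⟩
      · exact Or.inl (.con (Finset.mem_erase.2 ⟨hab, hb⟩) hrs h hc)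
    · exact Or.inr ⟨q, hq.trans hrs, h⟩

open Classical in
theorem expIn_closed (B : Finset α) (hB : B ⊆ W) (a : α) : DClosed {t | ExpIn Y W B a t} := by
  induction B using Finset.strongInduction generalizing a with
  | _ B IH =>
    by_cases ha : a ∈ B
    · have h1 : {t | ExpIn Y W B a t} = {t | ∃ r ≤ t, r ∈ {r | Y.bad W a r} ∪
          {r | ∃ c ∈ B.erase a, r ∈ {r | ExpIn Y W (B.erase a) c r} ∩ {r | Y.con W r a c}}} := by
        ext t
        constructor
        · intro h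
          rcases h.erase a with h | ⟨r, hr, h⟩
          · exact absurd h.mem (Finset.notMem_erase a B)
          · refine ⟨r, hr, h.imp id ?_⟩
            rintro ⟨c, hc, h⟩
            exact ⟨c, hc.mem, hc, h⟩
        · rintro ⟨r, hr, h | ⟨c, -, hc, h⟩⟩
          · exact .bad ha hr h
          · exact .con ha hr (hc.subset (Finset.erase_subset a B)) h
      rw [h1]
      refine DClosed.up (DClosed.union (Y.bad_closed W a) (DClosed.biUnion _ fun c hc => ?_))
      exact (IH (B.erase a) (Finset.erase_ssubset ha)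
        ((Finset.erase_subset a B).trans hB) c).inter (Y.con_closed W a c)
    · have h1 : {t | ExpIn Y W B a t} = ∅ := by
        ext t
        simp only [mem_ofPred_eq, mem_empty_iff_false, iff_false]
        exact fun h => ha h.mem
      rw [h1]
      exact DClosed.empty

theorem exp_closed (W : Finset α) (a : α) : DClosed {t | Y.Exp W a t} := by
  have h1 : {t | Y.Exp W a t} = {t | ExpIn Y W W a t} := by
    ext t; exact exp_iff_expIn
  rw [h1]
  exact expIn_closed W (Finset.Subset.refl W) a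

theorem D_closed (W₁ W₂ : Finset α) (a : α) : DClosed {t | a ∈ Y.D W₁ W₂ t} :=
  (Y.st_closed W₁ W₂ a).up

open Classical in
theorem touch_closed (W₁ W₂ : Finset α) : DClosed {t | Y.Touch W₁ W₂ t} := by
  have h1 : {t | Y.Touch W₁ W₂ t} = {t | ∃ a ∈ W₁ ∪ W₂, t ∈ {t | a ∈ Y.D W₁ W₂ t} ∩
      ({t | Y.Exp W₁ a t} ∪ {t | Y.Exp W₂ a t})} := by
    ext t
    constructor
    · rintro ⟨a, hD, h⟩
      exact ⟨a, Finset.mem_union.2 (h.imp (·.mem) (·.mem)), hD, h⟩
    · rintro ⟨a, -, hD, h⟩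
      exact ⟨a, hD, h⟩
  rw [h1]
  exact DClosed.biUnion _ fun a _ =>
    (D_closed W₁ W₂ a).inter ((exp_closed W₁ a).union (exp_closed W₂ a))

/-- First touch. -/
theorem Touch.first {W₁ W₂ : Finset α} (h : Y.Touch W₁ W₂ t) :
    ∃ σ ≤ t, Y.Touch W₁ W₂ σ ∧ ∀ s < σ, ¬Y.Touch W₁ W₂ s :=
  (touch_closed W₁ W₂).first (fun _ hs => hs.nonneg) h

end closed

/-- Four worlds: `P`, `Q = P + X`, `R = P + Y`, `V = P + X + Y`, where `X` and `Y` act on different
labels up to time `t`. -/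
structure Square (Y : Sys α S) (P Q R V : Finset α) (t : ℝ) : Prop where
  disj : ∀ a, a ∈ Y.D P Q t → a ∉ Y.D P R t
  eqX : ∀ a ∉ Y.D P Q t, ∀ s ≤ t, Y.st R a s = Y.st V a s
  eqY : ∀ a ∉ Y.D P R t, ∀ s ≤ t, Y.st Q a s = Y.st V a s

namespace Square

variable {P Q R V : Finset α} {t : ℝ}

theorem D_RV (h : Square Y P Q R V t) : Y.D R V t = Y.D P Q t := by
  ext a
  constructor
  · intro ha
    by_contra hn
    exact (not_mem_D.2 (h.eqX a hn)) ha
  · intro ha
    have h1 := h.disj a ha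
    have h2 := h.eqY a h1
    have h3 := not_mem_D.1 h1
    by_contra hn
    have h4 := not_mem_D.1 hn
    exact (not_mem_D.2 fun s hs => by rw [h3 s hs, h4 s hs, h2 s hs]) ha

theorem transpose (h : Square Y P Q R V t) : Square Y P R Q V t :=
  ⟨fun a h1 h2 => h.disj a h2 h1, h.eqY, h.eqX⟩

theorem D_QV (h : Square Y P Q R V t) : Y.D Q V t = Y.D P R t := h.transpose.D_RV

/-- Move the corner along the first edge. -/
theorem flip (h : Square Y P Q R V t) : Square Y Q P V R t := by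
  refine ⟨fun a h1 h2 => ?_, fun a h1 s hs => ?_, fun a h1 s hs => ?_⟩
  · rw [D_comm] at h1
    rw [h.D_QV] at h2
    exact h.disj a h1 h2
  · rw [D_comm] at h1
    exact (h.eqX a h1 s hs).symm
  · rw [h.D_QV] at h1
    exact not_mem_D.1 h1 s hs

theorem mono (h : Square Y P Q R V t) {r : ℝ} (hr : r ≤ t) : Square Y P Q R V r := by
  refine ⟨fun a h1 h2 => h.disj a (D_mono hr h1) (D_mono hr h2), fun a h1 s hs => ?_,
    fun a h1 s hs => ?_⟩
  · by_cases h3 : a ∈ Y.D P Q t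
    · have h4 := h.disj a h3
      rw [← not_mem_D.1 h4 s (hs.trans hr), not_mem_D.1 h1 s hs, h.eqY a h4 s (hs.trans hr)]
    · exact h.eqX a h3 s (hs.trans hr)
  · by_cases h3 : a ∈ Y.D P R t
    · have h4 : a ∉ Y.D P Q t := fun h5 => h.disj a h5 h3
      rw [← not_mem_D.1 h4 s (hs.trans hr), not_mem_D.1 h1 s hs, h.eqX a h4 s (hs.trans hr)]
    · exact h.eqY a h3 s (hs.trans hr)

/-- Key induction: exposed labels of the opposite world are exposed in the corner world. -/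
theorem exp_corner (h : Square Y P Q R V t) (tPQ : Y.Transfer P Q) (tPR : Y.Transfer P R)
    (tQV : Y.Transfer Q V) (tRV : Y.Transfer R V) (n₁ : ¬Y.Touch P Q t) (n₂ : ¬Y.Touch P R t)
    {σ : ℝ} (hσ : σ ≤ t) (n₃ : ∀ s < σ, ¬Y.Touch Q V s) (n₄ : ∀ s < σ, ¬Y.Touch R V s)
    {a : α} {s : ℝ} (hs : s ≤ σ) (he : Y.Exp V a s) : Y.Exp P a s := by
  induction he with
  | @bad a r s hrs hb =>
    have hrt : r ≤ t := by linarith
    have k₁ : ∀ q < r, ¬Y.Touch P Q q := fun q hq h' => n₁ (h'.mono (by linarith))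
    have k₂ : ∀ q < r, ¬Y.Touch P R q := fun q hq h' => n₂ (h'.mono (by linarith))
    have k₃ : ∀ q < r, ¬Y.Touch Q V q := fun q hq => n₃ q (by linarith)
    have k₄ : ∀ q < r, ¬Y.Touch R V q := fun q hq => n₄ q (by linarith)
    have h' := h.mono hrt
    by_cases hX : a ∈ Y.D P Q t
    · -- then `Y` does not alter `a`
      have hY : a ∉ Y.D P R t := h.disj a hX
      have hQV : a ∉ Y.D Q V r := by
        rw [h'.D_QV]; exact fun h => hY (D_mono hrt h)
      have h1 : Y.bad Q a r := ((tQV r k₃ a hQV).1).2 hb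
      exact absurd ⟨a, hX, Or.inr (.bad hrt h1)⟩ n₁
    · have hRV : a ∉ Y.D R V r := by
        rw [h'.D_RV]; exact fun h => hX (D_mono hrt h)
      have h1 : Y.bad R a r := ((tRV r k₄ a hRV).1).2 hb
      by_cases hY : a ∈ Y.D P R t
      · exact absurd ⟨a, hY, Or.inr (.bad hrt h1)⟩ n₂
      · have hPR : a ∉ Y.D P R r := fun h => hY (D_mono hrt h)
        exact .bad hrs (((tPR r k₂ a hPR).1).2 h1)
  | @con a b r s hrs _ hc IH =>
    have hrt : r ≤ t := by linarith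
    have hb : Y.Exp P b r := IH (by linarith)
    have k₁ : ∀ q < r, ¬Y.Touch P Q q := fun q hq h' => n₁ (h'.mono (by linarith))
    have k₂ : ∀ q < r, ¬Y.Touch P R q := fun q hq h' => n₂ (h'.mono (by linarith))
    have k₃ : ∀ q < r, ¬Y.Touch Q V q := fun q hq => n₃ q (by linarith)
    have k₄ : ∀ q < r, ¬Y.Touch R V q := fun q hq => n₄ q (by linarith)
    have h' := h.mono hrt
    have bX : b ∉ Y.D P Q t := fun hD => n₁ ⟨b, hD, Or.inl (hb.mono hrt)⟩
    have bY : b ∉ Y.D P R t := fun hD => n₂ ⟨b, hD, Or.inl (hb.mono hrt)⟩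
    have bQ : Y.Exp Q b r := (exp_iff tPQ n₁ hrt).1 hb
    have bR : Y.Exp R b r := (exp_iff tPR n₂ hrt).1 hb
    have bQV : b ∉ Y.D Q V r := by rw [h'.D_QV]; exact fun h => bY (D_mono hrt h)
    have bRV : b ∉ Y.D R V r := by rw [h'.D_RV]; exact fun h => bX (D_mono hrt h)
    by_cases hX : a ∈ Y.D P Q t
    · have hY : a ∉ Y.D P R t := h.disj a hX
      have hQV : a ∉ Y.D Q V r := by
        rw [h'.D_QV]; exact fun h => hY (D_mono hrt h)
      have h1 : Y.con Q r a b := ((tQV r k₃ a hQV).2 b bQV).2 hc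
      exact absurd ⟨a, hX, Or.inr (.con hrt bQ h1)⟩ n₁
    · have hRV : a ∉ Y.D R V r := by
        rw [h'.D_RV]; exact fun h => hX (D_mono hrt h)
      have h1 : Y.con R r a b := ((tRV r k₄ a hRV).2 b bRV).2 hc
      by_cases hY : a ∈ Y.D P R t
      · exact absurd ⟨a, hY, Or.inr (.con hrt bR h1)⟩ n₂
      · have hPR : a ∉ Y.D P R r := fun h => hY (D_mono hrt h)
        exact .con hrs hb (((tPR r k₂ a hPR).2 b fun h => bY (D_mono hrt h)).2 h1)

theorem corner_aux (h : Square Y P Q R V t) (tPQ : Y.Transfer P Q) (tPR : Y.Transfer P R)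
    (tQV : Y.Transfer Q V) (tRV : Y.Transfer R V) (n₁ : ¬Y.Touch P Q t) (n₂ : ¬Y.Touch P R t)
    {σ : ℝ} (hσ : σ ≤ t) (n₃ : ∀ s < σ, ¬Y.Touch Q V s) (n₄ : ∀ s < σ, ¬Y.Touch R V s) :
    ¬Y.Touch Q V σ ∧ ¬Y.Touch R V σ := by
  have key : ∀ a, Y.Exp V a σ → Y.Exp P a σ := fun a ha =>
    h.exp_corner tPQ tPR tQV tRV n₁ n₂ hσ n₃ n₄ le_rfl ha
  have h' := h.mono hσ
  constructor
  · rintro ⟨a, hD, ha | ha⟩
    · rw [h'.D_QV] at hD
      exact n₂ ⟨a, D_mono hσ hD, Or.inl (((exp_iff tPQ n₁ hσ).2 ha).mono hσ)⟩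
    · rw [h'.D_QV] at hD
      exact n₂ ⟨a, D_mono hσ hD, Or.inl ((key a ha).mono hσ)⟩
  · rintro ⟨a, hD, ha | ha⟩
    · rw [h'.D_RV] at hD
      exact n₁ ⟨a, D_mono hσ hD, Or.inl (((exp_iff tPR n₂ hσ).2 ha).mono hσ)⟩
    · rw [h'.D_RV] at hD
      exact n₁ ⟨a, D_mono hσ hD, Or.inl ((key a ha).mono hσ)⟩

/-- **Corner lemma**: if two edges at a corner are not touched, no edge is touched. -/
theorem corner (h : Square Y P Q R V t) (tPQ : Y.Transfer P Q) (tPR : Y.Transfer P R)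
    (tQV : Y.Transfer Q V) (tRV : Y.Transfer R V) (n₁ : ¬Y.Touch P Q t) (n₂ : ¬Y.Touch P R t) :
    ¬Y.Touch Q V t ∧ ¬Y.Touch R V t := by
  have hcl : DClosed {s | Y.Touch Q V s ∨ Y.Touch R V s} :=
    (touch_closed Q V).union (touch_closed R V)
  by_contra hcon
  have ht : t ∈ {s | Y.Touch Q V s ∨ Y.Touch R V s} := by
    simp only [mem_ofPred_eq]
    tauto
  obtain ⟨σ, hσ, h1, h2⟩ := hcl.first (m := 0) (fun s hs => hs.elim (·.nonneg) (·.nonneg)) ht
  have h3 := h.corner_aux tPQ tPR tQV tRV n₁ n₂ hσ (fun s hs h' => h2 s hs (Or.inl h'))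
    (fun s hs h' => h2 s hs (Or.inr h'))
  rcases h1 with h1 | h1
  · exact h3.1 h1
  · exact h3.2 h1

end Square

/-- If both are untouched from a common world, nothing exposed is different. -/
theorem not_touch_trans {W₁ W₂ W₃ : Finset α} {t : ℝ} (t₁ : Y.Transfer W₁ W₂)
    (t₂ : Y.Transfer W₂ W₃) (n₁ : ¬Y.Touch W₁ W₂ t) (n₂ : ¬Y.Touch W₂ W₃ t) :
    ¬Y.Touch W₁ W₃ t := by
  rintro ⟨a, hD, ha⟩
  have h1 : Y.Exp W₂ a t := by
    rcases ha with ha | ha
    · exact (exp_iff t₁ n₁ le_rfl).1 ha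
    · exact (exp_iff t₂ n₂ le_rfl).2 ha
  rcases D_trans (W₂ := W₂) hD with h | h
  · exact n₁ ⟨a, h, Or.inr h1⟩
  · exact n₂ ⟨a, h, Or.inl h1⟩

end Sys

end Vale.Agent.P119.FB
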