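import Vale.Agent.P119.FB.Conc1
import Vale.Agent.P119.ML.Cls
import Vale.Agent.P119.TL.Glue
import Vale.Agent.P119.M.SupBad

/-!
# P119, feedback block, concrete part 2: the first contact of an inserted source (`helper939`)

* `pair_live`, `fly_live`: trees live as long as there are no M-contacts;
* `Irr`: irregular first contacts; `classify`: the first M-contact of `l` is irregular or it is the
  regular beginning of a collision with a flying tree `T`.
-/

open MeasureTheory Filter Topology Set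

noncomputable section

namespace Vale.Agent.P119.FB

open M CTree KU RB

variable {Φ : E3 → ℝ} {ε : ℝ} {L : ℕ} {W : Set Src} {a b : Src} {s t : ℝ}

/-! ### Trees live as long as there are no contacts -/

theorem alive_eq_of_root (hΦ : IsPotential Φ) (hε : 0 < ε) (hW : W.Finite) {T T' : CTree}
    (hT : alive Φ ε L W T t) (he : ext Φ ε T < t) (hT' : alive Φ ε L W T' t)
    (hr : T'.root = T.root) : T' = T := by
  rw [alive_iff_live hΦ hε hW] at hT hT'
  have h1 : sig Φ ε T < t := (sig_le_ext hΦ hε hT.1.ok).trans_lt he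
  rcases (hT'.1.sig_le).lt_or_eq with h2 | h2
  · exact live_unique hΦ hε hW hT'.1 hT.1 hr h2 h1
  · exfalso
    rcases T' with σ | ⟨c, d⟩
    · have h3 := root_birth_le_sig hΦ hε hT.1.ok
      rw [← hr] at h3
      have h4 : σ.1 = t := h2
      have h5 : σ.1 ≤ sig Φ ε T := h3
      linarith
    · have h3 := sig_lt_ext hΦ hε hT'.1.ok
      linarith [hT'.2]

/-- A colliding pair lives as long as its members have no contacts with others. -/
theorem pair_live (hΦ : IsPotential Φ) (hε : 0 < ε) (hW : W.Finite) {T S : CTree} {e r : ℝ}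
    (hy : ok Φ ε (node T S)) (hd : (node T S).depth ≤ L)
    (hT : alive Φ ε L W T (sig Φ ε (node T S))) (hS : alive Φ ε L W S (sig Φ ε (node T S)))
    (H : ∀ r, sig Φ ε (node T S) ≤ r → r < e → ∀ b, b ≠ T.root → b ≠ S.root →
      ¬mcon Φ ε L W r T.root b ∧ ¬mcon Φ ε L W r S.root b)
    (h1 : sig Φ ε (node T S) ≤ r) (h2 : r ≤ e) : live Φ ε L W (node T S) r := by
  have hb : base Φ ε L W (node T S) := ⟨hy, hd, hT, hS⟩
  rw [live_iff_base hΦ hε hW]
  refine ⟨hb, h1, fun T₀ q hq hqr hh ha => ?_⟩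
  obtain ⟨T', u, hu, -, h3, h4, h5⟩ := TL.exists_first_hit hΦ hε hW hy hh ha
  have hu1 : sig Φ ε (node T S) ≤ u := by
    by_contra hcon
    exact base_nohit hΦ hε hW hb (not_le.1 hcon) h3 h4
  have hue : u < e := by linarith
  have hlive : live Φ ε L W (node T S) u := by
    rw [live_iff_base hΦ hε hW]
    exact ⟨hb, hu1, fun T'' r' _ hr' => h5 T'' r' hr'⟩
  have hT' := (alive_iff_live hΦ hε hW).1 h4
  have hst' := st_after hΦ hε hT'.1.ok hT'.2
  have hs1 : ext Φ ε T < sig Φ ε (node T S) := hy.2.2.2.2.2.1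
  have hs2 : ext Φ ε S < sig Φ ε (node T S) := hy.2.2.2.2.2.2
  rcases h3 with ⟨h6, h7⟩ | ⟨-, h6, h7, h8⟩
  · have hus : u = sig Φ ε (node T S) := le_antisymm h6 hu1
    subst hus
    rcases h7 with ⟨h7, h8⟩ | ⟨h7, h8⟩
    · have h9 := mcon_of_hit' hΦ hε hW ((alive_iff_live hΦ hε hW).1 hT).1
        (Or.inl ((sig_le_ext hΦ hε hy.1).trans_lt hs1)) h7 h4 hs1.le
      by_cases h10 : T'.root = S.root
      · exact h8 ⟨alive_eq_of_root hΦ hε hW hS hs2 h4 h10, rfl⟩
      · exact (H _ hu1 hue _ h9.1.symm h10).1 h9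
    · have h9 := mcon_of_hit' hΦ hε hW ((alive_iff_live hΦ hε hW).1 hS).1
        (Or.inl ((sig_le_ext hΦ hε hy.2.1).trans_lt hs2)) h7 h4 hs2.le
      by_cases h10 : T'.root = T.root
      · exact h8 ⟨alive_eq_of_root hΦ hε hW hT hs1 h4 h10, rfl⟩
      · exact (H _ hu1 hue _ h10 h9.1.symm).2 h9
  · have n1 : T'.root ≠ T.root := fun h =>
      disjoint_left.1 h7 (Or.inl T.root_mem_leaves) (h ▸ T'.root_mem_leaves)
    have n2 : T'.root ≠ S.root := fun h =>
      disjoint_left.1 h7 (Or.inr S.root_mem_leaves) (h ▸ T'.root_mem_leaves)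
    rcases h8 with h8 | ⟨h8, h9⟩
    · refine (H u hu1 hue _ n1 n2).1 ⟨n1.symm, node T S, T', rfl, rfl, hlive, hT'.1, ?_⟩
      rw [hst']
      exact h8
    · refine (H u hu1 hue _ n1 n2).2 ⟨n2.symm, node S T, T', rfl, rfl, live_swap hΦ hlive h8.le,
        hT'.1, ?_⟩
      rw [hst', st_swap hΦ T S u]
      exact h9

/-- A flying tree lives as long as its root has no contacts. -/
theorem fly_live (hΦ : IsPotential Φ) (hε : 0 < ε) (hW : W.Finite) {T : CTree} {u e r : ℝ}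
    (hT : alive Φ ε L W T u) (H : ∀ r, u ≤ r → r < e → ∀ b, ¬mcon Φ ε L W r T.root b)
    (h1 : u ≤ r) (h2 : r ≤ e) : alive Φ ε L W T r := by
  rw [alive_iff hΦ hε hW] at hT ⊢
  refine ⟨⟨hT.1.sub, hT.1.ok, hT.1.depth, hT.1.ext_le.trans h1⟩, fun T₀ q hqr hh ha => ?_⟩
  obtain ⟨T', v, hv, -, h3, h4, h5⟩ := TL.exists_first_hit hΦ hε hW hT.1.ok hh ha
  rcases lt_or_ge v u with hvu | hvu
  · exact hT.2 T' v hvu h3 h4
  · have hlive : live Φ ε L W T v :=
      ⟨hT.1.sub, hT.1.ok, hT.1.depth, ((sig_le_ext hΦ hε hT.1.ok).trans hT.1.ext_le).trans hvu,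
        fun T'' r' hr' => h5 T'' r' hr'⟩
    have hs : sig Φ ε T < v ∨ T = leaf T.root := by
      rcases T with σ | ⟨c, d⟩
      · exact Or.inr rfl
      · exact Or.inl (((sig_lt_ext hΦ hε hT.1.ok).trans_le hT.1.ext_le).trans_le hvu)
    exact H v hvu (by linarith) _ (mcon_of_hit' hΦ hε hW hlive hs h3 h4 (hT.1.ext_le.trans hvu))

/-- ... also at the time of the last absence of contacts. -/
theorem fly_lives (hΦ : IsPotential Φ) (hε : 0 < ε) (hW : W.Finite) {T : CTree} {u r : ℝ}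
    (hT : alive Φ ε L W T u) (H : ∀ q, u ≤ q → q ≤ r → ∀ b, ¬mcon Φ ε L W q T.root b)
    (h1 : u ≤ r) : lives Φ ε L W T r := by
  have h2 := fly_live hΦ hε hW hT (fun q hq hqr => H q hq hqr.le) h1 le_rfl
  have h3 := (alive_iff_live hΦ hε hW).1 h2
  refine ⟨h3.1.sub, h3.1.ok, h3.1.depth, h3.1.sig_le, fun T' q hq hh ha => ?_⟩
  rcases hq.lt_or_eq with hq | rfl
  · exact h3.1.nohit T' q hq hh ha
  · have hs : sig Φ ε T < q ∨ T = leaf T.root := by
      rcases T with σ | ⟨c, d⟩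
      · exact Or.inr rfl
      · exact Or.inl ((sig_lt_ext hΦ hε h3.1.ok).trans_le h3.2)
    exact H q h1 le_rfl _ (mcon_of_hit' hΦ hε hW h3.1 hs hh ha h3.2)

/-- The statuses during the collision. -/
theorem stat_pair (hΦ : IsPotential Φ) (hε : 0 < ε) (hW : W.Finite) {T S : CTree} {r : ℝ}
    (h : lives Φ ε L W (node T S) r) (hr : r < ext Φ ε (node T S)) :
    stat Φ ε L W T.root r = some (node T S) ∧ stat Φ ε L W S.root r = some (node S T) ∧
      part Φ ε L W r T.root S.root ∧ part Φ ε L W r S.root T.root := by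
  have h1 : stat Φ ε L W T.root r = some (node T S) :=
    (stat_eq_some_iff hΦ hε hW).2 ⟨rfl, h⟩
  have h2 := stat_partner hΦ hε hW h1 hr
  have h3 : part Φ ε L W r T.root S.root := ⟨_, _, h1, h2, T, S, rfl, rfl, hr⟩
  exact ⟨h1, h2, h3, (part_comm hΦ).1 h3⟩

/-- The members of a pair are not bad if they have no contacts with others. -/
theorem not_badi_pair (hΦ : IsPotential Φ) (hε : 0 < ε) (hW : W.Finite) {T S : CTree} {r : ℝ}
    (h : lives Φ ε L W (node T S) r) (hr : r < ext Φ ε (node T S))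
    (H : ∀ b, b ≠ T.root → b ≠ S.root →
      ¬mcon Φ ε L W r T.root b ∧ ¬mcon Φ ε L W r S.root b) :
    ¬badi Φ ε L W T.root r ∧ ¬badi Φ ε L W S.root r := by
  obtain ⟨h1, h2, h3, h4⟩ := stat_pair hΦ hε hW h hr
  constructor
  · rintro ⟨-, -, -, h5 | ⟨c, h5, h6⟩⟩
    · rw [h1] at h5
      exact absurd h5 (by simp)
    · by_cases hc : c = S.root
      · subst hc
        exact h6 h3
      · exact (H c h5.1.symm hc).1 h5
  · rintro ⟨-, -, -, h5 | ⟨c, h5, h6⟩⟩
    · rw [h2] at h5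
      exact absurd h5 (by simp)
    · by_cases hc : c = T.root
      · subst hc
        exact h6 h4
      · exact (H c hc h5.1.symm).2 h5

theorem not_badi_of_no_mcon {r : ℝ} {T : CTree} (h : stat Φ ε L W a r = some T)
    (H : ∀ b, ¬mcon Φ ε L W r a b) : ¬badi Φ ε L W a r := by
  rintro ⟨-, -, -, h5 | ⟨c, h5, -⟩⟩
  · rw [h] at h5
    exact absurd h5 (by simp)
  · exact H c h5

/-! ### The first contact -/

/-- Irregular contact of the free source `l` with a live tree `S` of `w`: at the birth of `l`, with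
a colliding (or just born) tree, or grazing. -/
def Irr (Φ : E3 → ℝ) (ε : ℝ) (L : ℕ) (w : Finset Src) (l : Src) (t : ℝ) : Prop :=
  ∃ s ≤ t, l.1 ≤ s ∧ ∃ S : CTree, live Φ ε L (w : Set Src) S s ∧
    Ctc ε (free s l.2.1) (st Φ ε S s) ∧
    (s = l.1 ∨ s ≤ ext Φ ε S ∨ (ext Φ ε S < s ∧
      ‖(free s l.2.1).1 - (free s (ln Φ ε S)).1‖ = ε ∧
      (inner ℝ ((free s l.2.1).1 - (free s (ln Φ ε S)).1)
        ((free s l.2.1).2 - (free s (ln Φ ε S)).2) : ℝ) = 0))

theorem Irr.mono {w : Finset Src} {l : Src} {s t : ℝ} (h : Irr Φ ε L w l s) (hst : s ≤ t) :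
    Irr Φ ε L w l t := by
  obtain ⟨r, hr, h⟩ := h
  exact ⟨r, hr.trans hst, h⟩

variable {w : Finset Src} {l : Src}

open Classical in
/-- Before the first M-contact of `l` the statuses of the others are the same. -/
theorem sta_eq_before (hΦ : IsPotential Φ) (hε : 0 < ε) (hl : l ∉ w) {σ : ℝ}
    (hn : ∀ r < σ, ∀ b, ¬mcon Φ ε L (insert l w : Finset Src) r l b) (ha : a ≠ l) {r : ℝ}
    (hr : r < σ) : sta Φ ε L (w : Set Src) a r =
      sta Φ ε L ((insert l w : Finset Src) : Set Src) a r := by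
  by_contra hcon
  have h1 : a ∈ (Y Φ ε L hΦ hε).Dlt w (insert l w) σ := ⟨r, hr, r, le_rfl, hcon⟩
  exact ha (dlt_subset_single (hΦ := hΦ) (hε := hε) hl hn h1)

open Classical in
/-- **Classification of the first M-contact.** -/
theorem classify (hΦ : IsPotential Φ) (hε : 0 < ε) (hl : l ∉ w) (h0 : 0 ≤ l.1)
    (hd : l.2.2 ≤ L) {σ : ℝ} (hm : mcon Φ ε L (insert l w : Finset Src) σ l b)
    (hn : ∀ r < σ, ∀ b, ¬mcon Φ ε L (insert l w : Finset Src) r l b) :
    Irr Φ ε L w l σ ∨ ∃ T : CTree, T.root = b ∧ alive Φ ε L (w : Set Src) T σ ∧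
      ext Φ ε T < σ ∧ l.1 < σ ∧ Meets ε (l.2.1, ln Φ ε T) ∧ hitT ε (l.2.1, ln Φ ε T) = σ := by
  have hW : ((insert l w : Finset Src) : Set Src).Finite := Finset.finite_toSet _
  have hw := w.finite_toSet
  have hm0 := hm
  obtain ⟨hne, P, S, hP, hS, h3, h4, h5⟩ := hm
  have hlσ : l.1 ≤ σ := (hm0.birth_le hΦ hε).1
  have hbw : b ∈ w := by
    have := Finset.mem_coe.1 hm0.mem.2
    rcases Finset.mem_insert.1 this with h | h
    · exact absurd h.symm hne
    · exact h
  have hlive : ∀ r ≤ σ, l.1 ≤ r → live Φ ε L (insert l w : Finset Src) (leaf l) r :=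
    fun r hr hb => live_leaf_of hΦ hε hW (by simp) h0 hd hb fun q hq => hn q (by linarith)
  have e1 : st Φ ε P σ = free σ l.2.1 := by
    have := st_eq_free hΦ hε hW h3 (by rw [hP]; exact hlive σ le_rfl hlσ)
    rw [this, hP]
  have hstat : ∀ r < σ, stat Φ ε L (w : Set Src) b r =
      stat Φ ε L ((insert l w : Finset Src) : Set Src) b r := fun r hr =>
    stat_of_sta (sta_eq_before hΦ hε hl hn hne.symm hr)
  obtain ⟨S', k1, k2, k3⟩ := live_congr' hΦ hε hW hw (T := S)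
    (fun _ => by rw [hS]; exact Finset.mem_coe.2 hbw)
    (fun r hr => by rw [hS]; exact (hstat r hr).symm) h4
  have hc' : Ctc ε (free σ l.2.1) (st Φ ε S' σ) := by
    rw [k3, ← e1]
    exact h5
  by_cases hb1 : σ = l.1
  · exact Or.inl ⟨σ, le_rfl, hlσ, S', k2, hc', Or.inl hb1⟩
  have hlσ' : l.1 < σ := lt_of_le_of_ne hlσ (Ne.symm hb1)
  rcases live_sig hΦ hε hw k2 with ⟨g1, g2⟩ | ⟨T, g1, g2, g3, g4⟩
  · left
    refine ⟨σ, le_rfl, hlσ, S', k2, hc', Or.inr (Or.inl ?_)⟩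
    rw [g1]
    exact g2.ge
  · rw [← g4] at hc'
    rcases le_or_gt σ (ext Φ ε T) with h6 | h6
    · exact Or.inl ⟨σ, le_rfl, hlσ, T, g2, hc', Or.inr (Or.inl h6)⟩
    have hTr : T.root = b := g1.trans (k1.trans hS)
    have hTa : alive Φ ε L (w : Set Src) T σ := (alive_iff_live hΦ hε hw).2 ⟨g2, h6.le⟩
    have hst : st Φ ε T σ = free σ (ln Φ ε T) := st_after hΦ hε g2.ok h6.le
    have hc : Ctc ε (free σ l.2.1) (free σ (ln Φ ε T)) := by rw [← hst]; exact hc'
    have hev : ∀ r, max l.1 (ext Φ ε T) < r → r < σ →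
        ¬Ctc ε (free r l.2.1) (free r (ln Φ ε T)) := by
      intro r hr1 hr2 hcr
      have hlr : l.1 ≤ r := ((le_max_left _ _).trans_lt hr1).le
      have her : ext Φ ε T ≤ r := ((le_max_right _ _).trans_lt hr1).le
      have hTl : live Φ ε L (w : Set Src) T r :=
        g2.anti hr2.le ((sig_le_ext hΦ hε g2.ok).trans her)
      obtain ⟨T', j1, j2, j3⟩ := live_congr' hΦ hε hw hW (T := T)
        (fun h => Finset.mem_coe.2 (Finset.mem_insert_of_mem (Finset.mem_coe.1 h)))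
        (fun q hq => by rw [hTr]; exact hstat q (hq.trans hr2)) hTl
      refine hn r hr2 b ⟨hne, leaf l, T', rfl, j1.trans hTr, hlive r hr2.le hlr, j2, ?_⟩
      rw [j3, st_after hΦ hε g2.ok her]
      exact hcr
    have hfr : ∃ᶠ r in 𝓝[<] σ, ¬Ctc ε (free r l.2.1) (free r (ln Φ ε T)) := by
      refine (Eventually.frequently ?_)
      filter_upwards [Ioo_mem_nhdsLT (max_lt hlσ' h6)] with r hr
      exact hev r hr.1 hr.2
    obtain ⟨d1, d2⟩ := ML.first_ctc hc hfr
    rcases d2.lt_or_eq with d2 | d2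
    · right
      obtain ⟨m1, m2⟩ := ML.meets_of_entrance hε d1 d2
      exact ⟨T, hTr, hTa, h6, hlσ', m1, m2⟩
    · exact Or.inl ⟨σ, le_rfl, hlσ, T, g2, hc', Or.inr (Or.inr ⟨h6, d1, d2⟩)⟩

end Vale.Agent.P119.FB
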