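import Vale.Agent.P119.FB.Conc2
import Vale.Agent.P119.TL.Inst
import Vale.Agent.P119.TL.Glue
import Vale.Agent.P119.M.Good

/-!
# P119, feedback block, concrete part 3: families of structures over a base (`helper939`)

`wd V X J`: the base `V` with the structures `X i`, `i ∈ J`; `Gd V X K t`: no interaction of the
structures `X i`, `i ∈ K`, up to `t` (472's `NI` and `NIB`).

* `Gd.cube`: a cube in the sense of `FB`;
* `Gd.mcon_iff`: the M-contacts of the particles of `X i` are the same in all the worlds with `i`;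
* `Gd.lgood`: the hypotheses of TREE -> LINES.
-/

open MeasureTheory Filter Topology Set

noncomputable section

set_option linter.unusedSectionVars false

namespace Vale.Agent.P119.FB

open M CTree KU RB

variable {Φ : E3 → ℝ} {ε : ℝ} {L : ℕ} {hΦ : IsPotential Φ} {hε : 0 < ε}
  {ι : Type*} [DecidableEq ι] {V : Finset Src} {X : ι → Finset Src} {I J K : Finset ι} {i j : ι}
  {a b x : Src} {r s t : ℝ}

open Classical in
/-- The base with some structures. -/
def wd (V : Finset Src) (X : ι → Finset Src) (J : Finset ι) : Finset Src := V ∪ J.biUnion X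

omit [DecidableEq ι] in
theorem mem_wd : a ∈ wd V X J ↔ a ∈ V ∨ ∃ i ∈ J, a ∈ X i := by
  classical
  unfold wd
  rw [Finset.mem_union, Finset.mem_biUnion]

omit [DecidableEq ι] in
theorem wd_empty : wd V X ∅ = V := by
  ext a
  rw [mem_wd]
  simp

omit [DecidableEq ι] in
theorem wd_mono (h : I ⊆ J) : wd V X I ⊆ wd V X J := fun a ha => by
  rw [mem_wd] at ha ⊢
  exact ha.imp id fun ⟨i, hi, h'⟩ => ⟨i, h hi, h'⟩

/-- The structures do not interact with each other up to `t`. -/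
structure Gd (Φ : E3 → ℝ) (ε : ℝ) (L : ℕ) (V : Finset Src) (X : ι → Finset Src) (K : Finset ι)
    (t : ℝ) : Prop where
  /-- the structures are not in the base -/
  dV : ∀ i ∈ K, Disjoint V (X i)
  /-- the structures are disjoint -/
  dX : ∀ i ∈ K, ∀ j ∈ K, i ≠ j → Disjoint (X i) (X j)
  /-- no interaction -/
  ni : NI Φ ε L (fun J => (wd V X J : Set Src)) K t
  /-- no contacts -/
  nib : NIB Φ ε L (fun J => (wd V X J : Set Src)) K t

namespace Gd

variable (h : Gd Φ ε L V X K t)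
include h

theorem not_mem (hi : i ∈ K) (hx : x ∈ X i) : x ∉ V := fun hV =>
  Finset.disjoint_left.1 (h.dV i hi) hV hx

theorem mem_iff (hJ : J ⊆ K) (hi : i ∈ K) (hx : x ∈ X i) : x ∈ wd V X J ↔ i ∈ J := by
  rw [mem_wd]
  constructor
  · rintro (h1 | ⟨j, hj, h1⟩)
    · exact absurd h1 (h.not_mem hi hx)
    · by_cases hij : i = j
      · rw [hij]; exact hj
      · exact absurd h1 (Finset.disjoint_left.1 (h.dX i hi j (hJ hj) hij) hx)
  · exact fun h1 => Or.inr ⟨i, h1, hx⟩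

theorem cubeW [Nonempty ι] : CubeW (fun J => (wd V X J : Set Src)) K := by
  refine ⟨fun J _ => Finset.finite_toSet _, fun J hJ => ?_, fun σ => ?_⟩
  · exact Finset.coe_subset.2 (wd_mono hJ)
  · by_cases hσ : ∃ i ∈ K, σ ∈ X i
    · obtain ⟨i, hi, hσi⟩ := hσ
      refine ⟨i, fun J J' hJ hJ' hJJ => ?_⟩
      change (σ ∈ wd V X J) ↔ (σ ∈ wd V X J')
      rw [h.mem_iff hJ hi hσi, h.mem_iff hJ' hi hσi]
      exact hJJ
    · refine ⟨Classical.arbitrary ι, fun J J' hJ hJ' _ => ?_⟩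
      have h1 : ∀ J, J ⊆ K → (σ ∈ wd V X J ↔ σ ∈ V) := by
        intro J hJ
        rw [mem_wd]
        exact ⟨fun h2 => h2.elim id fun ⟨i, hi, h3⟩ => absurd ⟨i, hJ hi, h3⟩ hσ, Or.inl⟩
      change (σ ∈ wd V X J) ↔ (σ ∈ wd V X J')
      rw [h1 J hJ, h1 J' hJ']

theorem mono_time (hst : s ≤ t) : Gd Φ ε L V X K s :=
  ⟨h.dV, h.dX, ⟨fun i hi j hj hij r hr => h.ni.nohit i hi j hj hij r (hr.trans hst),
    fun i hi j hj hij r hr => h.ni.notie i hi j hj hij r (hr.trans hst)⟩,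
    ⟨fun i hi j hj hij r hr => h.nib.nocon i hi j hj hij r (hr.trans hst),
      fun i hi r hr => h.nib.nobad i hi r (hr.trans hst)⟩⟩

theorem labelDep [Nonempty ι] (hΦ : IsPotential Φ) (hε : 0 < ε) (a : Src) :
    ∃ i, LabelDep Φ ε L (fun J => (wd V X J : Set Src)) K t a i :=
  label_dep hΦ hε h.cubeW h.ni a

/-- The superposition cube. -/
theorem cube [Nonempty ι] (hΦ : IsPotential Φ) (hε : 0 < ε) :
    FB.Sys.Cube (Y Φ ε L hΦ hε) (wd V X) K t := by
  refine cube_of_dep fun a => ?_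
  obtain ⟨i, hi⟩ := sta_dep hΦ hε h.cubeW h.ni h.nib a
  exact ⟨i, hi⟩

omit h in
theorem transfer (hΦ : IsPotential Φ) (hε : 0 < ε) (h0 : ∀ a ∈ wd V X K, 0 ≤ a.1) (hI : I ⊆ K)
    (hJ : J ⊆ K) : (Y Φ ε L hΦ hε).Transfer (wd V X I) (wd V X J) :=
  Y_transfer hΦ hε (fun a ha => h0 a (wd_mono hI ha)) fun a ha => h0 a (wd_mono hJ ha)

/-- The particles of `X i` are altered by `i`. -/
theorem altd_of_mem (hi : i ∈ K) (hx : x ∈ X i) :
    altd Φ ε L (fun J => (wd V X J : Set Src)) i x s := by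
  rintro ⟨h1, -⟩
  simp only [Finset.mem_coe] at h1
  rw [h.mem_iff (Finset.empty_subset _) hi hx,
    h.mem_iff (Finset.singleton_subset_iff.2 hi) hi hx] at h1
  exact absurd (h1.2 (Finset.mem_singleton_self i)) (Finset.notMem_empty i)

theorem labelDep_of_mem [Nonempty ι] (hΦ : IsPotential Φ) (hε : 0 < ε) (hi : i ∈ K)
    (hx : x ∈ X i) : LabelDep Φ ε L (fun J => (wd V X J : Set Src)) K t x i := by
  obtain ⟨k, hk⟩ := h.labelDep hΦ hε x
  have := hk.eq_of_altd le_rfl hi (h.altd_of_mem hi hx (s := t))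
  rw [this]
  exact hk

/-- The statuses of the particles of `X i` are the same in all the worlds with `i`. -/
theorem stat_eq [Nonempty ι] (hΦ : IsPotential Φ) (hε : 0 < ε) (hi : i ∈ K) (hx : x ∈ X i)
    (hJ : J ⊆ K) (hiJ : i ∈ J) (hr : r ≤ t) :
    stat Φ ε L (wd V X J : Set Src) x r = stat Φ ε L (wd V X {i} : Set Src) x r :=
  (h.labelDep_of_mem hΦ hε hi hx J {i} hJ (Finset.singleton_subset_iff.2 hi)
    (by simp [hiJ])).2 r hr

/-- **The M-contacts of the particles of `X i`** are the same in all the worlds with `i`. -/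
theorem mcon_iff [Nonempty ι] (hΦ : IsPotential Φ) (hε : 0 < ε) (hi : i ∈ K) (hx : x ∈ X i)
    (hJ : J ⊆ K) (hiJ : i ∈ J) (hr : r ≤ t) :
    mcon Φ ε L (wd V X J : Set Src) r x b ↔ mcon Φ ε L (wd V X {i} : Set Src) r x b := by
  have hi1 : ({i} : Finset ι) ⊆ K := Finset.singleton_subset_iff.2 hi
  have hf : ∀ J : Finset ι, (wd V X J : Set Src).Finite := fun J => Finset.finite_toSet _
  have hxd := h.labelDep_of_mem hΦ hε hi hx
  have hxs : Same Φ ε L (wd V X J : Set Src) (wd V X {i} : Set Src) x r :=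
    (hxd J {i} hJ hi1 (by simp [hiJ])).mono hr
  obtain ⟨k, hk⟩ := h.labelDep hΦ hε b
  -- it is enough that `b` is the same
  have good : Same Φ ε L (wd V X J : Set Src) (wd V X {i} : Set Src) b r →
      (mcon Φ ε L (wd V X J : Set Src) r x b ↔ mcon Φ ε L (wd V X {i} : Set Src) r x b) :=
    fun hb => ⟨hxs.mcon hΦ hε (hf J) (hf {i}) hb, hxs.symm.mcon hΦ hε (hf {i}) (hf J) hb.symm⟩
  rcases hk.altd_or hr with ⟨hkK, hkb⟩ | hb
  swap
  · exact good (hb J {i} hJ hi1)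
  by_cases hki : k = i
  · subst hki
    exact good ((hk J {k} hJ hi1 (by simp [hiJ])).mono hr)
  · constructor
    · intro hm
      exfalso
      obtain ⟨I', hI', hIK', -, hIb⟩ := hk.exists_small hkK hJ
      obtain ⟨hne, T, T', h1, h2, h3, h4, h5⟩ := hm
      obtain ⟨S, k1, k2, k3⟩ := live_congr' hΦ hε (hf J) (hf {i}) (T := T)
        (by rw [h1]; exact hxs.1.1) (by rw [h1]; exact fun q hq => hxs.2 q hq.le) h3
      obtain ⟨S', k1', k2', k3'⟩ := live_congr' hΦ hε (hf J) (hf I') (T := T')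
        (by rw [h2]; exact hIb.1.1) (by rw [h2]; exact fun q hq => hIb.2 q (hq.le.trans hr)) h4
      refine h.nib.nocon i hi k hkK (fun h => hki h.symm) r hr x b hne (h.altd_of_mem hi hx) hkb
        {i} (Finset.Subset.refl _) I' hI' S S' (k1.trans h1) (k1'.trans h2) k2 k2' ?_
      rw [k3, k3']
      exact h5
    · intro hm
      exfalso
      have hb : Same Φ ε L (wd V X {i} : Set Src) (wd V X ∅ : Set Src) b r := by
        refine (hk {i} ∅ hi1 (Finset.empty_subset _) ?_).mono hr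
        simp [hki]
      obtain ⟨hne, T, T', h1, h2, h3, h4, h5⟩ := hm
      obtain ⟨S', k1', k2', k3'⟩ := live_congr' hΦ hε (hf {i}) (hf ∅) (T := T')
        (by rw [h2]; exact hb.1.1) (by rw [h2]; exact fun q hq => hb.2 q hq.le) h4
      refine h.nib.nocon i hi k hkK (fun h => hki h.symm) r hr x b hne (h.altd_of_mem hi hx) hkb
        {i} (Finset.Subset.refl _) ∅ (Finset.empty_subset _) T S' h1 (k1'.trans h2) h3 k2' ?_
      rw [k3']
      exact h5

/-- The sources of `X i` have the index `i`. -/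
theorem idx (hi : i ∈ K) (hx : x ∈ X i) : TL.Idx (fun J => (wd V X J : Set Src)) K i x :=
  fun _ hJ hm => (h.mem_iff hJ hi hx).1 (Finset.mem_coe.1 hm)

/-- **The hypotheses of TREE -> LINES**: the lines of `T` are distinct structures of the family. -/
theorem lgood [Nonempty ι] (hΦ : IsPotential Φ) (hε : 0 < ε) {B : Finset Src} {T : CTree} {ρ : ℝ}
    (hT : ok Φ ε T) (c : CTree → ι) (hc : ∀ x ∈ TL.outs T, c x ∈ K ∧
      TL.msrc Φ ε (TL.rho Φ ε T ρ) x ∈ X (c x)) (hinj : InjOn c (TL.outs T))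
    (hB : TL.lnw Φ ε B T ρ = wd V X K)
    (hBn : ∀ x ∈ TL.outs T, TL.msrc Φ ε (TL.rho Φ ε T ρ) x ∉ B) : TL.LGood Φ ε L B T ρ t := by
  have hl : TL.lwd Φ ε (TL.rho Φ ε T ρ) (B : Set Src) T = (wd V X K : Set Src) := by
    rw [← TL.coe_lnw hT, hB]
  have hid : ∀ x ∈ TL.outs T, TL.Idx (fun J => (wd V X J : Set Src)) K (c x)
      (TL.msrc Φ ε (TL.rho Φ ε T ρ) x) := fun x hx => h.idx (hc x hx).1 (hc x hx).2
  exact ⟨TL.inj_of_idx h.cubeW (Finset.Subset.refl K) hl c hid hinj, hBn,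
    TL.indep_of_NI hΦ hε h.cubeW h.ni (Finset.Subset.refl K) hl c hid hinj⟩

end Gd

/-! ### The first contact of a structure with the base -/

theorem dlt_subset_ins (hΦ : IsPotential Φ) (hε : 0 < ε) {W' X' : Finset Src}
    (hV : V ⊆ W') (hX : ∀ a ∈ W', a ∉ V → a ∈ X') (hd : Disjoint V X') {σ : ℝ}
    (hn : ∀ r < σ, ∀ x ∈ X', ∀ b ∉ X', ¬mcon Φ ε L (W' : Set Src) r x b) :
    (Y Φ ε L hΦ hε).Dlt V W' σ ⊆ (X' : Set Src) := by
  have hmem : ∀ a, ¬(a ∈ V ↔ a ∈ W') → a ∈ X' := by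
    intro a ha
    by_cases h1 : a ∈ V
    · exact absurd (iff_of_true h1 (hV h1)) ha
    · by_cases h2 : a ∈ W'
      · exact hX a h2 h1
      · exact absurd (iff_of_false h1 h2) ha
  refine Sys.dlt_subset (mc := fun W r a b => mcon Φ ε L (W : Set Src) r a b) (σ₁ := 0)
    (fun t a h1 h2 h3 h4 => new' V _ t a h1 h2 h3 h4) ?_ ?_ ?_ ?_ ?_
  · rintro a (⟨h1, h2⟩ | ⟨h1, h2⟩)
    · exact absurd (hV h1) h2
    · exact Finset.mem_coe.2 (hX a h1 h2)
  · intro a h1 h2 s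
    exact sta_eq_of_notMem (by simpa using h1) (by simpa using h2) s
  · rintro a ⟨s, hs, ha⟩
    exact Finset.mem_coe.2 (hmem a (D_neg hs ha))
  · intro r hr0 hr x hx b hb
    have hx : x ∈ X' := Finset.mem_coe.1 hx
    exact ⟨fun h => Finset.disjoint_left.1 hd (Finset.mem_coe.1 h.mem.2) hx,
      fun h => hn r hr x hx b (fun h => hb (Finset.mem_coe.2 h)) h.symm⟩
  · intro r hr0 hr x hx b hbx a ha hbD
    have hx : x ∈ X' := Finset.mem_coe.1 hx
    refine ⟨fun h => Finset.disjoint_left.1 hd (Finset.mem_coe.1 h.2.mem.2) hx, fun h => ?_⟩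
    exact hn r hr b (Finset.mem_coe.1 hbx) a (fun h => ha (Finset.mem_coe.2 h)) h.1.symm

/-- The first M-contact of a structure `X'` with the base `V` is a contact with an M-path of `V`. -/
theorem first_contact_ins (hΦ : IsPotential Φ) (hε : 0 < ε) {W' X' : Finset Src}
    (hV : V ⊆ W') (hX : ∀ a ∈ W', a ∉ V → a ∈ X') (hd : Disjoint V X')
    (hm : mcon Φ ε L (W' : Set Src) t x b) (hx : x ∈ X') (hb : b ∉ X') :
    ∃ r ≤ t, (∀ q < r, ∀ x ∈ X', ∀ b ∉ X', ¬mcon Φ ε L (W' : Set Src) q x b) ∧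
      ∃ x ∈ X', ∃ P S : CTree, P.root = x ∧ S.root ∈ V ∧ live Φ ε L (W' : Set Src) P r ∧
        live Φ ε L (V : Set Src) S r ∧ Ctc ε (st Φ ε P r) (st Φ ε S r) ∧
        mcon Φ ε L (W' : Set Src) r x S.root := by
  classical
  have hcl : DClosed {q | ∃ p ∈ X' ×ˢ (W' \ X'), q ∈ {q | mcon Φ ε L (W' : Set Src) q p.1 p.2}} :=
    DClosed.biUnion _ fun p _ => mcon_closed hΦ hε W'.finite_toSet p.1 p.2
  have hmem : ∀ q x b, x ∈ X' → b ∉ X' → mcon Φ ε L (W' : Set Src) q x b →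
      q ∈ {q | ∃ p ∈ X' ×ˢ (W' \ X'), q ∈ {q | mcon Φ ε L (W' : Set Src) q p.1 p.2}} := by
    intro q x b hx hb h
    exact ⟨(x, b), Finset.mem_product.2 ⟨hx, Finset.mem_sdiff.2
      ⟨Finset.mem_coe.1 h.mem.2, hb⟩⟩, h⟩
  obtain ⟨r, hr, ⟨⟨x', b'⟩, hp, hm'⟩, hfirst⟩ := hcl.first (m := 0)
    (fun q ⟨p, _, hq⟩ => mcon.nonneg hΦ hε hq) (t := t) (hmem t x b hx hb hm)
  rw [Finset.mem_product, Finset.mem_sdiff] at hp
  obtain ⟨hx', hb'W, hb'⟩ := hp
  have hm' : mcon Φ ε L (W' : Set Src) r x' b' := hm'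
  have hn : ∀ q < r, ∀ x ∈ X', ∀ b ∉ X', ¬mcon Φ ε L (W' : Set Src) q x b :=
    fun q hq x hx b hb h => hfirst q hq (hmem q x b hx hb h)
  have hbV : b' ∈ V := by
    by_contra hcon
    exact hb' (hX b' hb'W hcon)
  have hD := dlt_subset_ins (L := L) hΦ hε hV hX hd hn
  have hm'' := hm'
  obtain ⟨hne, P, S, h1, h2, h3, h4, h5⟩ := hm'
  obtain ⟨S', k1, k2, k3⟩ := live_congr' hΦ hε W'.finite_toSet V.finite_toSet (T := S)
    (fun _ => by rw [h2]; exact Finset.mem_coe.2 hbV)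
    (fun q hq => by
      rw [h2]
      by_contra hcon
      refine hb' (Finset.mem_coe.1 (hD ⟨q, hq, q, le_rfl, fun h => hcon ?_⟩))
      exact (stat_of_sta h).symm) h4
  refine ⟨r, hr, hn, x', hx', P, S', h1, ?_, h3, k2, ?_, ?_⟩
  · rw [k1, h2]
    exact hbV
  · rw [k3]
    exact h5
  · rw [k1, h2]
    exact hm''

end Vale.Agent.P119.FB
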