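import Vale.Agent.P119.FB.Step

/-!
# P119, feedback block: one step and contamination with first times (`helper336`)

The versions of `one_step` and `contam` in which nothing has touched before: they are used with the
stopping times (threshold transfer from the world `WA (E ∪ A)` to `WA ∅` or to `WA {e}`).
-/

open Set

namespace Vale.Agent.P119.FB

namespace Sys

variable {α S ι : Type*} {Y : Sys α S} [DecidableEq ι]

/-- First time of a finite family of touch events. -/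
theorem exists_first {κ : Type*} (F : Finset κ) (P Q : κ → Finset α) {t : ℝ}
    (h : ∃ i ∈ F, Y.Touch (P i) (Q i) t) :
    ∃ σ ≤ t, (∃ i ∈ F, Y.Touch (P i) (Q i) σ) ∧ ∀ s < σ, ∀ i ∈ F, ¬Y.Touch (P i) (Q i) s := by
  have hcl : DClosed {s | ∃ i ∈ F, s ∈ {s | Y.Touch (P i) (Q i) s}} :=
    DClosed.biUnion F fun i _ => touch_closed _ _
  obtain ⟨σ, hσ, h1, h2⟩ := hcl.first (m := 0) (fun s ⟨_, _, hs⟩ => Touch.nonneg hs) (t := t) h
  exact ⟨σ, hσ, h1, fun s hs i hi h' => h2 s hs ⟨i, hi, h'⟩⟩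

/-- **One step, with first times.**  Either a fresh line (an index of `A` or `B`) touches the base
at a time `σ` before which the world of the tree does not touch the base, or an exhaust `e` touches
the base and a second index touches the world of `e` at a time `σ₂` before which the world of the
tree does not touch the world of `e`. -/
theorem one_step_first {WA WB : Finset ι → Finset α} {E A B : Finset ι} {t : ℝ}
    (h0 : ∀ I ⊆ E, WA I = WB I) (hA : Cube Y WA (E ∪ A) t) (hB : Cube Y WB (E ∪ B) t)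
    (tA : ∀ I J, I ⊆ E ∪ A → J ⊆ E ∪ A → Y.Transfer (WA I) (WA J))
    (tB : ∀ I J, I ⊆ E ∪ B → J ⊆ E ∪ B → Y.Transfer (WB I) (WB J))
    (dA : Disjoint E A) (dB : Disjoint E B)
    (hT : Y.Touch (WA (E ∪ A)) (WB (E ∪ B)) t) :
    (∃ σ ≤ t, ((∃ i ∈ A, Y.Touch (WA ∅) (WA {i}) σ) ∨ ∃ j ∈ B, Y.Touch (WA ∅) (WB {j}) σ) ∧
      ∀ s < σ, ¬Y.Touch (WA ∅) (WA (E ∪ A)) s) ∨
    ∃ e ∈ E, ∃ σ σ₂, σ ≤ σ₂ ∧ σ₂ ≤ t ∧ Y.Touch (WA ∅) (WA {e}) σ ∧
      ((∃ i ∈ A, Y.Touch (WA {e}) (WA {e, i}) σ₂) ∨ (∃ j ∈ B, Y.Touch (WA {e}) (WB {e, j}) σ₂) ∨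
        ∃ e' ∈ E, e' ≠ e ∧ Y.Touch (WA {e}) (WA {e, e'}) σ₂) ∧
      ∀ s < σ₂, ¬Y.Touch (WA {e}) (WA (E ∪ A)) s := by
  classical
  have e0 : WA ∅ = WB ∅ := h0 ∅ (Finset.empty_subset _)
  have EA : E ⊆ E ∪ A := Finset.subset_union_left
  have EB : E ⊆ E ∪ B := Finset.subset_union_left
  have s1 : ∀ e ∈ E, WA {e} = WB {e} := fun e he => h0 {e} (by simpa using he)
  -- the family of the single insertions: `Sum.inl` for `WA`, `Sum.inr` for `WB`
  have hex : ∃ i ∈ (E ∪ A).disjSum B, Y.Touch (WA ∅)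
      (Sum.elim (fun i => WA {i}) (fun j => WB {j}) i) t := by
    rcases exists_touch e0 hA hB tA tB (Finset.Subset.refl _) (Finset.Subset.refl _) hT with
      ⟨i, hi, h⟩ | ⟨j, hj, h⟩
    · exact ⟨Sum.inl i, Finset.inl_mem_disjSum.2 hi, h⟩
    · rcases Finset.mem_union.1 hj with hj | hj
      · exact ⟨Sum.inl j, Finset.inl_mem_disjSum.2 (EA hj), by
          simp only [Sum.elim_inl]; rw [e0, s1 j hj]; exact h⟩
      · exact ⟨Sum.inr j, Finset.inr_mem_disjSum.2 hj, by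
          simp only [Sum.elim_inr]; rw [e0]; exact h⟩
  obtain ⟨σ, hσ, ⟨i, hi, hTi⟩, hfirst⟩ := exists_first ((E ∪ A).disjSum B) (fun _ => WA ∅)
    (Sum.elim (fun i => WA {i}) (fun j => WB {j})) hex
  have fA : ∀ s < σ, ∀ i ∈ E ∪ A, ¬Y.Touch (WA ∅) (WA {i}) s := fun s hs i hi h =>
    hfirst s hs (Sum.inl i) (Finset.inl_mem_disjSum.2 hi) h
  have fB : ∀ s < σ, ∀ j ∈ B, ¬Y.Touch (WA ∅) (WB {j}) s := fun s hs j hj h =>
    hfirst s hs (Sum.inr j) (Finset.inr_mem_disjSum.2 hj) h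
  have nU : ∀ s < σ, ¬Y.Touch (WA ∅) (WA (E ∪ A)) s := fun s hs =>
    (hA.mono (show s ≤ t by linarith)).superpose tA (fA s hs) _ (Finset.Subset.refl _)
  by_cases hfresh : (∃ i ∈ A, Y.Touch (WA ∅) (WA {i}) σ) ∨ ∃ j ∈ B, Y.Touch (WA ∅) (WB {j}) σ
  · exact Or.inl ⟨σ, hσ, hfresh, nU⟩
  right
  -- an exhaust is the first toucher
  obtain ⟨e, he, hTe⟩ : ∃ e ∈ E, Y.Touch (WA ∅) (WA {e}) σ := by
    rcases i with i | j
    · rw [Finset.inl_mem_disjSum] at hi
      rcases Finset.mem_union.1 hi with hi | hi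
      · exact ⟨i, hi, hTi⟩
      · exact absurd (Or.inl ⟨i, hi, hTi⟩) hfresh
    · rw [Finset.inr_mem_disjSum] at hi
      exact absurd (Or.inr ⟨j, hi, hTi⟩) hfresh
  have heA : e ∈ E ∪ A := EA he
  have heB : e ∈ E ∪ B := EB he
  obtain ⟨dE, dAB⟩ : (∀ i ∈ A, i ≠ e) ∧ ∀ j ∈ B, j ≠ e :=
    ⟨fun i hi h => Finset.disjoint_left.1 dA he (h ▸ hi),
      fun j hj h => Finset.disjoint_left.1 dB he (h ▸ hj)⟩
  -- faces over `e`
  have gA := hA.face heA
  have gB := hB.face heB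
  have i1 : ∀ I, I ⊆ (E ∪ A).erase e → insert e I ⊆ E ∪ A := fun I hI =>
    Finset.insert_subset heA (hI.trans (Finset.erase_subset _ _))
  have i2 : ∀ I, I ⊆ (E ∪ B).erase e → insert e I ⊆ E ∪ B := fun I hI =>
    Finset.insert_subset heB (hI.trans (Finset.erase_subset _ _))
  have e4 : WA (insert e ∅) = WB (insert e ∅) := by simpa using s1 e he
  have tA' : ∀ I J, I ⊆ (E ∪ A).erase e → J ⊆ (E ∪ A).erase e →
      Y.Transfer (WA (insert e I)) (WA (insert e J)) := fun I J hI hJ => tA _ _ (i1 I hI) (i1 J hJ)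
  have hT' : Y.Touch (WA (insert e ((E ∪ A).erase e))) (WB (insert e ((E ∪ B).erase e))) t := by
    rw [Finset.insert_erase heA, Finset.insert_erase heB]
    exact hT
  have e5 : ∀ j ∈ E, WA {e, j} = WB {e, j} := fun j hj => h0 _ (by
    intro k hk
    rcases Finset.mem_insert.1 hk with rfl | hk
    · exact he
    · rw [Finset.mem_singleton.1 hk]; exact hj)
  have hex2 : ∃ i ∈ ((E ∪ A).erase e).disjSum B, Y.Touch (WA {e})
      (Sum.elim (fun i => WA {e, i}) (fun j => WB {e, j}) i) t := by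
    rcases exists_touch (WA := fun I => WA (insert e I)) (WB := fun I => WB (insert e I)) e4 gA gB
      tA' (fun I J hI hJ => tB _ _ (i2 I hI) (i2 J hJ))
      (Finset.Subset.refl _) (Finset.Subset.refl _) hT' with ⟨i, hi, h⟩ | ⟨j, hj, h⟩
    · exact ⟨Sum.inl i, Finset.inl_mem_disjSum.2 hi, by simpa using h⟩
    · rw [Finset.mem_erase, Finset.mem_union] at hj
      rcases hj.2 with h2 | h2
      · refine ⟨Sum.inl j, Finset.inl_mem_disjSum.2 (Finset.mem_erase.2 ⟨hj.1, EA h2⟩), ?_⟩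
        simp only [Sum.elim_inl]
        rw [s1 e he, e5 j h2]
        simpa using h
      · refine ⟨Sum.inr j, Finset.inr_mem_disjSum.2 h2, ?_⟩
        simp only [Sum.elim_inr]
        rw [s1 e he]
        simpa using h
  obtain ⟨σ₂, hσ₂, ⟨i₂, hi₂, hTi₂⟩, hfirst₂⟩ := exists_first (((E ∪ A).erase e).disjSum B)
    (fun _ => WA {e}) (Sum.elim (fun i => WA {e, i}) (fun j => WB {e, j})) hex2
  have nU₂ : ∀ s < σ₂, ¬Y.Touch (WA {e}) (WA (E ∪ A)) s := fun s hs => by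
    have h1 := (gA.mono (show s ≤ t by linarith)).superpose tA' (fun i hi h =>
      hfirst₂ s hs (Sum.inl i) (Finset.inl_mem_disjSum.2 hi) (by simpa using h)) _
      (Finset.Subset.refl _)
    rw [Finset.insert_erase heA] at h1
    simpa using h1
  have hle : σ ≤ σ₂ := by
    by_contra hcon
    rw [not_le] at hcon
    rcases i₂ with i | j
    · rw [Finset.inl_mem_disjSum, Finset.mem_erase] at hi₂
      exact hA.not_touch_pair tA heA hi₂.2 hi₂.1.symm (by linarith) (fA σ₂ hcon e heA)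
        (fA σ₂ hcon i hi₂.2) hTi₂
    · rw [Finset.inr_mem_disjSum] at hi₂
      simp only [Sum.elim_inr] at hTi₂
      rw [s1 e he] at hTi₂
      refine hB.not_touch_pair tB heB (Finset.mem_union_right _ hi₂) (dAB j hi₂).symm
        (show σ₂ ≤ t by linarith) ?_ ?_ hTi₂
      · rw [← e0, ← s1 e he]; exact fA σ₂ hcon e heA
      · rw [← e0]; exact fB σ₂ hcon j hi₂
  refine ⟨e, he, σ, σ₂, hle, hσ₂, hTe, ?_, nU₂⟩
  rcases i₂ with i | j
  · rw [Finset.inl_mem_disjSum, Finset.mem_erase, Finset.mem_union] at hi₂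
    rcases hi₂.2 with h | h
    · exact Or.inr (Or.inr ⟨i, h, hi₂.1, hTi₂⟩)
    · exact Or.inl ⟨i, h, hTi₂⟩
  · rw [Finset.inr_mem_disjSum] at hi₂
    exact Or.inr (Or.inl ⟨j, hi₂, hTi₂⟩)

/-- **Contamination, with first times.** -/
theorem contam_first {W : Finset ι → Finset α} {E : Finset ι} {r : ι} {τ : ℝ}
    (h : Cube Y W (insert r E) τ)
    (hT : ∀ I J, I ⊆ insert r E → J ⊆ insert r E → Y.Transfer (W I) (W J)) (hr : r ∉ E)
    {a : α} (ha : ∀ I ⊆ E, a ∈ Y.D (W I) (W (insert r E)) τ)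
    (he : Y.Exp (W (insert r E)) a τ) :
    (∃ σ ≤ τ, Y.Touch (W ∅) (W {r}) σ ∧ ∀ s < σ, ¬Y.Touch (W ∅) (W (insert r E)) s) ∨
    ∃ e ∈ E, ∃ σ σ₂, σ ≤ σ₂ ∧ σ₂ ≤ τ ∧ Y.Touch (W ∅) (W {e}) σ ∧
      (∃ m ∈ insert r E, m ≠ e ∧ Y.Touch (W {e}) (W {e, m}) σ₂) ∧
      ∀ s < σ₂, ¬Y.Touch (W {e}) (W (insert r E)) s := by
  classical
  have hTo : Y.Touch (W ∅) (W (insert r E)) τ := ⟨a, ha _ (Finset.empty_subset _), Or.inr he⟩
  have hex := (h.touch_iff hT (Finset.Subset.refl _)).1 hTo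
  obtain ⟨σ, hσ, ⟨i, hi, hTi⟩, hfirst⟩ := exists_first (insert r E) (fun _ => W ∅)
    (fun i => W {i}) hex
  have nU : ∀ s < σ, ¬Y.Touch (W ∅) (W (insert r E)) s := fun s hs =>
    (h.mono (show s ≤ τ by linarith)).superpose hT (hfirst s hs) _ (Finset.Subset.refl _)
  by_cases hrT : Y.Touch (W ∅) (W {r}) σ
  · exact Or.inl ⟨σ, hσ, hrT, nU⟩
  right
  have hiE : i ∈ E := by
    rcases Finset.mem_insert.1 hi with rfl | h1
    · exact absurd hTi hrT
    · exact h1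
  have hf := h.face hi
  have i1 : ∀ I, I ⊆ (insert r E).erase i → insert i I ⊆ insert r E := fun I hI =>
    Finset.insert_subset hi (hI.trans (Finset.erase_subset _ _))
  have hT' : ∀ I J, I ⊆ (insert r E).erase i → J ⊆ (insert r E).erase i →
      Y.Transfer (W (insert i I)) (W (insert i J)) := fun I J hI hJ => hT _ _ (i1 I hI) (i1 J hJ)
  have hTo2 : Y.Touch (W (insert i ∅)) (W (insert i ((insert r E).erase i))) τ := by
    rw [Finset.insert_erase hi]
    refine ⟨a, ha _ (by simpa using hiE), Or.inr he⟩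
  have hex2 := (hf.touch_iff hT' (Finset.Subset.refl _)).1 hTo2
  obtain ⟨σ₂, hσ₂, ⟨m, hm, hTm⟩, hfirst₂⟩ := exists_first ((insert r E).erase i)
    (fun _ => W (insert i ∅)) (fun m => W (insert i {m})) hex2
  rw [Finset.mem_erase] at hm
  have nU₂ : ∀ s < σ₂, ¬Y.Touch (W {i}) (W (insert r E)) s := fun s hs => by
    have h1 := (hf.mono (show s ≤ τ by linarith)).superpose hT' (hfirst₂ s hs) _
      (Finset.Subset.refl _)
    rw [Finset.insert_erase hi] at h1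
    simpa using h1
  have hTm' : Y.Touch (W {i}) (W {i, m}) σ₂ := by simpa using hTm
  refine ⟨i, hiE, σ, σ₂, ?_, hσ₂, hTi, ⟨m, hm.2, hm.1, hTm'⟩, nU₂⟩
  by_contra hcon
  rw [not_le] at hcon
  exact h.not_touch_pair hT hi hm.2 hm.1.symm (by linarith) (hfirst σ₂ hcon i hi)
    (hfirst σ₂ hcon m hm.2) hTm'

end Sys

end Vale.Agent.P119.FB
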