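import Vale.Agent.P119.FB.Tie

/-!
# P119, feedback block: change of the base of a cube (`helper909`)

* `Cube.flip`: the cube seen from its vertex `W E`;
* `Cube.touch_last`: if `r` is one of the first indices that touch the base, then `r` touches also in
  the presence of all the others.
-/

open Set

namespace Vale.Agent.P119.FB

namespace Sys

variable {α S ι : Type*} {Y : Sys α S} [DecidableEq ι] {W : Finset ι → Finset α} {K : Finset ι}
  {t σ : ℝ}

namespace Cube

theorem D_symmDiff (h : Cube Y W K t) {E : Finset ι} (hE : E ⊆ K) {i : ι} (hi : i ∈ K) :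
    Y.D (W E) (W (symmDiff E {i})) t = Y.D (W ∅) (W {i}) t := by
  by_cases hiE : i ∈ E
  · have h1 : symmDiff E {i} = E.erase i := by
      ext k
      simp only [Finset.mem_symmDiff, Finset.mem_singleton, Finset.mem_erase]
      constructor
      · rintro (⟨h1, h2⟩ | ⟨rfl, h2⟩)
        · exact ⟨h2, h1⟩
        · exact absurd hiE h2
      · rintro ⟨h1, h2⟩
        exact Or.inl ⟨h2, h1⟩
    have h2 := h.D_insert ((Finset.erase_subset i E).trans hE) hi (Finset.notMem_erase i E)
    rw [Finset.insert_erase hiE] at h2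
    rw [h1, D_comm, h2]
  · have h1 : symmDiff E {i} = insert i E := by
      ext k
      simp only [Finset.mem_symmDiff, Finset.mem_singleton, Finset.mem_insert]
      constructor
      · rintro (⟨h1, -⟩ | ⟨h1, -⟩)
        · exact Or.inr h1
        · exact Or.inl h1
      · rintro (rfl | h1)
        · exact Or.inr ⟨rfl, hiE⟩
        · exact Or.inl ⟨h1, fun h2 => hiE (h2 ▸ h1)⟩
    rw [h1, h.D_insert hE hi hiE]

/-- **The cube seen from `W E`.** -/
theorem flip (h : Cube Y W K t) {E : Finset ι} (hE : E ⊆ K) :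
    Cube Y (fun I => W (symmDiff E I)) K t := by
  have e0 : symmDiff E (∅ : Finset ι) = E := by
    ext k
    simp [Finset.mem_symmDiff]
  have hsub : ∀ I ⊆ K, symmDiff E I ⊆ K := by
    intro I hI k hk
    rcases Finset.mem_symmDiff.1 hk with h1 | h1
    · exact hE h1.1
    · exact hI h1.1
  refine ⟨fun i hi j hj hij a h1 h2 => ?_, fun I J hI hJ a ha => ?_⟩
  · change a ∈ Y.D (W (symmDiff E ∅)) (W (symmDiff E {i})) t at h1
    change a ∈ Y.D (W (symmDiff E ∅)) (W (symmDiff E {j})) t at h2
    rw [e0, h.D_symmDiff hE hi] at h1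
    rw [e0, h.D_symmDiff hE hj] at h2
    exact h.disj i hi j hj hij a h1 h2
  · refine h.eq _ _ (hsub I hI) (hsub J hJ) a fun i hi hia => ?_
    have h1 := ha i hi (by
      rw [e0, h.D_symmDiff hE hi]
      exact hia)
    rw [Finset.mem_symmDiff, Finset.mem_symmDiff, h1]

/-- An index which touches the base at the first time touches at that time in the presence of all
the others. -/
theorem touch_last {E : Finset ι} {r : ι} (h : Cube Y W (insert r E) σ) (hr : r ∉ E)
    (hL : ∀ I J, I ⊆ insert r E → J ⊆ insert r E → Loc Y (W I) (W J))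
    (hP : ∀ I J, I ⊆ insert r E → J ⊆ insert r E → Part Y (W I) (W J))
    (hn : ∀ i ∈ insert r E, ∀ s < σ, ¬Y.Touch (W ∅) (W {i}) s)
    (hT : Y.Touch (W ∅) (W {r}) σ) : Y.Touch (W E) (W (insert r E)) σ := by
  have hE : E ⊆ insert r E := Finset.subset_insert r E
  have hsub : ∀ I ⊆ insert r E, symmDiff E I ⊆ insert r E := by
    intro I hI k hk
    rcases Finset.mem_symmDiff.1 hk with h1 | h1
    · exact hE h1.1
    · exact hI h1.1
  have e0 : symmDiff E (∅ : Finset ι) = E := by
    ext k
    simp [Finset.mem_symmDiff]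
  have e1 : symmDiff E E = ∅ := by
    simp
  have e2 : symmDiff E (insert r E) = {r} := by
    ext k
    simp only [Finset.mem_symmDiff, Finset.mem_insert, Finset.mem_singleton]
    constructor
    · rintro (⟨h1, h2⟩ | ⟨h1, h2⟩)
      · exact absurd (Or.inr h1) h2
      · exact h1.resolve_right h2
    · rintro rfl
      exact Or.inr ⟨Or.inl rfl, hr⟩
  have e3 : symmDiff E {r} = insert r E := by
    ext k
    simp only [Finset.mem_symmDiff, Finset.mem_insert, Finset.mem_singleton]
    constructor
    · rintro (⟨h1, -⟩ | ⟨h1, -⟩)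
      · exact Or.inr h1
      · exact Or.inl h1
    · rintro (rfl | h1)
      · exact Or.inr ⟨rfl, hr⟩
      · exact Or.inl ⟨h1, fun h2 => hr (h2 ▸ h1)⟩
  have hT' : ∀ I J, I ⊆ insert r E → J ⊆ insert r E → Y.Transfer (W I) (W J) := fun I J hI hJ =>
    (hL I J hI hJ).transfer
  have h1 := (h.flip hE).touch_tie (fun I J hI hJ => hL _ _ (hsub I hI) (hsub J hJ))
    (fun I J hI hJ => hP _ _ (hsub I hI) (hsub J hJ))
    (fun i hi s hs => h.not_touch_before hT' hn (hsub ∅ (Finset.empty_subset _))
      (hsub {i} (Finset.singleton_subset_iff.2 hi)) hs) (A := E) (B := insert r E) hE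
    (Finset.Subset.refl _) (by rw [e1, e2]; exact hT)
  obtain ⟨j, hj, hjE, h2⟩ := h1
  have hjr : j = r := by
    rcases Finset.mem_insert.1 hj with h3 | h3
    · exact h3
    · exact absurd (iff_of_true h3 hj) hjE
  subst hjr
  rwa [e0, e3] at h2

end Cube

end Sys

end Vale.Agent.P119.FB
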