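import Vale.Agent.P119.FB.Conc2

/-!
# P119, feedback block: contact of a free colliding pair with the exposed particles (`helper119`)

`pair_direct`: two sources `a`, `l` are inserted in the world `u`; they have no M-contacts with
others before the end of their collision.  If they touch `u` before the end of the collision, then
one of the two free lines (before the collision) or one of the two paths of the colliding pair is in
contact with the real path of a particle exposed in `u`.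
-/

open MeasureTheory Filter Topology Set

noncomputable section

namespace Vale.Agent.P119.FB

open M CTree KU RB

variable {Φ : E3 → ℝ} {ε : ℝ} {L : ℕ}

/-- Two sources `a`, `l` inserted in the world `u`, whose first contacts are with each other. -/
structure FreePair (Φ : E3 → ℝ) (ε : ℝ) (L : ℕ) (u : Finset Src) (a l : Src) : Prop where
  /-- `a` is new -/
  ha : a ∉ u
  /-- `l` is new -/
  hl : l ∉ u
  /-- `a ≠ l` -/
  hal : a ≠ l
  /-- births in `u` -/
  h0 : ∀ b ∈ u, 0 ≤ b.1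
  /-- birth of `a` -/
  a0 : 0 ≤ a.1
  /-- birth of `l` -/
  l0 : 0 ≤ l.1
  /-- depth of `a` -/
  ad : a.2.2 ≤ L
  /-- depth of `l` -/
  ld : l.2.2 ≤ L
  /-- the collision -/
  ok : M.CTree.ok Φ ε (node (leaf a) (leaf l))
  /-- the depth of the collision -/
  depth : (node (leaf a) (leaf l)).depth ≤ L
  /-- no M-contacts with others -/
  H1 : ∀ r < ext Φ ε (node (leaf a) (leaf l)), ∀ b, b ≠ a → b ≠ l →
    ¬mcon Φ ε L (insert a (insert l u) : Finset Src) r a b ∧
      ¬mcon Φ ε L (insert a (insert l u) : Finset Src) r l b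
  /-- no M-contact with each other before the collision -/
  H2 : ∀ r < sig Φ ε (node (leaf a) (leaf l)),
    ¬mcon Φ ε L (insert a (insert l u) : Finset Src) r a l

variable {hΦ : IsPotential Φ} {hε : 0 < ε} {u : Finset Src} {a l : Src} {r σ : ℝ}

theorem FreePair.mem_a (_h : FreePair Φ ε L u a l) : a ∈ insert a (insert l u) :=
  Finset.mem_insert_self _ _

theorem FreePair.mem_l (_h : FreePair Φ ε L u a l) : l ∈ insert a (insert l u) :=
  Finset.mem_insert_of_mem (Finset.mem_insert_self _ _)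

theorem FreePair.births (h : FreePair Φ ε L u a l) : ∀ b ∈ insert a (insert l u), 0 ≤ b.1 := by
  intro b hb
  rcases Finset.mem_insert.1 hb with rfl | hb
  · exact h.a0
  rcases Finset.mem_insert.1 hb with rfl | hb
  · exact h.l0
  · exact h.h0 b hb

theorem FreePair.sub (_h : FreePair Φ ε L u a l) : u ⊆ insert a (insert l u) :=
  (Finset.subset_insert _ _).trans (Finset.subset_insert _ _)

theorem FreePair.mem_or (_h : FreePair Φ ε L u a l) {b : Src} (hb : b ∈ insert a (insert l u))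
    (h1 : b ≠ a) (h2 : b ≠ l) : b ∈ u := by
  rcases Finset.mem_insert.1 hb with h | hb
  · exact absurd h h1
  rcases Finset.mem_insert.1 hb with h | hb
  · exact absurd h h2
  · exact hb

theorem FreePair.no_a (h : FreePair Φ ε L u a l) (hΦ : IsPotential Φ) (hε : 0 < ε)
    (hr : r < sig Φ ε (node (leaf a) (leaf l))) (b : Src) :
    ¬mcon Φ ε L ((insert a (insert l u) : Finset Src) : Set Src) r a b := by
  intro hm
  by_cases h1 : b = a
  · exact hm.1 h1.symm
  by_cases h2 : b = l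
  · rw [h2] at hm
    exact h.H2 r hr hm
  · exact (h.H1 r (hr.trans (sig_lt_ext hΦ hε h.ok)) b h1 h2).1 hm

theorem FreePair.no_l (h : FreePair Φ ε L u a l) (hΦ : IsPotential Φ) (hε : 0 < ε)
    (hr : r < sig Φ ε (node (leaf a) (leaf l))) (b : Src) :
    ¬mcon Φ ε L ((insert a (insert l u) : Finset Src) : Set Src) r l b := by
  intro hm
  by_cases h1 : b = a
  · rw [h1] at hm
    exact h.H2 r hr hm.symm
  by_cases h2 : b = l
  · exact hm.1 h2.symm
  · exact (h.H1 r (hr.trans (sig_lt_ext hΦ hε h.ok)) b h1 h2).2 hm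

theorem FreePair.live_a (h : FreePair Φ ε L u a l) (hΦ : IsPotential Φ) (hε : 0 < ε)
    (hb : a.1 ≤ r) (hr : r ≤ sig Φ ε (node (leaf a) (leaf l))) :
    live Φ ε L ((insert a (insert l u) : Finset Src) : Set Src) (leaf a) r :=
  live_leaf_of hΦ hε (Finset.finite_toSet _) (Finset.mem_coe.2 h.mem_a) h.a0 h.ad hb
    fun _ hq b => h.no_a hΦ hε (hq.trans_le hr) b

theorem FreePair.live_l (h : FreePair Φ ε L u a l) (hΦ : IsPotential Φ) (hε : 0 < ε)
    (hb : l.1 ≤ r) (hr : r ≤ sig Φ ε (node (leaf a) (leaf l))) :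
    live Φ ε L ((insert a (insert l u) : Finset Src) : Set Src) (leaf l) r :=
  live_leaf_of hΦ hε (Finset.finite_toSet _) (Finset.mem_coe.2 h.mem_l) h.l0 h.ld hb
    fun _ hq b => h.no_l hΦ hε (hq.trans_le hr) b

theorem FreePair.live_y (h : FreePair Φ ε L u a l) (hΦ : IsPotential Φ) (hε : 0 < ε)
    (h1 : sig Φ ε (node (leaf a) (leaf l)) ≤ r) (h2 : r ≤ ext Φ ε (node (leaf a) (leaf l))) :
    live Φ ε L ((insert a (insert l u) : Finset Src) : Set Src) (node (leaf a) (leaf l)) r := by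
  have ho := h.ok
  have ea : ext Φ ε (leaf a) < sig Φ ε (node (leaf a) (leaf l)) := ho.2.2.2.2.2.1
  have el : ext Φ ε (leaf l) < sig Φ ε (node (leaf a) (leaf l)) := ho.2.2.2.2.2.2
  have hW := Finset.finite_toSet (insert a (insert l u))
  refine pair_live hΦ hε hW ho h.depth ?_ ?_ (fun r _ hr b hb1 hb2 => h.H1 r hr b hb1 hb2) h1 h2
  · exact (alive_iff_live hΦ hε hW).2 ⟨h.live_a hΦ hε (le_of_lt ea) le_rfl, ea.le⟩
  · exact (alive_iff_live hΦ hε hW).2 ⟨h.live_l hΦ hε (le_of_lt el) le_rfl, el.le⟩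

theorem FreePair.lives_y (h : FreePair Φ ε L u a l) (hΦ : IsPotential Φ) (hε : 0 < ε)
    (h1 : sig Φ ε (node (leaf a) (leaf l)) ≤ r) (h2 : r < ext Φ ε (node (leaf a) (leaf l))) :
    lives Φ ε L ((insert a (insert l u) : Finset Src) : Set Src) (node (leaf a) (leaf l)) r :=
  (h.live_y hΦ hε (h1.trans h2.le) le_rfl).lives_of_lt h2 h1

/-- The members of the pair are not bad before the end of the collision. -/
theorem FreePair.not_badi (h : FreePair Φ ε L u a l) (hΦ : IsPotential Φ) (hε : 0 < ε)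
    (hr : r < ext Φ ε (node (leaf a) (leaf l))) :
    ¬badi Φ ε L ((insert a (insert l u) : Finset Src) : Set Src) a r ∧
      ¬badi Φ ε L ((insert a (insert l u) : Finset Src) : Set Src) l r := by
  have hW := Finset.finite_toSet (insert a (insert l u))
  rcases lt_or_ge r (sig Φ ε (node (leaf a) (leaf l))) with h1 | h1
  · constructor
    · intro hb
      have h2 : stat Φ ε L ((insert a (insert l u) : Finset Src) : Set Src) a r = some (leaf a) :=
        (stat_eq_some_iff hΦ hε hW).2 ⟨rfl, lives_leaf hΦ hε hW (Finset.mem_coe.2 h.mem_a)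
          h.a0 h.ad hb.2.2.1 fun q hq b => h.no_a hΦ hε (hq.trans_lt h1) b⟩
      exact not_badi_of_no_mcon h2 (fun b => h.no_a hΦ hε h1 b) hb
    · intro hb
      have h2 : stat Φ ε L ((insert a (insert l u) : Finset Src) : Set Src) l r = some (leaf l) :=
        (stat_eq_some_iff hΦ hε hW).2 ⟨rfl, lives_leaf hΦ hε hW (Finset.mem_coe.2 h.mem_l)
          h.l0 h.ld hb.2.2.1 fun q hq b => h.no_l hΦ hε (hq.trans_lt h1) b⟩
      exact not_badi_of_no_mcon h2 (fun b => h.no_l hΦ hε h1 b) hb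
  · exact not_badi_pair hΦ hε hW (h.lives_y hΦ hε h1 hr) hr fun b hb1 hb2 => h.H1 r hr b hb1 hb2

theorem FreePair.not_badc (h : FreePair Φ ε L u a l) (hΦ : IsPotential Φ) (hε : 0 < ε)
    (hr : r < ext Φ ε (node (leaf a) (leaf l))) :
    ¬badc Φ ε L ((insert a (insert l u) : Finset Src) : Set Src) a r ∧
      ¬badc Φ ε L ((insert a (insert l u) : Finset Src) : Set Src) l r :=
  ⟨fun ⟨_, hq, hb⟩ => (h.not_badi hΦ hε (hq.trans_lt hr)).1 hb,
    fun ⟨_, hq, hb⟩ => (h.not_badi hΦ hε (hq.trans_lt hr)).2 hb⟩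

/-- Nothing else is different before the end of the collision. -/
theorem FreePair.dlt_subset (h : FreePair Φ ε L u a l)
    (hσ : σ ≤ ext Φ ε (node (leaf a) (leaf l))) :
    (Y Φ ε L hΦ hε).Dlt u (insert a (insert l u)) σ ⊆ {a, l} := by
  have hmem : ∀ b, ¬(b ∈ u ↔ b ∈ insert a (insert l u)) → b = a ∨ b = l := by
    intro b hb
    by_contra hne
    push Not at hne
    exact hb (by simp [Finset.mem_insert, hne])
  have hX : ∀ x ∈ ({a, l} : Set Src), x ∉ u := by
    rintro x (rfl | hx)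
    · exact h.ha
    · rw [mem_singleton_iff.1 hx]
      exact h.hl
  have hmc : ∀ r < σ, ∀ x ∈ ({a, l} : Set Src), ∀ b, b ∉ ({a, l} : Set Src) →
      ¬mcon Φ ε L ((insert a (insert l u) : Finset Src) : Set Src) r b x := by
    intro r hr x hx b hb hm
    have hb1 : b ≠ a := fun h => hb (Or.inl h)
    have hb2 : b ≠ l := fun h => hb (Or.inr h)
    rcases hx with rfl | hx
    · exact (h.H1 r (hr.trans_le hσ) b hb1 hb2).1 hm.symm
    · rw [mem_singleton_iff.1 hx] at hm
      exact (h.H1 r (hr.trans_le hσ) b hb1 hb2).2 hm.symm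
  refine Sys.dlt_subset (mc := fun W r a b => mcon Φ ε L (W : Set Src) r a b) (σ₁ := 0)
    (fun t a h1 h2 h3 h4 => new' u _ t a h1 h2 h3 h4) ?_ ?_ ?_ ?_ ?_
  · rintro b (⟨h1, h2⟩ | ⟨h1, h2⟩)
    · exact absurd (h.sub h1) h2
    · exact hmem b fun h => h2 (h.2 h1)
  · intro b h1 h2 s
    exact sta_eq_of_notMem (by simpa using h1) (by simpa using h2) s
  · rintro b ⟨s, hs, hb⟩
    exact hmem b (D_neg hs hb)
  · intro r _ hr x hx b hb
    exact ⟨fun hm => hX x hx (Finset.mem_coe.1 hm.mem.2), hmc r hr x hx b hb⟩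
  · intro r _ hr x hx b hb c hc _
    exact ⟨fun hm => hX x hx (Finset.mem_coe.1 hm.2.mem.2), fun hm => hmc r hr b hb c hc hm.1⟩

theorem FreePair.mem_D_a (h : FreePair Φ ε L u a l) (s : ℝ) :
    a ∈ (Y Φ ε L hΦ hε).D u (insert a (insert l u)) s :=
  mem_D_of_mem (fun h' => h.ha (h'.2 h.mem_a)) s

theorem FreePair.mem_D_l (h : FreePair Φ ε L u a l) (s : ℝ) :
    l ∈ (Y Φ ε L hΦ hε).D u (insert a (insert l u)) s :=
  mem_D_of_mem (fun h' => h.hl (h'.2 h.mem_l)) s

/-- Nobody is newly bad before the end of the collision. -/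
theorem FreePair.bad_of_bad (h : FreePair Φ ε L u a l) (hΦ : IsPotential Φ) (hε : 0 < ε)
    (hr : r < ext Φ ε (node (leaf a) (leaf l))) {c : Src}
    (hc : badc Φ ε L ((insert a (insert l u) : Finset Src) : Set Src) c r) :
    badc Φ ε L (u : Set Src) c r := by
  have hca : c ≠ a := fun h' => (h.not_badc hΦ hε hr).1 (h' ▸ hc)
  have hcl : c ≠ l := fun h' => (h.not_badc hΦ hε hr).2 (h' ▸ hc)
  have hcu : c ∈ u := h.mem_or (Finset.mem_coe.1 hc.mem) hca hcl
  have hD : (Y Φ ε L hΦ hε).Dlt u (insert a (insert l u)) r ⊆ {a, l} := h.dlt_subset hr.le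
  have hcD : c ∉ (Y Φ ε L hΦ hε).Dlt u (insert a (insert l u)) r := by
    intro h'
    rcases hD h' with h' | h'
    · exact hca h'
    · exact hcl h'
  by_contra hcon
  have hD' : c ∈ (Y Φ ε L hΦ hε).D u (insert a (insert l u)) r := by
    refine ⟨r, le_rfl, fun h' => hcon ?_⟩
    have := badc_of_sta h'
    rw [this]
    exact hc
  obtain ⟨b, hb, z, hz, h3⟩ := new' u (insert a (insert l u)) r c hcu (h.sub hcu) hD' hcD
  have hba : b ≠ a := by
    rintro rfl
    exact hb ⟨r - 1, by linarith, h.mem_D_a _⟩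
  have hbl : b ≠ l := by
    rintro rfl
    exact hb ⟨r - 1, by linarith, h.mem_D_l _⟩
  have hz' := hD hz
  rcases h3 with ⟨-, h4⟩ | ⟨-, h4⟩
  · rcases hz' with rfl | hz'
    · exact h.ha (Finset.mem_coe.1 h4.mem.2)
    · rw [mem_singleton_iff.1 hz'] at h4
      exact h.hl (Finset.mem_coe.1 h4.mem.2)
  · rcases hz' with rfl | hz'
    · exact (h.H1 r hr b hba hbl).1 h4.symm
    · rw [mem_singleton_iff.1 hz'] at h4
      exact (h.H1 r hr b hba hbl).2 h4.symm

/-- **PAIR.**  The first touch of the pair before the end of its collision is a contact of one of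
the free lines (before the collision) or of one of the paths of the colliding pair with the real path
of an exposed particle of `u`. -/
theorem pair_direct (h : FreePair Φ ε L u a l) (hσ : σ < ext Φ ε (node (leaf a) (leaf l)))
    (ht : (Y Φ ε L hΦ hε).Touch u (insert a (insert l u)) σ)
    (hfirst : ∀ q < σ, ¬(Y Φ ε L hΦ hε).Touch u (insert a (insert l u)) q) :
    ∃ r ≤ σ, ∃ b, (Y Φ ε L hΦ hε).Exp u b r ∧ b.1 ≤ r ∧
      ((r < sig Φ ε (node (leaf a) (leaf l)) ∧
        ((a.1 ≤ r ∧ Ctc ε (free r a.2.1) (XR Φ ε u r b)) ∨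
          (l.1 ≤ r ∧ Ctc ε (free r l.2.1) (XR Φ ε u r b)))) ∨
        (sig Φ ε (node (leaf a) (leaf l)) ≤ r ∧
          (Ctc ε (pairLine Φ ε (a.2.1, l.2.1) r).1 (XR Φ ε u r b) ∨
            Ctc ε (pairLine Φ ε (a.2.1, l.2.1) r).2 (XR Φ ε u r b)))) := by
  have hD : (Y Φ ε L hΦ hε).Dlt u (insert a (insert l u)) σ ⊆ {a, l} := h.dlt_subset hσ.le
  have hX : ∀ x ∈ ({a, l} : Set Src), x ∉ u := by
    rintro x (rfl | hx)
    · exact h.ha
    · rw [mem_singleton_iff.1 hx]
      exact h.hl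
  have hXD : ∀ x ∈ ({a, l} : Set Src), ∀ s,
      x ∈ (Y Φ ε L hΦ hε).D u (insert a (insert l u)) s := by
    rintro x (rfl | hx) s
    · exact h.mem_D_a s
    · rw [mem_singleton_iff.1 hx]
      exact h.mem_D_l s
  rcases Sys.direct (X := {a, l}) (fun h => RB.con.symm h) h.sub hX
    (Y_loc hΦ hε h.h0 h.births) hD ht hfirst with
    ⟨x, hx, b, r, hr, hb, hc⟩ | ⟨c, r, hr, h1, h2⟩
  swap
  · exact absurd (h.bad_of_bad hΦ hε (hr.trans_lt hσ) h1) h2
  have hbu : b ∈ u := hb.mem
  have hba : b ≠ a := fun h' => h.ha (h' ▸ hbu)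
  have hbl : b ≠ l := fun h' => h.hl (h' ▸ hbu)
  have hbD : b ∉ (Y Φ ε L hΦ hε).Dlt u (insert a (insert l u)) r := by
    rintro ⟨q, hq, hz⟩
    rcases hD ⟨q, by linarith, hz⟩ with h' | h'
    · exact hba h'
    · exact hbl h'
  have hxr : x.1 ≤ r := (RB.con.birth_le hΦ hε hc).1
  have hbr : b.1 ≤ r := (RB.con.birth_le hΦ hε hc).2
  have hre : r < ext Φ ε (node (leaf a) (leaf l)) := hr.trans_lt hσ
  refine ⟨r, hr, b, hb, hbr, ?_⟩
  rcases hc with hc | hc
  · exfalso
    rcases hx with rfl | hx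
    · exact (h.H1 r hre b hba hbl).1 hc
    · rw [mem_singleton_iff.1 hx] at hc
      exact (h.H1 r hre b hba hbl).2 hc
  have hc' : Ctc ε (XR Φ ε (insert a (insert l u)) r x) (XR Φ ε (insert a (insert l u)) r b) :=
    hc.2.2.2.2.2.2
  have e2 : XR Φ ε u r b = XR Φ ε (insert a (insert l u)) r b :=
    Y_real_eq hΦ hε h.h0 h.births (fun s hs => hfirst s (by linarith)) hbD le_rfl
  rw [← e2] at hc'
  have e1 : ∀ T : CTree, T.root = x →
      live Φ ε L ((insert a (insert l u) : Finset Src) : Set Src) T r →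
      XR Φ ε (insert a (insert l u)) r x = st Φ ε T r := by
    rintro T rfl hT
    exact Y_real_st hΦ hε h.births (fun q hq he =>
      hfirst q (by linarith) ⟨T.root, hXD _ hx q, Or.inr he⟩) hT
  rcases lt_or_ge r (sig Φ ε (node (leaf a) (leaf l))) with h1 | h1
  · left
    refine ⟨h1, ?_⟩
    rcases hx with rfl | hx
    · left
      rw [e1 (leaf x) rfl (h.live_a hΦ hε hxr h1.le)] at hc'
      exact ⟨hxr, hc'⟩
    · right
      obtain rfl : x = l := mem_singleton_iff.1 hx
      rw [e1 (leaf x) rfl (h.live_l hΦ hε hxr h1.le)] at hc'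
      exact ⟨hxr, hc'⟩
  · right
    refine ⟨h1, ?_⟩
    have hy := h.live_y hΦ hε h1 hre.le
    rcases hx with rfl | hx
    · left
      rw [e1 _ rfl hy] at hc'
      exact hc'
    · right
      obtain rfl : x = l := mem_singleton_iff.1 hx
      rw [e1 (node (leaf x) (leaf a)) rfl (live_swap hΦ hy hre.le), st_swap hΦ] at hc'
      exact hc'

end Vale.Agent.P119.FB
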