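import Vale.Agent.P119.FB.Conc2
import Vale.Agent.P119.TL.FirstHit
import Vale.Agent.P119.RB.Tie

/-!
# P119, feedback block: the window of the first collision (`helper119`)

The source `l` is inserted in the world `w`; its first M-contact is, at time `s₁`, the regular
beginning of a collision with the flying tree `T` (`RegHit`); `y = node T (leaf l)`.

* `TriW`: a third body comes, during the collision, into contact with the line of `T` or with the pair;
* `window`: if the first touch `σ` of `w` and `insert l w` is in `[s₁, ext y)`, then the root of `T` is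
  exposed in `w` at `σ`, or one of the two colliding particles is at time `σ` in contact with the
  real path of a particle which was exposed in `w` before `σ`;
* `touch_cases`: all the cases of the first touch.
-/

open MeasureTheory Filter Topology Set

noncomputable section

namespace Vale.Agent.P119.FB

open M CTree KU RB TL

variable {Φ : E3 → ℝ} {ε : ℝ} {L : ℕ}

/-- The first M-contact of `l` is the regular beginning of the collision with the tree `T`. -/
structure RegHit (Φ : E3 → ℝ) (ε : ℝ) (L : ℕ) (w : Finset Src) (l : Src) (T : CTree) : Prop where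
  /-- `l` is new -/
  notMem : l ∉ w
  /-- births and depths -/
  bd : ∀ a ∈ insert l w, 0 ≤ a.1 ∧ a.2.2 ≤ L
  /-- `T` is alive -/
  alive : alive Φ ε L (w : Set Src) T (sig Φ ε (node T (leaf l)))
  /-- `T` is flying -/
  ext_lt : ext Φ ε T < sig Φ ε (node T (leaf l))
  /-- `l` is flying -/
  birth_lt : l.1 < sig Φ ε (node T (leaf l))
  /-- they meet -/
  meets : Meets ε (CTree.ln Φ ε T, l.2.1)
  /-- no M-contacts of `l` before -/
  first : ∀ r < sig Φ ε (node T (leaf l)), ∀ b,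
    ¬mcon Φ ε L ((insert l w : Finset Src) : Set Src) r l b

/-- A third body comes into contact with the line of `T` or with the colliding pair. -/
def TriW (Φ : E3 → ℝ) (ε : ℝ) (L : ℕ) (w : Finset Src) (T : CTree) (l : Src) (t : ℝ) : Prop :=
  ∃ r ≤ t, sig Φ ε (node T (leaf l)) ≤ r ∧ r < ext Φ ε (node T (leaf l)) ∧
    ∃ S : CTree, live Φ ε L (w : Set Src) S r ∧ S.root ≠ T.root ∧
      (Ctc ε (KU.free r (CTree.ln Φ ε T)) (st Φ ε S r) ∨
        Ctc ε (pairLine Φ ε (CTree.ln Φ ε T, l.2.1) r).1 (st Φ ε S r) ∨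
        Ctc ε (pairLine Φ ε (CTree.ln Φ ε T, l.2.1) r).2 (st Φ ε S r))

theorem TriW.mono {w : Finset Src} {T : CTree} {l : Src} {s t : ℝ} (h : TriW Φ ε L w T l s)
    (hst : s ≤ t) : TriW Φ ε L w T l t := by
  obtain ⟨r, hr, h⟩ := h
  exact ⟨r, hr.trans hst, h⟩

variable {hΦ : IsPotential Φ} {hε : 0 < ε} {w : Finset Src} {l b : Src} {T : CTree} {r s σ : ℝ}

namespace RegHit

theorem births (h : RegHit Φ ε L w l T) : ∀ a ∈ insert l w, 0 ≤ a.1 := fun a ha => (h.bd a ha).1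

theorem births_w (h : RegHit Φ ε L w l T) : ∀ a ∈ w, 0 ≤ a.1 := fun a ha =>
  h.births a (Finset.mem_insert_of_mem ha)

theorem sub (h : RegHit Φ ε L w l T) : T.leaves ⊆ (w : Set Src) := (alive_pre h.alive).sub

theorem root_mem (h : RegHit Φ ε L w l T) : T.root ∈ w :=
  Finset.mem_coe.1 (h.sub T.root_mem_leaves)

theorem root_ne (h : RegHit Φ ε L w l T) : T.root ≠ l := fun h' => h.notMem (h' ▸ h.root_mem)

theorem ok (h : RegHit Φ ε L w l T) (hE : Exits Φ (rel ε (CTree.ln Φ ε T, l.2.1))) :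
    M.CTree.ok Φ ε (node T (leaf l)) := by
  refine ⟨(alive_pre h.alive).ok, (h.bd l (Finset.mem_insert_self _ _)).1, ?_, h.meets, hE,
    h.ext_lt, h.birth_lt⟩
  rw [disjoint_left]
  rintro x hx hx'
  rw [mem_singleton_iff.1 hx'] at hx
  exact h.notMem (Finset.mem_coe.1 (h.sub hx))

/-- Before the hit the statuses of the other particles are the same. -/
theorem stat_eq (h : RegHit Φ ε L w l T) (hΦ : IsPotential Φ) (hε : 0 < ε) {a : Src} (ha : a ≠ l)
    (hr : r < sig Φ ε (node T (leaf l))) :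
    stat Φ ε L (w : Set Src) a r = stat Φ ε L ((insert l w : Finset Src) : Set Src) a r :=
  stat_before h.notMem h.first hΦ hε ha hr

theorem alive_ins (h : RegHit Φ ε L w l T) (hΦ : IsPotential Φ) (hε : 0 < ε) :
    M.alive Φ ε L ((insert l w : Finset Src) : Set Src) T (sig Φ ε (node T (leaf l))) :=
  alive_congr hΦ hε w.finite_toSet (Finset.finite_toSet _)
    (fun _ => Finset.mem_coe.2 (Finset.mem_insert_of_mem h.root_mem))
    (fun _ hr => h.stat_eq hΦ hε h.root_ne hr) h.alive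

theorem alive_l (h : RegHit Φ ε L w l T) (hΦ : IsPotential Φ) (hε : 0 < ε) :
    M.alive Φ ε L ((insert l w : Finset Src) : Set Src) (leaf l)
      (sig Φ ε (node T (leaf l))) := by
  have hbd := h.bd l (Finset.mem_insert_self _ _)
  refine (alive_iff_live hΦ hε (Finset.finite_toSet _)).2 ⟨?_, h.birth_lt.le⟩
  exact live_leaf_of hΦ hε (Finset.finite_toSet _) (Finset.mem_coe.2 (Finset.mem_insert_self _ _))
    hbd.1 hbd.2 h.birth_lt.le h.first

end RegHit

/-- Mutual contact during the window, in terms of the M-contacts. -/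
structure Quiet (Φ : E3 → ℝ) (ε : ℝ) (L : ℕ) (w : Finset Src) (l : Src) (T : CTree) (e : ℝ) :
    Prop where
  /-- no contacts of the root of `T` in `w` -/
  old : ∀ r, sig Φ ε (node T (leaf l)) ≤ r → r < e → ∀ b, ¬mcon Φ ε L (w : Set Src) r T.root b
  /-- no contacts with others in `insert l w` -/
  ins : ∀ r, sig Φ ε (node T (leaf l)) ≤ r → r < e → ∀ b, b ≠ T.root → b ≠ l →
    ¬mcon Φ ε L ((insert l w : Finset Src) : Set Src) r T.root b ∧
      ¬mcon Φ ε L ((insert l w : Finset Src) : Set Src) r l b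

theorem Quiet.mono {e e' : ℝ} (h : Quiet Φ ε L w l T e') (he : e ≤ e') : Quiet Φ ε L w l T e :=
  ⟨fun r h1 h2 => h.old r h1 (h2.trans_le he), fun r h1 h2 => h.ins r h1 (h2.trans_le he)⟩

namespace RegHit

/-- While the window is quiet, only the root of `T` and `l` are different. -/
theorem dlt_subset (h : RegHit Φ ε L w l T) {e : ℝ} (hq : Quiet Φ ε L w l T e) :
    (Y Φ ε L hΦ hε).Dlt w (insert l w) e ⊆ {T.root, l} := by
  have h1 : (Y Φ ε L hΦ hε).Dlt w (insert l w) (sig Φ ε (node T (leaf l))) ⊆ {l} :=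
    dlt_subset_single h.notMem h.first
  refine Sys.dlt_subset (mc := fun W r a b => mcon Φ ε L (W : Set Src) r a b)
    (σ₁ := sig Φ ε (node T (leaf l)))
    (fun t a h1 h2 h3 h4 => new' w _ t a h1 h2 h3 h4) ?_ ?_ ?_ ?_ ?_
  · rintro a (⟨h1, h2⟩ | ⟨h1, h2⟩)
    · exact absurd (Finset.mem_insert_of_mem h1) h2
    · rcases Finset.mem_insert.1 h1 with h3 | h3
      · exact Or.inr h3
      · exact absurd h3 h2
  · intro a h1 h2 s
    exact sta_eq_of_notMem (by simpa using h1) (by simpa using h2) s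
  · exact h1.trans (subset_insert _ _)
  · rintro r hr1 hr2 x hx b hb
    have hb1 : b ≠ T.root := fun h => hb (Or.inl h)
    have hb2 : b ≠ l := fun h => hb (Or.inr h)
    rcases hx with rfl | hx
    · exact ⟨fun h => hq.old r hr1 hr2 b h.symm, fun h => (hq.ins r hr1 hr2 b hb1 hb2).1 h.symm⟩
    · rw [mem_singleton_iff.1 hx]
      exact ⟨fun h' => h.notMem (Finset.mem_coe.1 h'.mem.2),
        fun h => (hq.ins r hr1 hr2 b hb1 hb2).2 h.symm⟩
  · rintro r hr1 hr2 x hx c hc a ha -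
    have ha1 : a ≠ T.root := fun h => ha (Or.inl h)
    have ha2 : a ≠ l := fun h => ha (Or.inr h)
    rcases hc with rfl | hc
    · exact ⟨fun h => hq.old r hr1 hr2 a h.1.symm,
        fun h => (hq.ins r hr1 hr2 a ha1 ha2).1 h.1.symm⟩
    · rw [mem_singleton_iff.1 hc]
      exact ⟨fun h' => h.notMem (Finset.mem_coe.1 h'.1.mem.2),
        fun h => (hq.ins r hr1 hr2 a ha1 ha2).2 h.1.symm⟩

theorem live_y (h : RegHit Φ ε L w l T) (hΦ : IsPotential Φ) (hε : 0 < ε)
    (hE : Exits Φ (rel ε (CTree.ln Φ ε T, l.2.1))) (hd : (node T (leaf l)).depth ≤ L) {e : ℝ}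
    (hq : Quiet Φ ε L w l T e) (h1 : sig Φ ε (node T (leaf l)) ≤ r) (h2 : r ≤ e) :
    live Φ ε L ((insert l w : Finset Src) : Set Src) (node T (leaf l)) r :=
  pair_live hΦ hε (Finset.finite_toSet _) (h.ok hE) hd (h.alive_ins hΦ hε) (h.alive_l hΦ hε)
    (fun r h3 h4 b hb1 hb2 => hq.ins r h3 h4 b hb1 hb2) h1 h2

theorem alive_T (h : RegHit Φ ε L w l T) (hΦ : IsPotential Φ) (hε : 0 < ε) {e : ℝ}
    (hq : Quiet Φ ε L w l T e) (h1 : sig Φ ε (node T (leaf l)) ≤ r) (h2 : r ≤ e) :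
    M.alive Φ ε L (w : Set Src) T r :=
  fly_live hΦ hε w.finite_toSet h.alive (fun r h3 h4 b => hq.old r h3 h4 b) h1 h2

/-- A contact with a third body at the end of a quiet window. -/
theorem tri_of_mcon (h : RegHit Φ ε L w l T) (hΦ : IsPotential Φ) (hε : 0 < ε)
    (hE : Exits Φ (rel ε (CTree.ln Φ ε T, l.2.1))) (hd : (node T (leaf l)).depth ≤ L) {q : ℝ}
    (hq1 : sig Φ ε (node T (leaf l)) ≤ q) (hq2 : q < ext Φ ε (node T (leaf l)))
    (hQ : Quiet Φ ε L w l T q) {x c : Src} (hx : x = T.root ∨ x = l) (hc1 : c ≠ T.root)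
    (hc2 : c ≠ l) (hm : mcon Φ ε L (w : Set Src) q x c ∨
      mcon Φ ε L ((insert l w : Finset Src) : Set Src) q x c) : TriW Φ ε L w T l q := by
  have hW : ((insert l w : Finset Src) : Set Src).Finite := Finset.finite_toSet _
  have hw : (w : Set Src).Finite := w.finite_toSet
  have hD := h.dlt_subset (hΦ := hΦ) (hε := hε) hQ
  have hyl := h.live_y hΦ hε hE hd hQ hq1 le_rfl
  refine ⟨q, le_rfl, hq1, hq2, ?_⟩
  rcases hm with hm | hm
  · -- in the world `w`
    obtain ⟨-, P, S, hP, hS, h3, h4, h5⟩ := hm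
    rcases hx with rfl | rfl
    · refine ⟨S, h4, by rw [hS]; exact hc1, Or.inl ?_⟩
      have hTa := h.alive_T hΦ hε hQ hq1 le_rfl
      have hTl := (alive_iff_live hΦ hε hw).1 hTa
      have hsT : sig Φ ε T < q := (sig_le_ext hΦ hε (alive_pre h.alive).ok).trans_lt
        (h.ext_lt.trans_le hq1)
      have e1 : st Φ ε P q = st Φ ε T q := by
        rcases live_sig hΦ hε hw h3 with ⟨k1, k2⟩ | ⟨P₀, k1, k2, k3, k4⟩
        · exfalso
          have h7 := root_birth_le_sig hΦ hε (alive_pre h.alive).ok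
          rw [hP] at k2
          linarith
        · rw [← k4, live_unique hΦ hε hw k2 hTl.1 (k1.trans hP) k3 hsT]
      rw [e1, st_after hΦ hε hTl.1.ok hTl.2] at h5
      exact h5
    · have h6 := live.mem h3
      rw [hP] at h6
      exact absurd (Finset.mem_coe.1 h6) h.notMem
  · obtain ⟨-, P, S, hP, hS, h3, h4, h5⟩ := hm
    have hcw : c ∈ w := by
      have h6 := live.mem h4
      rw [hS] at h6
      rcases Finset.mem_insert.1 (Finset.mem_coe.1 h6) with h' | h'
      · exact absurd h' hc2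
      · exact h'
    obtain ⟨S', k1, k2, k3⟩ := live_congr' hΦ hε hW hw (T := S)
      (fun _ => by rw [hS]; exact Finset.mem_coe.2 hcw)
      (fun u hu => by
        rw [hS]
        by_contra hne
        have : c ∈ (Y Φ ε L hΦ hε).Dlt w (insert l w) q :=
          ⟨u, hu, u, le_rfl, fun h' => hne (stat_of_sta h').symm⟩
        rcases hD this with h' | h'
        · exact hc1 h'
        · exact hc2 h') h4
    refine ⟨S', k2, by rw [k1, hS]; exact hc1, Or.inr ?_⟩
    rw [k3]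
    rcases hx with rfl | rfl
    · left
      have e : st Φ ε P q = (pairLine Φ ε (CTree.ln Φ ε T, l.2.1) q).1 := by
        rcases hq1.lt_or_eq with h1 | h1
        · rcases live_sig hΦ hε hW h3 with ⟨k3, k4⟩ | ⟨S₀, k3, k4, k5, k6⟩
          · exfalso
            have h7 := root_birth_le_sig hΦ hε (h.ok hE)
            have h8 : T.root.1 ≤ sig Φ ε (node T (leaf l)) := h7
            rw [hP] at k4
            linarith
          · have h7 : S₀ = node T (leaf l) := live_unique hΦ hε hW k4 hyl (k3.trans hP) k5 h1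
            rw [← k6, h7]
            rfl
        · -- at the beginning of the collision
          have hTl := (alive_iff_live hΦ hε hW).1 (h.alive_ins hΦ hε)
          have h9 := st_sig hΦ hε (h.ok hE)
          rw [h1] at hTl h9
          have hsT : sig Φ ε T < q := (sig_le_ext hΦ hε (alive_pre h.alive).ok).trans_lt
            (h.ext_lt.trans_eq h1)
          rcases live_sig hΦ hε hW h3 with ⟨k3, k4⟩ | ⟨S₀, k3, k4, k5, k6⟩
          · exfalso
            have h7 := root_birth_le_sig hΦ hε (alive_pre h.alive).ok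
            rw [hP] at k4
            linarith
          · have h7 : S₀ = T := live_unique hΦ hε hW k4 hTl.1 (k3.trans hP) k5 hsT
            rw [← k6, h7, ← h9]
            rfl
      rw [← e]
      exact h5
    · right
      have hsw : live Φ ε L ((insert x w : Finset Src) : Set Src) (node (leaf x) T) q :=
        live_swap hΦ hyl hq2.le
      have hlb := h.birth_lt
      have e : st Φ ε P q = (pairLine Φ ε (CTree.ln Φ ε T, x.2.1) q).2 := by
        rcases hq1.lt_or_eq with h1 | h1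
        · have h1' : sig Φ ε (node (leaf x) T) < q := by rw [sig_swap T (leaf x)]; exact h1
          rcases live_sig hΦ hε hW h3 with ⟨k3, k4⟩ | ⟨S₀, k3, k4, k5, k6⟩
          · exfalso
            rw [hP] at k4
            linarith
          · have h7 : S₀ = node (leaf x) T := live_unique hΦ hε hW k4 hsw (k3.trans hP) k5 h1'
            rw [← k6, h7, st_swap hΦ]
            rfl
        · have hll := (alive_iff_live hΦ hε hW).1 (h.alive_l hΦ hε)
          have h9 := st_sig hΦ hε hsw.ok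
          rw [sig_swap T (leaf x), h1] at h9
          rw [h1] at hll
          have hsT : sig Φ ε (leaf x) < q := h.birth_lt.trans_eq h1
          rcases live_sig hΦ hε hW h3 with ⟨k3, k4⟩ | ⟨S₀, k3, k4, k5, k6⟩
          · exfalso
            rw [hP] at k4
            linarith
          · have h7 : S₀ = leaf x := live_unique hΦ hε hW k4 hll.1 (k3.trans hP) k5 hsT
            rw [← k6, h7, ← h9, st_swap hΦ]
            rfl
      rw [← e]
      exact h5

/-- The times of the contacts with third bodies. -/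
def badT (Φ : E3 → ℝ) (ε : ℝ) (L : ℕ) (w : Finset Src) (l : Src) (T : CTree) : Set ℝ :=
  {q | ∃ x c, (x = T.root ∨ x = l) ∧ c ≠ T.root ∧ c ≠ l ∧ (mcon Φ ε L (w : Set Src) q x c ∨
    mcon Φ ε L ((insert l w : Finset Src) : Set Src) q x c)}

omit hΦ hε in
theorem badT_closed (hΦ : IsPotential Φ) (hε : 0 < ε) : DClosed (badT Φ ε L w l T) := by
  have hA : DClosed {q | ∃ p ∈ ({T.root, l} : Finset Src) ×ˢ ((insert l w) \ {T.root, l}),
      q ∈ {q | mcon Φ ε L (w : Set Src) q p.1 p.2} ∪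
        {q | mcon Φ ε L ((insert l w : Finset Src) : Set Src) q p.1 p.2}} :=
    DClosed.biUnion _ fun p _ => DClosed.union (mcon_closed hΦ hε w.finite_toSet p.1 p.2)
      (mcon_closed hΦ hε (Finset.finite_toSet _) p.1 p.2)
  convert hA using 1
  ext q
  constructor
  · rintro ⟨x, c, hx, h1, h2, hm⟩
    have hc : c ∈ insert l w := by
      rcases hm with hm | hm
      · exact Finset.mem_insert_of_mem (Finset.mem_coe.1 hm.mem.2)
      · exact Finset.mem_coe.1 hm.mem.2
    refine ⟨(x, c), Finset.mem_product.2 ⟨?_, ?_⟩, hm⟩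
    · rcases hx with rfl | rfl <;> simp
    · rw [Finset.mem_sdiff]
      refine ⟨hc, ?_⟩
      simp [h1, h2]
  · rintro ⟨⟨x, c⟩, hp, hm⟩
    rw [Finset.mem_product, Finset.mem_sdiff] at hp
    obtain ⟨hx, hcW, hc⟩ := hp
    simp only [Finset.mem_insert, Finset.mem_singleton] at hx hc
    push Not at hc
    exact ⟨x, c, hx, hc.1, hc.2, hm⟩

theorem quiet_iff (hl : l ∉ w) {e : ℝ} : Quiet Φ ε L w l T e ↔
    ∀ r, sig Φ ε (node T (leaf l)) ≤ r → r < e → r ∉ badT Φ ε L w l T := by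
  constructor
  · rintro h r h1 h2 ⟨x, c, hx, hc1, hc2, hm⟩
    rcases hm with hm | hm
    · rcases hx with rfl | rfl
      · exact h.old r h1 h2 c hm
      · exact hl (Finset.mem_coe.1 hm.mem.1)
    · rcases hx with rfl | rfl
      · exact (h.ins r h1 h2 c hc1 hc2).1 hm
      · exact (h.ins r h1 h2 c hc1 hc2).2 hm
  · intro h
    refine ⟨fun r h1 h2 b hm => ?_, fun r h1 h2 b hb1 hb2 => ⟨fun hm => ?_, fun hm => ?_⟩⟩
    · refine h r h1 h2 ⟨T.root, b, Or.inl rfl, hm.1.symm, ?_, Or.inl hm⟩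
      intro hb
      rw [hb] at hm
      exact hl (Finset.mem_coe.1 hm.mem.2)
    · exact h r h1 h2 ⟨T.root, b, Or.inl rfl, hb1, hb2, Or.inr hm⟩
    · exact h r h1 h2 ⟨l, b, Or.inr rfl, hb1, hb2, Or.inr hm⟩

/-- **Without third bodies the window is quiet.** -/
theorem quiet (h : RegHit Φ ε L w l T) (hΦ : IsPotential Φ) (hε : 0 < ε)
    (hE : Exits Φ (rel ε (CTree.ln Φ ε T, l.2.1))) (hd : (node T (leaf l)).depth ≤ L) {e : ℝ}
    (he : e ≤ ext Φ ε (node T (leaf l))) (ht : ∀ r < e, ¬TriW Φ ε L w T l r) :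
    Quiet Φ ε L w l T e := by
  -- the first time of a contact with a third body
  by_contra hcon
  rw [quiet_iff h.notMem] at hcon
  push Not at hcon
  obtain ⟨q₀, hq1, hq₀, hq₀A⟩ := hcon
  obtain ⟨q, hqq, ⟨hqA, hq1⟩, hfirst⟩ := ((badT_closed hΦ hε (L := L) (w := w) (l := l)
    (T := T)).inter (dclosed_le (sig Φ ε (node T (leaf l))))).first
      (m := sig Φ ε (node T (leaf l))) (fun _ h => h.2) ⟨hq₀A, hq1⟩
  have hq1 : sig Φ ε (node T (leaf l)) ≤ q := hq1
  have hqe : q < e := hqq.trans_lt hq₀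
  have hQ : Quiet Φ ε L w l T q := by
    rw [quiet_iff h.notMem]
    exact fun r h1 h2 hr => hfirst r h2 ⟨hr, h1⟩
  obtain ⟨x, c, hx, hc1, hc2, hm⟩ := hqA
  exact ht q hqe (h.tri_of_mcon hΦ hε hE hd hq1 (hqe.trans_le he) hQ hx hc1 hc2 hm)

/-- The window is quiet a bit longer. -/
theorem quiet_right (h : RegHit Φ ε L w l T) (hΦ : IsPotential Φ) (hε : 0 < ε)
    (hE : Exits Φ (rel ε (CTree.ln Φ ε T, l.2.1))) (hd : (node T (leaf l)).depth ≤ L)
    (h1 : sig Φ ε (node T (leaf l)) ≤ σ) (h2 : σ < ext Φ ε (node T (leaf l)))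
    (ht : ¬TriW Φ ε L w T l σ) :
    ∃ e, σ < e ∧ e ≤ ext Φ ε (node T (leaf l)) ∧ Quiet Φ ε L w l T e := by
  have hQ := h.quiet hΦ hε hE hd (e := σ) h2.le fun r hr h' => ht (h'.mono hr.le)
  have hno : σ ∉ badT Φ ε L w l T := by
    rintro ⟨x, c, hx, hc1, hc2, hm⟩
    exact ht (h.tri_of_mcon hΦ hε hE hd h1 h2 hQ hx hc1 hc2 hm)
  obtain ⟨δ, hδ, hr⟩ := right_of_dclosed (badT_closed hΦ hε) hno
  refine ⟨min (σ + δ) (ext Φ ε (node T (leaf l))), lt_min (by linarith) h2, min_le_right _ _, ?_⟩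
  rw [quiet_iff h.notMem] at hQ ⊢
  intro r h3 h4
  rcases lt_or_ge r σ with h5 | h5
  · exact hQ r h3 h5
  · exact hr r h5 (h4.trans_le (min_le_left _ _))

end RegHit

/-- One of the two colliding particles is in contact with a particle exposed before. -/
def WinCon (Φ : E3 → ℝ) (ε : ℝ) (L : ℕ) (hΦ : IsPotential Φ) (hε : 0 < ε) (w : Finset Src)
    (T : CTree) (l : Src) (σ : ℝ) : Prop :=
  ∃ b, b ≠ T.root ∧ b ≠ l ∧ b.1 ≤ σ ∧ (∃ s < σ, (Y Φ ε L hΦ hε).Exp w b s) ∧
    (Ctc ε (pairLine Φ ε (CTree.ln Φ ε T, l.2.1) σ).1 (XR Φ ε w σ b) ∨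
      Ctc ε (pairLine Φ ε (CTree.ln Φ ε T, l.2.1) σ).2 (XR Φ ε w σ b))

/-- **The window lemma.** -/
theorem window (h : RegHit Φ ε L w l T) (hE : Exits Φ (rel ε (CTree.ln Φ ε T, l.2.1)))
    (hd : (node T (leaf l)).depth ≤ L) (h1 : sig Φ ε (node T (leaf l)) ≤ σ)
    (h2 : σ < ext Φ ε (node T (leaf l))) (ht : ¬TriW Φ ε L w T l σ)
    (hσ : (Y Φ ε L hΦ hε).Touch w (insert l w) σ)
    (hfirst : ∀ s < σ, ¬(Y Φ ε L hΦ hε).Touch w (insert l w) s)
    (hT : ¬(Y Φ ε L hΦ hε).Exp w T.root σ) : WinCon Φ ε L hΦ hε w T l σ := by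
  have hW : ((insert l w : Finset Src) : Set Src).Finite := Finset.finite_toSet _
  have hw : (w : Set Src).Finite := w.finite_toSet
  have htr : (Y Φ ε L hΦ hε).Transfer w (insert l w) := Y_transfer hΦ hε h.births_w h.births
  obtain ⟨e, he1, he2, hQ⟩ := h.quiet_right hΦ hε hE hd h1 h2 ht
  have hD : (Y Φ ε L hΦ hε).Dlt w (insert l w) e ⊆ {T.root, l} :=
    h.dlt_subset (hΦ := hΦ) (hε := hε) hQ
  have hDσ : (Y Φ ε L hΦ hε).Dlt w (insert l w) σ ⊆ {T.root, l} := by
    rintro z ⟨q, hq, hz⟩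
    exact hD ⟨q, hq.trans he1, hz⟩
  have hlD : ∀ s, l ∈ (Y Φ ε L hΦ hε).D w (insert l w) s := fun s =>
    mem_D_of_mem (fun h' => h.notMem (h'.2 (Finset.mem_insert_self _ _))) s
  -- the pair is live up to `σ`
  have hys : ∀ r, sig Φ ε (node T (leaf l)) ≤ r → r ≤ σ →
      lives Φ ε L ((insert l w : Finset Src) : Set Src) (node T (leaf l)) r := fun r h3 h4 =>
    (h.live_y hΦ hε hE hd hQ (h1.trans he1.le) le_rfl).lives_of_lt (h4.trans_lt he1) h3
  have hlunexp : ∀ q < σ, ¬(Y Φ ε L hΦ hε).Exp (insert l w) l q := fun q hq he =>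
    hfirst q hq ⟨l, hlD q, Or.inr he⟩
  have hTunexp : ∀ q < σ, ¬(Y Φ ε L hΦ hε).Exp (insert l w) T.root q := fun q hq he =>
    hT (((Sys.exp_iff htr (hfirst q hq) le_rfl).2 he).mono hq.le)
  -- `T.root` and `l` are not bad
  have hbad : ∀ x, x = T.root ∨ x = l → ∀ r ≤ σ,
      (Y Φ ε L hΦ hε).bad (insert l w) x r → (Y Φ ε L hΦ hε).bad w x r := by
    rintro x hx r hr ⟨q, hq, hb⟩
    have hqσ : q ≤ σ := hq.trans hr
    rcases lt_or_ge q (sig Φ ε (node T (leaf l))) with h3 | h3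
    · exfalso
      rcases hqσ.lt_or_eq with h4 | h4
      · have h5 : (Y Φ ε L hΦ hε).Exp (insert l w) x q := exp_of_badi hb le_rfl
        rcases hx with rfl | rfl
        · exact hTunexp q h4 h5
        · exact hlunexp q h4 h5
      · linarith
    · exfalso
      have h4 := not_badi_pair hΦ hε hW (hys q h3 hqσ) (hqσ.trans_lt h2)
        fun b hb1 hb2 => hQ.ins q h3 (hqσ.trans_lt he1) b hb1 hb2
      rcases hx with rfl | rfl
      · exact h4.1 hb
      · exact h4.2 hb
  have hXe : ∀ a ∈ ({T.root, l} : Set Src), ¬(Y Φ ε L hΦ hε).Exp w a σ := by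
    rintro a (rfl | ha) he
    · exact hT he
    · rw [mem_singleton_iff.1 ha] at he
      exact h.notMem he.mem
  rcases Sys.direct' (X := {T.root, l}) (fun h => RB.con.symm h)
    (fun a ha _ => Finset.mem_insert_of_mem ha) hXe
    (Y_loc hΦ hε h.births_w h.births) hDσ hσ hfirst with
    ⟨x, hx, b, r, hr, hb, hc⟩ | ⟨a, r, hr, h3, h4⟩
  rotate_left
  · -- nobody is newly bad
    exfalso
    by_cases ha : a = T.root ∨ a = l
    · exact h4 (hbad a ha r hr h3)
    · have haD : a ∉ (Y Φ ε L hΦ hε).D w (insert l w) r := fun h' =>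
        ha (hD ⟨r, hr.trans_lt he1, h'⟩)
      exact h4 (((Y_loc hΦ hε h.births_w h.births).bad r a haD).2 h3)
  have hx : x = T.root ∨ x = l := hx
  have hbw : b ∈ w := hb.mem
  have hbl : b ≠ l := fun h' => h.notMem (h' ▸ hbw)
  have hbk : b ≠ T.root := by
    rintro rfl
    exact hT (hb.mono hr)
  have hxun : ∀ q < σ, ¬(Y Φ ε L hΦ hε).Exp (insert l w) x q := by
    intro q hq
    rcases hx with rfl | rfl
    · exact hTunexp q hq
    · exact hlunexp q hq
  have hrσ : r = σ := by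
    rcases hr.lt_or_eq with h' | h'
    · exact absurd (exp_of_con ((Sys.exp_iff htr (hfirst r h') le_rfl).1 hb) hc) (hxun r h')
    · exact h'
  subst hrσ
  have hxr : x.1 ≤ r := (RB.con.birth_le hΦ hε hc).1
  have hbr : b.1 ≤ r := (RB.con.birth_le hΦ hε hc).2
  have hnm : ¬mcon Φ ε L ((insert l w : Finset Src) : Set Src) r x b := fun hm =>
    (RegHit.quiet_iff h.notMem).1 hQ r h1 he1 ⟨x, b, hx, hbk, hbl, Or.inr hm⟩
  have hbe : ∃ s < r, (Y Φ ε L hΦ hε).Exp w b s := by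
    by_contra hcon
    push Not at hcon
    refine hnm (Y_mcon_of_con hΦ hε h.bd hxun (fun q hq he => ?_) hc)
    exact hcon q hq ((Sys.exp_iff htr (hfirst q hq) le_rfl).2 he)
  rcases hc with hc | hc
  · exact absurd hc hnm
  have hc' : Ctc ε (XR Φ ε (insert l w) r x) (XR Φ ε (insert l w) r b) := hc.2.2.2.2.2.2
  have hbD : b ∉ (Y Φ ε L hΦ hε).Dlt w (insert l w) r := by
    intro h'
    rcases hDσ h' with h' | h'
    · exact hbk h'
    · exact hbl h'
  have e2 : XR Φ ε w r b = XR Φ ε (insert l w) r b :=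
    Y_real_eq hΦ hε h.births_w h.births hfirst hbD le_rfl
  rw [← e2] at hc'
  have hl := (hys r h1 le_rfl).live
  refine ⟨b, hbk, hbl, hbr, hbe, ?_⟩
  rcases hx with rfl | rfl
  · left
    have e1 : XR Φ ε (insert l w) r T.root = st Φ ε (node T (leaf l)) r :=
      Y_real_st hΦ hε h.births (T := node T (leaf l)) hxun hl
    rw [e1] at hc'
    exact hc'
  · right
    have e1 : XR Φ ε (insert x w) r x = st Φ ε (node (leaf x) T) r :=
      Y_real_st hΦ hε h.births (T := node (leaf x) T) hxun (live_swap hΦ hl h2.le)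
    rw [e1, st_swap hΦ] at hc'
    exact hc'

/-- `Hit1` (after the first contact) gives a regular hit. -/
theorem RegHit.of_hit1 (h : Hit1 Φ ε L hΦ hε w l T) (hbd : ∀ a ∈ insert l w, 0 ≤ a.1 ∧ a.2.2 ≤ L)
    (hn : ∀ r < sig Φ ε (node T (leaf l)), ∀ b,
      ¬mcon Φ ε L ((insert l w : Finset Src) : Set Src) r l b) : RegHit Φ ε L w l T :=
  ⟨h.notMem, hbd, h.alive_w, h.ok.2.2.2.2.2.1, h.ok.2.2.2.2.2.2, h.ok.2.2.2.1, hn⟩

open Classical in
/-- The first time of an M-contact. -/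
theorem exists_first_mcon (hΦ : IsPotential Φ) (hε : 0 < ε) {t : ℝ}
    (hm : mcon Φ ε L ((insert l w : Finset Src) : Set Src) t l b) :
    ∃ s ≤ t, (∃ b, mcon Φ ε L ((insert l w : Finset Src) : Set Src) s l b) ∧
      ∀ r < s, ∀ b, ¬mcon Φ ε L ((insert l w : Finset Src) : Set Src) r l b := by
  have hcl : DClosed {q | ∃ c ∈ insert l w,
      q ∈ {q | mcon Φ ε L ((insert l w : Finset Src) : Set Src) q l c}} :=
    DClosed.biUnion _ fun c _ => mcon_closed hΦ hε (Finset.finite_toSet _) l c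
  obtain ⟨s, hs, ⟨c, -, hc⟩, hfirst⟩ := hcl.first (m := 0)
    (fun q ⟨c, _, hc⟩ => mcon.nonneg hΦ hε hc) (t := t) ⟨b, Finset.mem_coe.1 hm.mem.2, hm⟩
  exact ⟨s, hs, ⟨c, hc⟩, fun r hr b hb => hfirst r hr ⟨b, Finset.mem_coe.1 hb.mem.2, hb⟩⟩

/-- **All the cases of the first touch** `σ` of `w` and `insert l w`. -/
theorem touch_cases' (hl : l ∉ w) (hbd : ∀ a ∈ insert l w, 0 ≤ a.1 ∧ a.2.2 ≤ L)
    (hσ : (Y Φ ε L hΦ hε).Touch w (insert l w) σ)
    (hfirst : ∀ s < σ, ¬(Y Φ ε L hΦ hε).Touch w (insert l w) s) :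
    Direct Φ ε L hΦ hε w l σ ∨ Irr Φ ε L w l σ ∨
      ∃ T : CTree, RegHit Φ ε L w l T ∧ sig Φ ε (node T (leaf l)) ≤ σ ∧
        ¬(Y Φ ε L hΦ hε).Exp w T.root (sig Φ ε (node T (leaf l))) ∧
        (¬Exits Φ (rel ε (CTree.ln Φ ε T, l.2.1)) ∨ L < (node T (leaf l)).depth ∨
          TriW Φ ε L w T l σ ∨
          (Hit1 Φ ε L hΦ hε w l T ∧ sig Φ ε (node T (leaf l)) < σ ∧
            σ < ext Φ ε (node T (leaf l)) ∧ (Y Φ ε L hΦ hε).Exp w T.root σ) ∨
          ((sig Φ ε (node T (leaf l)) = σ ∨ Hit1 Φ ε L hΦ hε w l T) ∧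
            σ < ext Φ ε (node T (leaf l)) ∧ WinCon Φ ε L hΦ hε w T l σ) ∨
          (Hit1 Φ ε L hΦ hε w l T ∧ ext Φ ε (node T (leaf l)) ≤ σ)) := by
  have h0 : ∀ a ∈ insert l w, 0 ≤ a.1 := fun a ha => (hbd a ha).1
  have hw0 : ∀ a ∈ w, 0 ≤ a.1 := fun a ha => h0 a (Finset.mem_insert_of_mem ha)
  have hl0 := hbd l (Finset.mem_insert_self _ _)
  by_cases hA : ∃ r < σ, ∃ b, mcon Φ ε L ((insert l w : Finset Src) : Set Src) r l b
  · -- the first M-contact is before `σ`
    obtain ⟨r, hr, b, hb⟩ := hA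
    obtain ⟨s₁, hs, hex, hn⟩ := exists_first_mcon hΦ hε hb
    have hsσ : s₁ < σ := hs.trans_lt hr
    obtain ⟨T, h1, rfl⟩ := exists_hit1 hl h0 hn hex (hfirst s₁ hsσ)
    have hR := RegHit.of_hit1 h1 hbd hn
    right; right
    refine ⟨T, hR, hsσ.le, h1.unexp_w, ?_⟩
    by_cases h2 : ext Φ ε (node T (leaf l)) ≤ σ
    · exact Or.inr (Or.inr (Or.inr (Or.inr (Or.inr ⟨h1, h2⟩))))
    push Not at h2
    by_cases h3 : TriW Φ ε L w T l σ
    · exact Or.inr (Or.inr (Or.inl h3))
    by_cases h4 : (Y Φ ε L hΦ hε).Exp w T.root σ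
    · exact Or.inr (Or.inr (Or.inr (Or.inl ⟨h1, hsσ, h2, h4⟩)))
    · exact Or.inr (Or.inr (Or.inr (Or.inr (Or.inl ⟨Or.inr h1, h2,
        window hR h1.ok.2.2.2.2.1 h1.lives_y.depth hsσ.le h2 h3 hσ hfirst h4⟩))))
  · push Not at hA
    rcases direct_of_touch hw0 hl hl0.1 hl0.2 hσ hfirst hA with h1 | ⟨⟨b, hb⟩, -⟩
    · exact Or.inl h1
    · rcases classify hΦ hε hl hl0.1 hl0.2 hb hA with h1 | ⟨T, h1, h2, h3, h4, h5, h6⟩
      · exact Or.inr (Or.inl h1)
      have hsw : hitT ε (l.2.1, CTree.ln Φ ε T) = sig Φ ε (node T (leaf l)) :=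
        hitT_swap (ε := ε) (CTree.ln Φ ε T, l.2.1)
      have hsσ : sig Φ ε (node T (leaf l)) = σ := by rw [← hsw, h6]
      have hR : RegHit Φ ε L w l T := by
        refine ⟨hl, hbd, ?_, ?_, ?_, ?_, ?_⟩
        · rw [hsσ]; exact h2
        · rw [hsσ]; exact h3
        · rw [hsσ]; exact h4
        · exact (meets_swap (ε := ε) (CTree.ln Φ ε T, l.2.1)).1 h5
        · rw [hsσ]; exact hA
      by_cases h7 : (Y Φ ε L hΦ hε).Exp w T.root σ
      · left
        have hTl := (alive_iff_live hΦ hε w.finite_toSet).1 h2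
        refine ⟨σ, le_rfl, h4.le, T.root, h7, Or.inr ⟨T, rfl, hTl.1, ?_⟩⟩
        obtain ⟨-, P, S, hP, hS, k3, k4, k5⟩ := hb
        have e1 : st Φ ε P σ = KU.free σ l.2.1 := by
          have := st_eq_free hΦ hε (Finset.finite_toSet _) k3 (by
            rw [hP]
            exact live_leaf_of hΦ hε (Finset.finite_toSet _)
              (Finset.mem_coe.2 (Finset.mem_insert_self _ _)) hl0.1 hl0.2 h4.le hA)
          rw [this, hP]
        have hTi := (alive_iff_live hΦ hε (Finset.finite_toSet _)).1 (hR.alive_ins hΦ hε)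
        rw [hsσ] at hTi
        have hsT : sig Φ ε T < σ := (sig_le_ext hΦ hε hTi.1.ok).trans_lt h3
        have e2 : st Φ ε S σ = st Φ ε T σ := by
          rcases live_sig hΦ hε (Finset.finite_toSet _) k4 with ⟨g1, g2⟩ | ⟨S₀, g1, g2, g3, g4⟩
          · exfalso
            have h8 := root_birth_le_sig hΦ hε hTi.1.ok
            rw [hS, ← h1] at g2
            linarith
          · rw [← g4, live_unique hΦ hε (Finset.finite_toSet _) g2 hTi.1
              (g1.trans (hS.trans h1.symm)) g3 hsT]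
        rw [← e1, ← e2]
        exact k5
      right; right
      refine ⟨T, hR, hsσ.le, by rw [hsσ]; exact h7, ?_⟩
      by_cases h8 : Exits Φ (rel ε (CTree.ln Φ ε T, l.2.1))
      swap
      · exact Or.inl h8
      by_cases h9 : (node T (leaf l)).depth ≤ L
      swap
      · exact Or.inr (Or.inl (not_le.1 h9))
      by_cases h10 : TriW Φ ε L w T l σ
      · exact Or.inr (Or.inr (Or.inl h10))
      have h11 : σ < ext Φ ε (node T (leaf l)) := by
        rw [← hsσ]
        exact sig_lt_ext hΦ hε (hR.ok h8)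
      exact Or.inr (Or.inr (Or.inr (Or.inr (Or.inl ⟨Or.inl hsσ, h11,
        window hR h8 h9 hsσ.le h11 h10 hσ hfirst h7⟩))))

/-- **All the cases of the first touch** `σ` of `w` and `insert l w`. -/
theorem touch_cases (hl : l ∉ w) (hbd : ∀ a ∈ insert l w, 0 ≤ a.1 ∧ a.2.2 ≤ L)
    (hσ : (Y Φ ε L hΦ hε).Touch w (insert l w) σ)
    (hfirst : ∀ s < σ, ¬(Y Φ ε L hΦ hε).Touch w (insert l w) s) :
    Direct Φ ε L hΦ hε w l σ ∨ Irr Φ ε L w l σ ∨
      ∃ T : CTree, RegHit Φ ε L w l T ∧ sig Φ ε (node T (leaf l)) ≤ σ ∧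
        ¬(Y Φ ε L hΦ hε).Exp w T.root (sig Φ ε (node T (leaf l))) ∧
        (¬Exits Φ (rel ε (CTree.ln Φ ε T, l.2.1)) ∨ L < (node T (leaf l)).depth ∨
          TriW Φ ε L w T l σ ∨
          (Hit1 Φ ε L hΦ hε w l T ∧ sig Φ ε (node T (leaf l)) < σ ∧
            σ < ext Φ ε (node T (leaf l)) ∧ (Y Φ ε L hΦ hε).Exp w T.root σ) ∨
          (σ < ext Φ ε (node T (leaf l)) ∧ WinCon Φ ε L hΦ hε w T l σ) ∨
          (Hit1 Φ ε L hΦ hε w l T ∧ ext Φ ε (node T (leaf l)) ≤ σ)) := by
  rcases touch_cases' hl hbd hσ hfirst with h | h | ⟨T, h1, h2, h3, h4⟩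
  · exact Or.inl h
  · exact Or.inr (Or.inl h)
  · refine Or.inr (Or.inr ⟨T, h1, h2, h3, ?_⟩)
    rcases h4 with h4 | h4 | h4 | h4 | h4 | h4
    · exact Or.inl h4
    · exact Or.inr (Or.inl h4)
    · exact Or.inr (Or.inr (Or.inl h4))
    · exact Or.inr (Or.inr (Or.inr (Or.inl h4)))
    · exact Or.inr (Or.inr (Or.inr (Or.inr (Or.inl h4.2))))
    · exact Or.inr (Or.inr (Or.inr (Or.inr (Or.inr h4))))

end Vale.Agent.P119.FB
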